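import Vale.Agent.P092.H315P.G4
import Vale.Agent.P092.H416.CLpt
import Vale.Agent.P092.CL.Lt

/-!
P092, tracks 2 and 3 (helper315), capacities for all forms, part 5: row [CL-CAP] in the letters of
`CL.Lt`.

* `capP1`, `capPr`: the pair form of the capacities of opposite points and of opposite maximal
  singular spaces;
* `loc1`, `locr`, `near1`, `nearr`: the separate statements;
* `cap1`, `cap2`: `H306.G.CapG` for the letters `CL.lt`.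
-/

set_option linter.all false

open Matrix Module Set Topology

namespace Vale.Agent.P092.H315P.G

open Vale.Agent.P092.H789.S2
open Vale.Agent.P092.H100.Gr (Gr Fr sp sp_cont ch ch_mn ch_compact exists_ch li_of_mn eq_of_le)
open Vale.Agent.P092.H303 (FormGroup)
open Vale.Agent.P092.H714.Cl (hf Frm mem_formGroup)
open Vale.Agent.P092.H370.Po
open Vale.Agent.P092.H43.G (gm opg_span Opg Opp opp_iff_not_col)
open Vale.Agent.P092.H306.G (CapG)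
open Vale.Agent.P092.CL (ta nmM NW1 NWr AttS)

section alg

variable {k : Type} [NontriviallyNormedField k] {n : Type} [Fintype n] [DecidableEq n]
  {σ : k →+* k} {ε : k} {J : Matrix n n k} {r j : ℕ}

theorem inv_of (hF : Frm σ ε J) : J * J⁻¹ = 1 := by
  refine Matrix.mul_nonsing_inv _ (isUnit_iff_ne_zero.2 fun h => ?_)
  obtain ⟨x, hx, hx0⟩ := Matrix.exists_vecMul_eq_zero_iff.2 h
  obtain ⟨y, hy⟩ := hF.nondeg x hx
  refine hy ?_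
  unfold hf
  rw [Matrix.dotProduct_mulVec, hx0, zero_dotProduct]

theorem ta_mulVec (g : SpecialLinearGroup n k) (x : n → k) : ta g *ᵥ x = x ᵥ* (g⁻¹).1 := by
  unfold ta
  rw [Matrix.mulVec_transpose]

theorem ta_iso (g : FormGroup σ J) (x y : n → k) :
    bf σ J (ta g.1 *ᵥ x) (ta g.1 *ᵥ y) = bf σ J x y := by
  rw [ta_mulVec, ta_mulVec]
  exact mem_formGroup.1 (inv_mem g.2) x y

theorem ta_mem {X : SGr σ J j} (g : FormGroup σ J) {x : n → k} (hx : x ∈ X.S) :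
    ta g.1 *ᵥ x ∈ (g • X).S := by
  rw [ta_mulVec, smul_S]
  exact vecMul_mem_act hx

theorem ta_div (g g' : FormGroup σ J) :
    ta (g' * g⁻¹ : FormGroup σ J).1 = ta g'.1 * ta (g⁻¹ : FormGroup σ J).1 := by
  change ((g'.1 * g.1⁻¹)⁻¹).1ᵀ = (g'.1⁻¹).1ᵀ * ((g.1⁻¹)⁻¹).1ᵀ
  rw [_root_.mul_inv_rev]
  change (((g.1⁻¹)⁻¹).1 * (g'.1⁻¹).1)ᵀ = _
  rw [Matrix.transpose_mul]

theorem ta_inv (g : FormGroup σ J) : ta g.1 * ta (g⁻¹ : FormGroup σ J).1 = 1 := by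
  change (g.1⁻¹).1ᵀ * ((g.1⁻¹)⁻¹).1ᵀ = 1
  rw [← Matrix.transpose_mul]
  have : ((g.1⁻¹)⁻¹).1 * (g.1⁻¹).1 = 1 := congrArg Subtype.val (inv_mul_cancel (g.1⁻¹))
  rw [this, Matrix.transpose_one]

theorem le_nmM (A : Matrix n n k) (a b : n) : ‖A a b‖ ≤ nmM A :=
  (norm_le_pi_norm (fun b => A a b : n → k) b).trans
    (norm_le_pi_norm (fun a b => A a b : n → n → k) a)

theorem nmM_le {A : Matrix n n k} {C : ℝ} (hC : 0 ≤ C) (h : ∀ a b, ‖A a b‖ ≤ C) : nmM A ≤ C := by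
  unfold nmM
  rw [pi_norm_le_iff_of_nonneg hC]
  intro a
  rw [pi_norm_le_iff_of_nonneg hC]
  exact h a

theorem nmM_nonneg (A : Matrix n n k) : 0 ≤ nmM A := norm_nonneg _

theorem exists_nmM [Nonempty n] (A : Matrix n n k) : ∃ a b, nmM A ≤ ‖A a b‖ := by
  obtain ⟨⟨a, b⟩, hab⟩ := Finite.exists_max fun p : n × n => ‖A p.1 p.2‖
  exact ⟨a, b, nmM_le (norm_nonneg _) fun a' b' => hab (a', b')⟩

/-- opposite points of the record -/
theorem opp_of1 (hF : Frm σ ε J) (hW : WI σ J r) (hr : 2 ≤ r) {X Y : SGr σ J 1}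
    (h : ∀ l : SGr σ J r, Inc X l → ¬ Inc Y l) : Opp X Y := by
  rw [opp_iff_not_col]
  intro hc
  obtain ⟨y, hy0, hy⟩ := H416.CL.exists_vec Y
  have hym : y ∈ Y.S := H416.CL.mem_of_span hy
  have hs : Sing σ J (X.S ⊔ Submodule.span k {y}) :=
    sing_sup_span hF X.sing (Y.sing.zero hym) fun x hx => hc x hx y hym
  obtain ⟨⟨W, hW1, hW2⟩, -⟩ := hW
  have hd : finrank k ↥(X.S ⊔ Submodule.span k {y}) ≤ r := by
    refine (Submodule.finrank_add_le_finrank_add_finrank _ _).trans ?_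
    rw [X.dim, finrank_span_singleton hy0]
    exact hr
  obtain ⟨Z, h1, h2, h3⟩ := exists_above hF hs hW1 hd hW2.ge
  refine h (SGr.mk' Z h2 h3) (le_sup_left.trans h1) ?_
  change Y.S ≤ Z
  rw [hy]
  exact le_sup_right.trans h1

/-- opposite maximal spaces of the record -/
theorem opp_of2 (hF : Frm σ ε J) (hW : WI σ J r) {X Y : SGr σ J r}
    (h : ∀ x : SGr σ J 1, Inc x X → ¬ Inc x Y) : Opp X Y := by
  intro x hx hxy
  by_contra hx0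
  have hxx : hf σ J x x = 0 := X.sing.zero hx
  have hxY : x ∈ Y.S := by
    by_contra hn
    have h1 := hW.2 _ (sing_sup_span hF Y.sing hxx fun y hy => hF.symm_zero (hxy y hy))
    rw [finrank_sup_span hn, Y.dim] at h1
    omega
  refine h (H416.CL.pv σ J x hx0 hxx) ?_ ?_
  · change Submodule.span k {x} ≤ X.S
    rwa [Submodule.span_singleton_le_iff_mem]
  · change Submodule.span k {x} ≤ Y.S
    rwa [Submodule.span_singleton_le_iff_mem]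

end alg

section caps

variable {k : Type} [NontriviallyNormedField k] {n : Type} [Fintype n] [DecidableEq n]
  {σ : k →+* k} {ε : k} {J : Matrix n n k} {r j : ℕ}

/-- sizes are bounded below -/
theorem exists_low (hF : Frm σ ε J) (hσ : ∀ x, ‖σ x‖ = ‖x‖) [Nonempty n] :
    ∃ c : ℝ, 0 < c ∧ ∀ g : FormGroup σ J, c ≤ nmM (ta g.1) := by
  obtain ⟨D, h⟩ := exists_fb hF hσ (inv_of hF) 0
  have hD := h.pos
  refine ⟨1 / D ^ 2, by positivity, fun g => ?_⟩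
  rw [div_le_iff₀ (by positivity)]
  have := h.low (nmM_nonneg _) (ta_iso g) (le_nmM (ta g.1))
  linarith

/-- **contraction of opposite singular spaces at the full rate**, any type `j` -/
theorem locS [ProperSpace k] (hF : Frm σ ε J) (hσ : ∀ x, ‖σ x‖ = ‖x‖) [Nonempty n]
    {A B : Set (SGr σ J j)} (hB : IsClosed B) (hAB : ∀ X ∈ closure A, ∀ Y ∈ B, Opp X Y) (R : ℝ) :
    ∃ T > 0, ∃ C : ℝ, 1 ≤ C ∧ ∀ g : FormGroup σ J, NWr j R (ta g.1) → AttS T A (ta g.1) →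
      ∀ Y : SGr σ J j, g • Y ∈ B → ∀ y ∈ Y.S, nmM (ta g.1) * ‖ta g.1 *ᵥ y‖ ≤ C * ‖y‖ := by
  have hσc : Continuous σ := (AddMonoidHomClass.isometry_of_norm σ hσ).continuous
  obtain ⟨D, h⟩ := exists_fb hF hσ (inv_of hF) 0
  obtain ⟨c, hc, hlow⟩ := exists_low hF hσ (J := J)
  obtain ⟨T, hT, C, hC, key⟩ := loc_gr h (val_closed hσc (isClosed_closure (s := A)))
    (val_closed hσc hB) (by
      rintro - ⟨X, hX, rfl⟩ - ⟨Y, hY, rfl⟩
      exact hAB X hX Y hY) R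
  refine ⟨T, hT, C, hC, fun g hg ⟨X, hX, M, hM1, hM2⟩ Y hY y hy => ?_⟩
  exact key (ta g.1) (nmM (ta g.1)) (lt_of_lt_of_le hc (hlow g)) (ta_iso g) hg
    ⟨X.1, ⟨X, subset_closure hX, rfl⟩, M, hM1, hM2⟩ (g • Y).1 ⟨g • Y, hY, rfl⟩ y (ta_mem g hy)

/-- every isometry expands a vector at the full rate -/
theorem nwr_one [Nonempty n] (A : Matrix n n k) (hA : A ≠ 0) : NWr 1 1 A := by
  obtain ⟨a, b, hab⟩ := exists_nmM A
  have hne : (ee b : n → k) ≠ 0 := by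
    intro h0
    have := congrFun h0 b
    simp [ee] at this
  refine ⟨Submodule.span k {ee b}, finrank_span_singleton hne, fun v hv => ?_⟩
  obtain ⟨c, rfl⟩ := Submodule.mem_span_singleton.1 hv
  rw [Matrix.mulVec_smul, norm_smul, norm_smul]
  have h1 : ‖A a b‖ ≤ ‖A *ᵥ ee b‖ := by
    have h40 : (A *ᵥ ee b) a = A a b := mulVec_ee _ _ _
    rw [← h40]
    exact norm_le_pi_norm (A *ᵥ ee b) a
  have h2 : ‖(ee b : n → k)‖ ≤ 1 := norm_ee b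
  calc nmM A * (‖c‖ * ‖(ee b : n → k)‖) ≤ nmM A * (‖c‖ * 1) := by
        have := nmM_nonneg A
        gcongr
    _ = ‖c‖ * nmM A := by ring
    _ ≤ ‖c‖ * ‖A *ᵥ ee b‖ := mul_le_mul_of_nonneg_left (hab.trans h1) (norm_nonneg _)
    _ = 1 * (‖c‖ * ‖A *ᵥ ee b‖) := by ring

/-- near-wall elements whose attracting point is in `A` contract the points moved into a set
opposite to `A` at the full rate -/
theorem loc1 [ProperSpace k] (hF : Frm σ ε J) (hσ : ∀ x, ‖σ x‖ = ‖x‖) [Nonempty n]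
    {A B : Set (SGr σ J 1)} (hB : IsClosed B) (hAB : ∀ X ∈ closure A, ∀ Y ∈ B, Opp X Y) :
    ∃ T > 0, ∃ C : ℝ, 1 ≤ C ∧ ∀ g : FormGroup σ J, AttS T A (ta g.1) →
      ∀ Y : SGr σ J 1, g • Y ∈ B → ∀ y ∈ Y.S, nmM (ta g.1) * ‖ta g.1 *ᵥ y‖ ≤ C * ‖y‖ := by
  obtain ⟨T, hT, C, hC, h⟩ := locS hF hσ hB hAB 1
  obtain ⟨c, hc, hlow⟩ := exists_low hF hσ (J := J)
  refine ⟨T, hT, C, hC, fun g hg => h g (nwr_one _ fun h0 => ?_) hg⟩
  have h1 := hlow g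
  rw [h0] at h1
  have : nmM (0 : Matrix n n k) ≤ 0 := nmM_le le_rfl fun a b => by simp
  linarith

/-- comparable elements near the wall of points which contract the same point -/
theorem near1 (hF : Frm σ ε J) (hσ : ∀ x, ‖σ x‖ = ‖x‖) [Nonempty n] : ∃ β : ℝ, 1 ≤ β ∧
    ∀ C : ℝ, 1 ≤ C → ∀ g g' : FormGroup σ J, NW1 C (ta g.1) → NW1 C (ta g'.1) →
      nmM (ta g.1) ≤ C * nmM (ta g'.1) → nmM (ta g'.1) ≤ C * nmM (ta g.1) →
      ∀ x : n → k, x ≠ 0 → nmM (ta g.1) * ‖ta g.1 *ᵥ x‖ ≤ C * ‖x‖ →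
        nmM (ta g'.1) * ‖ta g'.1 *ᵥ x‖ ≤ C * ‖x‖ →
          nmM (ta (g' * g⁻¹ : FormGroup σ J).1) ≤ 6 * β ^ 8 * C ^ 4 := by
  obtain ⟨β, hβ⟩ := exists_bd hσ (inv_of hF)
  have hβ1 := hβ.one_le
  obtain ⟨c, hc, hlow⟩ := exists_low hF hσ (J := J)
  have hpos : ∀ g : FormGroup σ J, 0 < nmM (ta g.1) := fun g => lt_of_lt_of_le hc (hlow g)
  refine ⟨β, hβ1, fun C hC g g' w w' h1 h2 x hx k1 k2 => ?_⟩
  have hC0 : 0 < C := lt_of_lt_of_le one_pos hC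
  have key : ∀ g : FormGroup σ J, NW1 C (ta g.1) → NW σ J C (nmM (ta g.1)) (ta g.1) := by
    intro g hg
    refine ⟨iso_of (ta_iso g), le_nmM _, fun i i' j j' => ?_⟩
    have := hg i i' j j'
    rwa [mul_comm (ta g.1 i' j) (ta g.1 i j')] at this
  refine nmM_le (by positivity) fun a b => ?_
  rw [ta_div]
  exact cap_pt hβ hC (hpos g) (hpos g') (key g w) (key g' w') h1 h2 hx k1 k2 (ta_inv g)
    (ta_inv g') a b

/-- comparable elements which contract the same maximal singular space -/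
theorem nearr [ProperSpace k] (hF : Frm σ ε J) (hσ : ∀ x, ‖σ x‖ = ‖x‖) (hW : WI σ J r)
    [Nonempty n] : ∃ D : ℝ, 1 ≤ D ∧ ∀ C : ℝ, 1 ≤ C → ∀ g g' : FormGroup σ J,
      nmM (ta g.1) ≤ C * nmM (ta g'.1) → nmM (ta g'.1) ≤ C * nmM (ta g.1) →
      ∀ X : SGr σ J r, (∀ x ∈ X.S, nmM (ta g.1) * ‖ta g.1 *ᵥ x‖ ≤ C * ‖x‖) →
        (∀ x ∈ X.S, nmM (ta g'.1) * ‖ta g'.1 *ᵥ x‖ ≤ C * ‖x‖) →
          nmM (ta (g' * g⁻¹ : FormGroup σ J).1) ≤ 7 * (3 * (C * D ^ 2) ^ 6) ^ 12 := by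
  obtain ⟨D₁, h₁⟩ := exists_fb hF hσ (inv_of hF) r
  obtain ⟨D₂, hD₂, h₂⟩ := exists_an hF hσ hW.2
  obtain ⟨c, hc, hlow⟩ := exists_low hF hσ (J := J)
  have hpos : ∀ g : FormGroup σ J, 0 < nmM (ta g.1) := fun g => lt_of_lt_of_le hc (hlow g)
  have hD₁ := h₁.one_le
  have e1 : D₁ ≤ max D₁ D₂ := le_max_left _ _
  have e2 : D₂ ≤ max D₁ D₂ := le_max_right _ _
  refine ⟨max D₁ D₂, hD₁.trans e1, fun C hC g g' h1 h2 X k1 k2 => ?_⟩
  have hC0 : 0 < C := lt_of_lt_of_le one_pos hC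
  have hD0 : 0 < max D₁ D₂ := lt_of_lt_of_le one_pos (hD₁.trans e1)
  refine nmM_le (by positivity) fun a b => ?_
  rw [ta_div]
  exact entry_of (by positivity) (ta_inv g) (near_gr (h₁.mono e1) (h₂.mono e2) hC (hpos g)
    (hpos g') (ta_iso g) (ta_iso g') (le_nmM _) (le_nmM _) h1 h2 (X := X.1) X.sing k1 k2) a b

/-- **capacity of points, pair form** -/
theorem capP1 [ProperSpace k] (hF : Frm σ ε J) (hσ : ∀ x, ‖σ x‖ = ‖x‖) [Nonempty n]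
    {O : SGr σ J 1 → SGr σ J 1 → Prop} (hO : ∀ X Y, O X Y → Opp X Y) :
    CapP (fun g : FormGroup σ J => nmM (ta g.1))
      (fun R T A => {g | NW1 R (ta g.1) ∧ AttS T A (ta g.1)}) O := by
  intro A B hB hAB R
  obtain ⟨T, hT, C, hC, h⟩ := loc1 hF hσ hB fun X hX Y hY => hO _ _ (hAB X hX Y hY)
  obtain ⟨β, hβ, hn⟩ := near1 hF hσ (J := J)
  set C' : ℝ := C + |R| + 3 with hC'
  have hR := abs_nonneg R
  have hCC : C ≤ C' := by linarith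
  have h3 : 3 ≤ C' := by linarith
  have hRC : R ≤ C' := by
    have := le_abs_self R
    linarith
  refine ⟨T, hT, 6 * β ^ 8 * C' ^ 4, ?_⟩
  rintro g ⟨w, a⟩ g' ⟨w', a'⟩ h1 h2 y hy hy'
  obtain ⟨x, hx0, hx⟩ := H416.CL.exists_vec y
  have hxm : x ∈ y.S := H416.CL.mem_of_span hx
  have hw : ∀ g : FormGroup σ J, NW1 R (ta g.1) → NW1 C' (ta g.1) := fun g hg i i' j j' =>
    (hg i i' j j').trans (mul_le_mul_of_nonneg_right hRC (nmM_nonneg _))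
  exact hn C' (by linarith) g g' (hw g w) (hw g' w')
    (h1.trans (mul_le_mul_of_nonneg_right h3 (nmM_nonneg _)))
    (h2.trans (mul_le_mul_of_nonneg_right h3 (nmM_nonneg _))) x hx0
    ((h g a y hy x hxm).trans (mul_le_mul_of_nonneg_right hCC (norm_nonneg _)))
    ((h g' a' y hy' x hxm).trans (mul_le_mul_of_nonneg_right hCC (norm_nonneg _)))

/-- **capacity of maximal singular spaces, pair form** -/
theorem capPr [ProperSpace k] (hF : Frm σ ε J) (hσ : ∀ x, ‖σ x‖ = ‖x‖) (hW : WI σ J r)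
    [Nonempty n] {O : SGr σ J r → SGr σ J r → Prop} (hO : ∀ X Y, O X Y → Opp X Y) :
    CapP (fun g : FormGroup σ J => nmM (ta g.1))
      (fun R T A => {g | NWr r R (ta g.1) ∧ AttS T A (ta g.1)}) O := by
  intro A B hB hAB R
  obtain ⟨T, hT, C, hC, h⟩ := locS hF hσ hB (fun X hX Y hY => hO _ _ (hAB X hX Y hY)) R
  obtain ⟨D, hD, hn⟩ := nearr hF hσ hW
  set C' : ℝ := C + 3 with hC'
  have hCC : C ≤ C' := by linarith
  have h3 : 3 ≤ C' := by linarith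
  refine ⟨T, hT, 7 * (3 * (C' * D ^ 2) ^ 6) ^ 12, ?_⟩
  rintro g ⟨w, a⟩ g' ⟨w', a'⟩ h1 h2 y hy hy'
  exact hn C' (by linarith) g g'
    (h1.trans (mul_le_mul_of_nonneg_right h3 (nmM_nonneg _)))
    (h2.trans (mul_le_mul_of_nonneg_right h3 (nmM_nonneg _))) y
    (fun x hx => (h g w a y hy x hx).trans (mul_le_mul_of_nonneg_right hCC (norm_nonneg _)))
    (fun x hx => (h g' w' a' y hy' x hx).trans (mul_le_mul_of_nonneg_right hCC (norm_nonneg _)))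

/-- bounded shells, maximal singular spaces -/
theorem shellr [ProperSpace k] (hF : Frm σ ε J) (hσ : ∀ x, ‖σ x‖ = ‖x‖) (hW : WI σ J r)
    [Nonempty n] {Γ : Type} {q : Γ → FormGroup σ J}
    (hud : ∀ C : ℝ, ∃ N : ℕ, ∀ T : Finset Γ,
      (∀ γ ∈ T, ∀ γ' ∈ T, nmM (ta (q γ' * (q γ)⁻¹).1) ≤ C) → T.card ≤ N) (C : ℝ) :
    ∃ N : ℕ, ∀ S : Finset Γ,
      (∀ γ ∈ S, ∀ γ' ∈ S, nmM (ta (q γ).1) ≤ C * nmM (ta (q γ').1)) → ∀ ν : SGr σ J r,
      (∀ γ ∈ S, ∀ z ∈ ν.S, nmM (ta (q γ).1) * ‖ta (q γ).1 *ᵥ z‖ ≤ C * ‖z‖) → S.card ≤ N := by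
  obtain ⟨D, hD, hn⟩ := nearr hF hσ hW
  set C' : ℝ := max C 1 with hC'
  have hc1 : 1 ≤ C' := le_max_right _ _
  have hcc : C ≤ C' := le_max_left _ _
  obtain ⟨N, hN⟩ := hud (7 * (3 * (C' * D ^ 2) ^ 6) ^ 12)
  refine ⟨N, fun S hS ν hν => hN S fun γ hγ γ' hγ' => ?_⟩
  exact hn C' hc1 _ _
    ((hS γ hγ γ' hγ').trans (mul_le_mul_of_nonneg_right hcc (nmM_nonneg _)))
    ((hS γ' hγ' γ hγ).trans (mul_le_mul_of_nonneg_right hcc (nmM_nonneg _))) ν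
    (fun z hz => (hν γ hγ z hz).trans (mul_le_mul_of_nonneg_right hcc (norm_nonneg _)))
    (fun z hz => (hν γ' hγ' z hz).trans (mul_le_mul_of_nonneg_right hcc (norm_nonneg _)))

/-- bounded shells, points -/
theorem shell1 (hF : Frm σ ε J) (hσ : ∀ x, ‖σ x‖ = ‖x‖) [Nonempty n] {Γ : Type}
    {q : Γ → FormGroup σ J}
    (hud : ∀ C : ℝ, ∃ N : ℕ, ∀ T : Finset Γ,
      (∀ γ ∈ T, ∀ γ' ∈ T, nmM (ta (q γ' * (q γ)⁻¹).1) ≤ C) → T.card ≤ N) (C : ℝ) :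
    ∃ N : ℕ, ∀ S : Finset Γ, (∀ γ ∈ S, NW1 C (ta (q γ).1)) →
      (∀ γ ∈ S, ∀ γ' ∈ S, nmM (ta (q γ).1) ≤ C * nmM (ta (q γ').1)) → ∀ x : n → k, x ≠ 0 →
      (∀ γ ∈ S, nmM (ta (q γ).1) * ‖ta (q γ).1 *ᵥ x‖ ≤ C * ‖x‖) → S.card ≤ N := by
  obtain ⟨β, hβ, hn⟩ := near1 hF hσ (J := J)
  set C' : ℝ := max C 1 with hC'
  have hc1 : 1 ≤ C' := le_max_right _ _
  have hcc : C ≤ C' := le_max_left _ _
  obtain ⟨N, hN⟩ := hud (6 * β ^ 8 * C' ^ 4)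
  refine ⟨N, fun S hw hS x hx hν => hN S fun γ hγ γ' hγ' => ?_⟩
  have hw' : ∀ γ ∈ S, NW1 C' (ta (q γ).1) := fun γ hγ i i' j j' =>
    (hw γ hγ i i' j j').trans (mul_le_mul_of_nonneg_right hcc (nmM_nonneg _))
  exact hn C' hc1 _ _ (hw' γ hγ) (hw' γ' hγ')
    ((hS γ hγ γ' hγ').trans (mul_le_mul_of_nonneg_right hcc (nmM_nonneg _)))
    ((hS γ' hγ' γ hγ).trans (mul_le_mul_of_nonneg_right hcc (nmM_nonneg _))) x hx
    ((hν γ hγ).trans (mul_le_mul_of_nonneg_right hcc (norm_nonneg _)))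
    ((hν γ' hγ').trans (mul_le_mul_of_nonneg_right hcc (norm_nonneg _)))

end caps

section letters

open Vale.Agent.P092.H303 (Idx hyp)
open MeasureTheory

variable {k : Type} [NontriviallyNormedField k] {ι : Type} [Fintype ι] [DecidableEq ι]
  {s : ℕ} {σ : k →+* k} {ε : k} {J₀ : Matrix ι ι k}

/-- sizes are bounded below, letters `lt` -/
theorem nm_low [MeasurableSpace k] (hF : Frm σ ε (hyp (s + 2) ε J₀)) {w : k} (hw : w ≠ 0)
    (hσ : σ w = w) (μ₁ : Measure k) (μ₂ : Measure (CL.V2 σ ε)) (hσn : ∀ x, ‖σ x‖ = ‖x‖) :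
    ∃ c : ℝ, 0 < c ∧ ∀ g, c ≤ (CL.lt hF hw hσ μ₁ μ₂).nm g := by
  haveI : Nonempty (Idx (s + 2) ι) := ⟨Sum.inl (Sum.inl 0)⟩
  exact exists_low hF hσn

variable [ProperSpace k]

/-- the points, pair form -/
theorem capL1 [MeasurableSpace k] (hF : Frm σ ε (hyp (s + 2) ε J₀)) {w : k} (hw : w ≠ 0)
    (hσ : σ w = w) (μ₁ : Measure k) (μ₂ : Measure (CL.V2 σ ε)) (hσn : ∀ x, ‖σ x‖ = ‖x‖)
    (hW : WI σ (hyp (s + 2) ε J₀) (s + 2)) :
    CapP (CL.lt hF hw hσ μ₁ μ₂).nm (CL.lt hF hw hσ μ₁ μ₂).NA1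
      (CL.lt hF hw hσ μ₁ μ₂).opp1 := by
  haveI : Nonempty (Idx (s + 2) ι) := ⟨Sum.inl (Sum.inl 0)⟩
  exact capP1 hF hσn fun X Y h => opp_of1 hF hW (by omega) h

/-- the maximal singular spaces, pair form -/
theorem capL2 [MeasurableSpace k] (hF : Frm σ ε (hyp (s + 2) ε J₀)) {w : k} (hw : w ≠ 0)
    (hσ : σ w = w) (μ₁ : Measure k) (μ₂ : Measure (CL.V2 σ ε)) (hσn : ∀ x, ‖σ x‖ = ‖x‖)
    (hW : WI σ (hyp (s + 2) ε J₀) (s + 2)) :
    CapP (CL.lt hF hw hσ μ₁ μ₂).nm (CL.lt hF hw hσ μ₁ μ₂).NA2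
      (CL.lt hF hw hσ μ₁ μ₂).opp2 := by
  haveI : Nonempty (Idx (s + 2) ι) := ⟨Sum.inl (Sum.inl 0)⟩
  exact capPr hF hσn hW fun X Y h => opp_of2 hF hW h

/-- **the capacity of opposite points** -/
theorem cap1 [MeasurableSpace k] (hF : Frm σ ε (hyp (s + 2) ε J₀)) {w : k} (hw : w ≠ 0)
    (hσ : σ w = w) (μ₁ : Measure k) (μ₂ : Measure (CL.V2 σ ε)) (hσn : ∀ x, ‖σ x‖ = ‖x‖)
    (hW : WI σ (hyp (s + 2) ε J₀) (s + 2)) {Γ : Type} {q : Γ → FormGroup σ (hyp (s + 2) ε J₀)}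
    (hud : (CL.lt hF hw hσ μ₁ μ₂).UD q) :
    CapG (fun γ => (CL.lt hF hw hσ μ₁ μ₂).nm (q γ)) q ((CL.lt hF hw hσ μ₁ μ₂).na1 q)
      (CL.lt hF hw hσ μ₁ μ₂).opp1 := by
  obtain ⟨c, hc, hlow⟩ := nm_low hF hw hσ μ₁ μ₂ hσn
  exact capG_of (capL1 hF hw hσ μ₁ μ₂ hσn hW) hc hlow hud

/-- **the capacity of opposite maximal singular spaces** -/
theorem cap2 [MeasurableSpace k] (hF : Frm σ ε (hyp (s + 2) ε J₀)) {w : k} (hw : w ≠ 0)
    (hσ : σ w = w) (μ₁ : Measure k) (μ₂ : Measure (CL.V2 σ ε)) (hσn : ∀ x, ‖σ x‖ = ‖x‖)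
    (hW : WI σ (hyp (s + 2) ε J₀) (s + 2)) {Γ : Type} {q : Γ → FormGroup σ (hyp (s + 2) ε J₀)}
    (hud : (CL.lt hF hw hσ μ₁ μ₂).UD q) :
    CapG (fun γ => (CL.lt hF hw hσ μ₁ μ₂).nm (q γ)) q ((CL.lt hF hw hσ μ₁ μ₂).na2 q)
      (CL.lt hF hw hσ μ₁ μ₂).opp2 := by
  obtain ⟨c, hc, hlow⟩ := nm_low hF hw hσ μ₁ μ₂ hσn
  exact capG_of (capL2 hF hw hσ μ₁ μ₂ hσn hW) hc hlow hud

end letters

end Vale.Agent.P092.H315P.G
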