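import Vale.Agent.P092.H315P.G5
import Vale.Agent.P092.H370.Fo2

/-!
P092, stage CL-O (helper315): the capacities of `G5` for forms of ANY kind (symplectic, unitary and
orthogonal): `Fm` (letters of helper714) and `Fo` (helper370: thick singular spaces) in the place
of `Frm`.
-/

set_option linter.all false

open Matrix Module Set Topology

namespace Vale.Agent.P092.H315P.GO

open Vale.Agent.P092.H315P.G hiding exists_fb exists_an inv_of opp_of1 opp_of2 exists_low locS loc1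
  near1 nearr shellr shell1 capP1 capPr
open Vale.Agent.P092.H789.S2
open Vale.Agent.P092.H100.Gr (Gr Fr sp sp_cont ch ch_mn ch_compact exists_ch li_of_mn eq_of_le)
open Vale.Agent.P092.H303 (FormGroup)
open Vale.Agent.P092.H714.Cl
open Vale.Agent.P092.H714.Sg (Fm)
open Vale.Agent.P092.H370.Fo
open Vale.Agent.P092.H370.Po (Sing Ort SGr Inc Col WI finrank_sup_span)
open Vale.Agent.P092.H43.G (gm opg_span Opg opp_iff_not_col)
open Vale.Agent.P092.H306.G (CapG)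
open Vale.Agent.P092.CL (ta nmM NW1 NWr AttS)

section consts

variable {k : Type} [NontriviallyNormedField k] {n : Type} [Fintype n] [DecidableEq n]
  {σ : k →+* k} {ε : k} {J : Matrix n n k} {r j : ℕ}

/-- one constant for a form -/
theorem exists_fb (hF : Fm σ ε J) (hσ : ∀ x, ‖σ x‖ = ‖x‖) {J' : Matrix n n k} (hJ : J * J' = 1)
    (r : ℕ) : ∃ D, Fb σ ε J r D := by
  obtain ⟨β, hβ⟩ := exists_bd hσ hJ
  set y : n → n → k := fun i l => σ (J' l i) with hy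
  have hε : ‖ε‖ = 1 := by
    have h1 : ‖ε‖ * ‖ε‖ = 1 := by rw [← norm_mul, hF.eps, norm_one]
    nlinarith [norm_nonneg ε]
  have hyz : ∀ i z, bf σ J z (y i) = z i := by
    intro i z
    have e1 : (fun l => σ (y i l)) = J' *ᵥ Pi.single i 1 := by
      ext l
      rw [Matrix.mulVec_single_one]
      exact hF.inv _
    unfold bf
    rw [e1, Matrix.mulVec_mulVec, hJ, Matrix.one_mulVec, dotProduct_single, mul_one]
  refine ⟨1 + Fintype.card n + r + β + ∑ i, ‖y i‖, ?_, ?_, ?_, hσ, hε, fun x y => hF.herm x y,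
    fun x y => ?_, fun i => ⟨y i, ?_, hyz i⟩⟩
  all_goals
    have h1 : (0 : ℝ) ≤ Fintype.card n := Nat.cast_nonneg _
    have h2 : (0 : ℝ) ≤ r := Nat.cast_nonneg _
    have h3 := hβ.one_le
    have h4 : 0 ≤ ∑ i, ‖y i‖ := Finset.sum_nonneg fun i _ => norm_nonneg _
  · linarith
  · linarith
  · linarith
  · refine (hβ.up x y).trans ?_
    have : β ≤ 1 + Fintype.card n + r + β + ∑ i, ‖(fun i l => σ (J' l i)) i‖ := by
      have h5 : 0 ≤ ∑ i, ‖(fun i l => σ (J' l i)) i‖ :=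
        Finset.sum_nonneg fun i _ => norm_nonneg _
      linarith
    exact mul_le_mul_of_nonneg_right (mul_le_mul_of_nonneg_right this (norm_nonneg _))
      (norm_nonneg _)
  · have h6 : ‖y i‖ ≤ ∑ i, ‖y i‖ :=
      Finset.single_le_sum (f := fun i => ‖y i‖) (fun _ _ => norm_nonneg _) (Finset.mem_univ i)
    linarith

/-- the middle block is anisotropic, with a constant -/
theorem exists_an [ProperSpace k] (hF : Fo σ ε J) (hσ : ∀ x, ‖σ x‖ = ‖x‖) {r : ℕ}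
    (hW : ∀ Y : Submodule k (n → k), Sing σ J Y → finrank k Y ≤ r) : ∃ D, 1 ≤ D ∧ An σ J r D := by
  classical
  have hσc : Continuous σ := (AddMonoidHomClass.isometry_of_norm σ hσ).continuous
  have key : ∀ I : Fin r → n, ∃ D : ℝ, 1 ≤ D ∧ ∀ v : Fin r → n → k, v ∈ ch (k := k) I →
      (∀ a b, bf σ J (v a) (v b) = 0) → ∀ μ : n → k, (∀ a, bf σ J μ (v a) = 0) →
      (∀ a, μ (I a) = 0) → ‖μ‖ ^ 2 ≤ D * ‖bf σ J μ μ‖ := by
    intro I
    set S : Set ((Fin r → n → k) × (n → k)) := (ch (k := k) I ×ˢ Metric.closedBall 0 1) ∩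
      {p | (∀ a b, bf σ J (p.1 a) (p.1 b) = 0) ∧ (∀ a, bf σ J p.2 (p.1 a) = 0) ∧
        (∀ a, p.2 (I a) = 0) ∧ ‖p.2‖ = 1} with hS
    have hp1 : ∀ a, Continuous fun p : (Fin r → n → k) × (n → k) => p.1 a := fun a =>
      (continuous_apply a).comp continuous_fst
    have c1 : IsClosed {p : (Fin r → n → k) × (n → k) | ∀ a b, bf σ J (p.1 a) (p.1 b) = 0} := by
      simp only [setOf_forall]
      exact isClosed_iInter fun a => isClosed_iInter fun b =>
        isClosed_eq (bf_cont hσc (hp1 a) (hp1 b)) continuous_const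
    have c2 : IsClosed {p : (Fin r → n → k) × (n → k) | ∀ a, bf σ J p.2 (p.1 a) = 0} := by
      simp only [setOf_forall]
      exact isClosed_iInter fun a =>
        isClosed_eq (bf_cont hσc continuous_snd (hp1 a)) continuous_const
    have c3 : IsClosed {p : (Fin r → n → k) × (n → k) | ∀ a, p.2 (I a) = 0} := by
      simp only [setOf_forall]
      exact isClosed_iInter fun a =>
        isClosed_eq ((continuous_apply (I a)).comp continuous_snd) continuous_const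
    have c4 : IsClosed {p : (Fin r → n → k) × (n → k) | ‖p.2‖ = 1} :=
      isClosed_eq continuous_snd.norm continuous_const
    have hSc : IsCompact S :=
      ((ch_compact I).prod (isCompact_closedBall _ _)).inter_right
        (c1.inter (c2.inter (c3.inter c4)))
    obtain ⟨δ, hδ, hδ1⟩ := hSc.exists_forall_le' (a := 0)
      (f := fun p : (Fin r → n → k) × (n → k) => ‖bf σ J p.2 p.2‖)
      (bf_cont hσc continuous_snd continuous_snd).norm.continuousOn (by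
      rintro ⟨v, μ⟩ ⟨⟨hv, -⟩, h1, h2, h3, h4⟩
      simp only at h1 h2 h3 h4 hv ⊢
      rw [norm_pos_iff]
      intro h0
      have hμ0 : μ ≠ 0 := by
        intro h
        rw [h, norm_zero] at h4
        exact zero_ne_one h4
      have hli : LinearIndependent k v := li_of_mn (I := I) (by rw [ch_mn hv]; exact one_ne_zero)
      set X := Submodule.span k (range v) with hX
      have hXs : Sing σ J X := by
        intro a ha b hb
        obtain ⟨c, rfl⟩ := (Submodule.mem_span_range_iff_exists_fun k).1 ha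
        obtain ⟨d, rfl⟩ := (Submodule.mem_span_range_iff_exists_fun k).1 hb
        rw [← bf_hf, bf_sum_left]
        refine Finset.sum_eq_zero fun i _ => ?_
        rw [bf_smul_left, bf_sum_right]
        have : ∑ j, bf σ J (v i) (d j • v j) = 0 :=
          Finset.sum_eq_zero fun j _ => by rw [bf_smul_right, h1, mul_zero]
        rw [this, mul_zero]
      have hμX : μ ∉ X := by
        intro hm
        obtain ⟨c, hc⟩ := (Submodule.mem_span_range_iff_exists_fun k).1 hm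
        refine hμ0 ?_
        have hc0 : ∀ b, c b = 0 := by
          intro b
          have := h3 b
          rw [← hc] at this
          simp only [Finset.sum_apply, Pi.smul_apply, smul_eq_mul, hv.1, Matrix.one_apply] at this
          simpa using this
        rw [← hc]
        exact Finset.sum_eq_zero fun b _ => by rw [hc0 b, zero_smul]
      have hbig : Sing σ J (X ⊔ Submodule.span k {μ}) := by
        refine Vale.Agent.P092.H370.Fo.sing_sup_span hF hXs h0 ?_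
        intro x hx
        obtain ⟨c, rfl⟩ := (Submodule.mem_span_range_iff_exists_fun k).1 hx
        rw [← bf_hf, bf_sum_left]
        refine Finset.sum_eq_zero fun i _ => ?_
        have : bf σ J (v i) μ = 0 := by
          rw [bf_hf, hF.fm.herm μ (v i), ← bf_hf, h2 i, map_zero, mul_zero]
        rw [bf_smul_left, this, mul_zero]
      have h5 := hW _ hbig
      rw [Vale.Agent.P092.H370.Po.finrank_sup_span hμX, hX, finrank_span_eq_card hli,
        Fintype.card_fin] at h5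
      omega)
    refine ⟨1 + δ⁻¹, by have := inv_pos.2 hδ; linarith, fun v hv hs μ h1 h2 => ?_⟩
    by_cases hμ : μ = 0
    · rw [hμ, norm_zero]
      have := inv_pos.2 hδ
      have h0 : 0 ≤ (1 + δ⁻¹) * ‖bf σ J (0 : n → k) 0‖ := by positivity
      simpa using h0
    obtain ⟨i, hi⟩ : ∃ i, ‖μ‖ = ‖μ i‖ := by
      haveI : Nonempty n := by
        by_contra he
        rw [not_nonempty_iff] at he
        exact hμ (Subsingleton.elim _ _)
      obtain ⟨i, hi⟩ := Finite.exists_max fun i => ‖μ i‖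
      exact ⟨i, le_antisymm ((pi_norm_le_iff_of_nonneg (norm_nonneg _)).2 hi)
        (norm_le_pi_norm μ i)⟩
    have hi0 : μ i ≠ 0 := by
      intro h0
      rw [h0, norm_zero, norm_eq_zero] at hi
      exact hμ hi
    have hm : ((v, (μ i)⁻¹ • μ) : (Fin r → n → k) × (n → k)) ∈ S := by
      have hn1 : ‖(μ i)⁻¹ • μ‖ = 1 := by
        rw [norm_smul, norm_inv, ← hi, inv_mul_cancel₀ (norm_ne_zero_iff.2 hμ)]
      refine ⟨⟨hv, ?_⟩, hs, fun a => ?_, fun a => ?_, hn1⟩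
      · rw [mem_closedBall_zero_iff]
        exact hn1.le
      · change bf σ J ((μ i)⁻¹ • μ) (v a) = 0
        rw [bf_smul_left, h1, mul_zero]
      · change (μ i)⁻¹ * μ (I a) = 0
        rw [h2, mul_zero]
    have h6 := hδ1 _ hm
    simp only at h6
    rw [bf_smul_left, bf_smul_right, norm_mul, norm_mul, hσ, norm_inv, ← hi] at h6
    have h7 : 0 < ‖μ‖ := norm_pos_iff.2 hμ
    have h8 : δ * ‖μ‖ ^ 2 ≤ ‖bf σ J μ μ‖ := by
      have h9 : ‖μ‖⁻¹ * (‖μ‖⁻¹ * ‖bf σ J μ μ‖) * ‖μ‖ ^ 2 = ‖bf σ J μ μ‖ := by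
        field_simp
      rw [← h9]
      exact mul_le_mul_of_nonneg_right h6 (by positivity)
    have h10 : ‖μ‖ ^ 2 ≤ δ⁻¹ * ‖bf σ J μ μ‖ := by
      rw [inv_mul_eq_div, le_div_iff₀ hδ]
      linarith
    nlinarith [norm_nonneg (bf σ J μ μ)]
  choose D hD1 hD using key
  refine ⟨1 + ∑ I, D I, ?_, fun I v hv hs μ h1 h2 => (hD I v hv hs μ h1 h2).trans
    (mul_le_mul_of_nonneg_right ?_ (norm_nonneg _))⟩
  · have : 0 ≤ ∑ I, D I := Finset.sum_nonneg fun I _ => zero_le_one.trans (hD1 I)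
    linarith
  · have : D I ≤ ∑ I, D I :=
      Finset.single_le_sum (f := D) (fun I _ => zero_le_one.trans (hD1 I)) (Finset.mem_univ I)
    linarith

theorem inv_of (hF : Fm σ ε J) : J * J⁻¹ = 1 := by
  refine Matrix.mul_nonsing_inv _ (isUnit_iff_ne_zero.2 fun h => ?_)
  obtain ⟨x, hx, hx0⟩ := Matrix.exists_vecMul_eq_zero_iff.2 h
  obtain ⟨y, hy⟩ := hF.nondeg x hx
  refine hy ?_
  unfold hf
  rw [Matrix.dotProduct_mulVec, hx0, zero_dotProduct]

/-- opposite points of the record -/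
theorem opp_of1 (hF : Fo σ ε J) (hW : WI σ J r) (hr : 2 ≤ r) {X Y : SGr σ J 1}
    (h : ∀ l : SGr σ J r, Inc X l → ¬ Inc Y l) : H43.G.Opp X Y := by
  rw [opp_iff_not_col]
  intro hc
  obtain ⟨y, hy0, hy⟩ := H416.CL.exists_vec Y
  have hym : y ∈ Y.S := H416.CL.mem_of_span hy
  have hs : Sing σ J (X.S ⊔ Submodule.span k {y}) :=
    Vale.Agent.P092.H370.Fo.sing_sup_span hF X.sing (Y.sing.zero hym) fun x hx => hc x hx y hym
  obtain ⟨⟨W, hW1, hW2⟩, -⟩ := hW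
  have hd : finrank k ↥(X.S ⊔ Submodule.span k {y}) ≤ r := by
    refine (Submodule.finrank_add_le_finrank_add_finrank _ _).trans ?_
    rw [X.dim, finrank_span_singleton hy0]
    exact hr
  obtain ⟨Z, h1, h2, h3⟩ := Vale.Agent.P092.H370.Fo.exists_above hF hs hW1 hd hW2.ge
  refine h (SGr.mk' Z h2 h3) (le_sup_left.trans h1) ?_
  change Y.S ≤ Z
  rw [hy]
  exact le_sup_right.trans h1

/-- opposite maximal spaces of the record -/
theorem opp_of2 (hF : Fo σ ε J) (hW : WI σ J r) {X Y : SGr σ J r}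
    (h : ∀ x : SGr σ J 1, Inc x X → ¬ Inc x Y) : H43.G.Opp X Y := by
  intro x hx hxy
  by_contra hx0
  have hxx : hf σ J x x = 0 := X.sing.zero hx
  have hxY : x ∈ Y.S := by
    by_contra hn
    have h1 := hW.2 _ (Vale.Agent.P092.H370.Fo.sing_sup_span hF Y.sing hxx fun y hy => hF.fm.symm0 (hxy y hy))
    rw [finrank_sup_span hn, Y.dim] at h1
    omega
  refine h (H416.CL.pv σ J x hx0 hxx) ?_ ?_
  · change Submodule.span k {x} ≤ X.S
    rwa [Submodule.span_singleton_le_iff_mem]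
  · change Submodule.span k {x} ≤ Y.S
    rwa [Submodule.span_singleton_le_iff_mem]

end consts

section caps

variable {k : Type} [NontriviallyNormedField k] {n : Type} [Fintype n] [DecidableEq n]
  {σ : k →+* k} {ε : k} {J : Matrix n n k} {r j : ℕ}

/-- sizes are bounded below -/
theorem exists_low (hF : Fm σ ε J) (hσ : ∀ x, ‖σ x‖ = ‖x‖) [Nonempty n] :
    ∃ c : ℝ, 0 < c ∧ ∀ g : FormGroup σ J, c ≤ nmM (ta g.1) := by
  obtain ⟨D, h⟩ := exists_fb hF hσ (inv_of hF) 0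
  have hD := h.pos
  refine ⟨1 / D ^ 2, by positivity, fun g => ?_⟩
  rw [div_le_iff₀ (by positivity)]
  have := h.low (nmM_nonneg _) (ta_iso g) (le_nmM (ta g.1))
  linarith

/-- **contraction of opposite singular spaces at the full rate**, any type `j` -/
theorem locS [ProperSpace k] (hF : Fm σ ε J) (hσ : ∀ x, ‖σ x‖ = ‖x‖) [Nonempty n]
    {A B : Set (SGr σ J j)} (hB : IsClosed B) (hAB : ∀ X ∈ closure A, ∀ Y ∈ B, H43.G.Opp X Y) (R : ℝ) :
    ∃ T > 0, ∃ C : ℝ, 1 ≤ C ∧ ∀ g : FormGroup σ J, NWr j R (ta g.1) → AttS T A (ta g.1) →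
      ∀ Y : SGr σ J j, g • Y ∈ B → ∀ y ∈ Y.S, nmM (ta g.1) * ‖ta g.1 *ᵥ y‖ ≤ C * ‖y‖ := by
  have hσc : Continuous σ := (AddMonoidHomClass.isometry_of_norm σ hσ).continuous
  obtain ⟨D, h⟩ := exists_fb hF hσ (inv_of hF) 0
  obtain ⟨c, hc, hlow⟩ := exists_low hF hσ (J := J)
  obtain ⟨T, hT, C, hC, key⟩ := loc_gr h (val_closed hσc (isClosed_closure (s := A)))
    (val_closed hσc hB) (by
      rintro - ⟨X, hX, rfl⟩ - ⟨Y, hY, rfl⟩
      exact hAB X hX Y hY) R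
  refine ⟨T, hT, C, hC, fun g hg ⟨X, hX, M, hM1, hM2⟩ Y hY y hy => ?_⟩
  exact key (ta g.1) (nmM (ta g.1)) (lt_of_lt_of_le hc (hlow g)) (ta_iso g) hg
    ⟨X.1, ⟨X, subset_closure hX, rfl⟩, M, hM1, hM2⟩ (g • Y).1 ⟨g • Y, hY, rfl⟩ y (ta_mem g hy)

/-- near-wall elements whose attracting point is in `A` contract the points moved into a set
opposite to `A` at the full rate -/
theorem loc1 [ProperSpace k] (hF : Fm σ ε J) (hσ : ∀ x, ‖σ x‖ = ‖x‖) [Nonempty n]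
    {A B : Set (SGr σ J 1)} (hB : IsClosed B) (hAB : ∀ X ∈ closure A, ∀ Y ∈ B, H43.G.Opp X Y) :
    ∃ T > 0, ∃ C : ℝ, 1 ≤ C ∧ ∀ g : FormGroup σ J, AttS T A (ta g.1) →
      ∀ Y : SGr σ J 1, g • Y ∈ B → ∀ y ∈ Y.S, nmM (ta g.1) * ‖ta g.1 *ᵥ y‖ ≤ C * ‖y‖ := by
  obtain ⟨T, hT, C, hC, h⟩ := locS hF hσ hB hAB 1
  obtain ⟨c, hc, hlow⟩ := exists_low hF hσ (J := J)
  refine ⟨T, hT, C, hC, fun g hg => h g (nwr_one _ fun h0 => ?_) hg⟩
  have h1 := hlow g
  rw [h0] at h1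
  have : nmM (0 : Matrix n n k) ≤ 0 := nmM_le le_rfl fun a b => by simp
  linarith

/-- comparable elements near the wall of points which contract the same point -/
theorem near1 (hF : Fm σ ε J) (hσ : ∀ x, ‖σ x‖ = ‖x‖) [Nonempty n] : ∃ β : ℝ, 1 ≤ β ∧
    ∀ C : ℝ, 1 ≤ C → ∀ g g' : FormGroup σ J, NW1 C (ta g.1) → NW1 C (ta g'.1) →
      nmM (ta g.1) ≤ C * nmM (ta g'.1) → nmM (ta g'.1) ≤ C * nmM (ta g.1) →
      ∀ x : n → k, x ≠ 0 → nmM (ta g.1) * ‖ta g.1 *ᵥ x‖ ≤ C * ‖x‖ →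
        nmM (ta g'.1) * ‖ta g'.1 *ᵥ x‖ ≤ C * ‖x‖ →
          nmM (ta (g' * g⁻¹ : FormGroup σ J).1) ≤ 6 * β ^ 8 * C ^ 4 := by
  obtain ⟨β, hβ⟩ := exists_bd hσ (inv_of hF)
  have hβ1 := hβ.one_le
  obtain ⟨c, hc, hlow⟩ := exists_low hF hσ (J := J)
  have hpos : ∀ g : FormGroup σ J, 0 < nmM (ta g.1) := fun g => lt_of_lt_of_le hc (hlow g)
  refine ⟨β, hβ1, fun C hC g g' w w' h1 h2 x hx k1 k2 => ?_⟩
  have hC0 : 0 < C := lt_of_lt_of_le one_pos hC
  have key : ∀ g : FormGroup σ J, NW1 C (ta g.1) → NW σ J C (nmM (ta g.1)) (ta g.1) := by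
    intro g hg
    refine ⟨iso_of (ta_iso g), le_nmM _, fun i i' j j' => ?_⟩
    have := hg i i' j j'
    rwa [mul_comm (ta g.1 i' j) (ta g.1 i j')] at this
  refine nmM_le (by positivity) fun a b => ?_
  rw [ta_div]
  exact cap_pt hβ hC (hpos g) (hpos g') (key g w) (key g' w') h1 h2 hx k1 k2 (ta_inv g)
    (ta_inv g') a b

/-- comparable elements which contract the same maximal singular space -/
theorem nearr [ProperSpace k] (hF : Fo σ ε J) (hσ : ∀ x, ‖σ x‖ = ‖x‖) (hW : WI σ J r)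
    [Nonempty n] : ∃ D : ℝ, 1 ≤ D ∧ ∀ C : ℝ, 1 ≤ C → ∀ g g' : FormGroup σ J,
      nmM (ta g.1) ≤ C * nmM (ta g'.1) → nmM (ta g'.1) ≤ C * nmM (ta g.1) →
      ∀ X : SGr σ J r, (∀ x ∈ X.S, nmM (ta g.1) * ‖ta g.1 *ᵥ x‖ ≤ C * ‖x‖) →
        (∀ x ∈ X.S, nmM (ta g'.1) * ‖ta g'.1 *ᵥ x‖ ≤ C * ‖x‖) →
          nmM (ta (g' * g⁻¹ : FormGroup σ J).1) ≤ 7 * (3 * (C * D ^ 2) ^ 6) ^ 12 := by
  obtain ⟨D₁, h₁⟩ := exists_fb hF.fm hσ (inv_of hF.fm) r
  obtain ⟨D₂, hD₂, h₂⟩ := exists_an hF hσ hW.2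
  obtain ⟨c, hc, hlow⟩ := exists_low hF.fm hσ (J := J)
  have hpos : ∀ g : FormGroup σ J, 0 < nmM (ta g.1) := fun g => lt_of_lt_of_le hc (hlow g)
  have hD₁ := h₁.one_le
  have e1 : D₁ ≤ max D₁ D₂ := le_max_left _ _
  have e2 : D₂ ≤ max D₁ D₂ := le_max_right _ _
  refine ⟨max D₁ D₂, hD₁.trans e1, fun C hC g g' h1 h2 X k1 k2 => ?_⟩
  have hC0 : 0 < C := lt_of_lt_of_le one_pos hC
  have hD0 : 0 < max D₁ D₂ := lt_of_lt_of_le one_pos (hD₁.trans e1)
  refine nmM_le (by positivity) fun a b => ?_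
  rw [ta_div]
  exact entry_of (by positivity) (ta_inv g) (near_gr (h₁.mono e1) (h₂.mono e2) hC (hpos g)
    (hpos g') (ta_iso g) (ta_iso g') (le_nmM _) (le_nmM _) h1 h2 (X := X.1) X.sing k1 k2) a b

/-- **capacity of points, pair form** -/
theorem capP1 [ProperSpace k] (hF : Fm σ ε J) (hσ : ∀ x, ‖σ x‖ = ‖x‖) [Nonempty n]
    {O : SGr σ J 1 → SGr σ J 1 → Prop} (hO : ∀ X Y, O X Y → H43.G.Opp X Y) :
    CapP (fun g : FormGroup σ J => nmM (ta g.1))
      (fun R T A => {g | NW1 R (ta g.1) ∧ AttS T A (ta g.1)}) O := by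
  intro A B hB hAB R
  obtain ⟨T, hT, C, hC, h⟩ := loc1 hF hσ hB fun X hX Y hY => hO _ _ (hAB X hX Y hY)
  obtain ⟨β, hβ, hn⟩ := near1 hF hσ (J := J)
  set C' : ℝ := C + |R| + 3 with hC'
  have hR := abs_nonneg R
  have hCC : C ≤ C' := by linarith
  have h3 : 3 ≤ C' := by linarith
  have hRC : R ≤ C' := by
    have := le_abs_self R
    linarith
  refine ⟨T, hT, 6 * β ^ 8 * C' ^ 4, ?_⟩
  rintro g ⟨w, a⟩ g' ⟨w', a'⟩ h1 h2 y hy hy'
  obtain ⟨x, hx0, hx⟩ := H416.CL.exists_vec y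
  have hxm : x ∈ y.S := H416.CL.mem_of_span hx
  have hw : ∀ g : FormGroup σ J, NW1 R (ta g.1) → NW1 C' (ta g.1) := fun g hg i i' j j' =>
    (hg i i' j j').trans (mul_le_mul_of_nonneg_right hRC (nmM_nonneg _))
  exact hn C' (by linarith) g g' (hw g w) (hw g' w')
    (h1.trans (mul_le_mul_of_nonneg_right h3 (nmM_nonneg _)))
    (h2.trans (mul_le_mul_of_nonneg_right h3 (nmM_nonneg _))) x hx0
    ((h g a y hy x hxm).trans (mul_le_mul_of_nonneg_right hCC (norm_nonneg _)))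
    ((h g' a' y hy' x hxm).trans (mul_le_mul_of_nonneg_right hCC (norm_nonneg _)))

/-- **capacity of maximal singular spaces, pair form** -/
theorem capPr [ProperSpace k] (hF : Fo σ ε J) (hσ : ∀ x, ‖σ x‖ = ‖x‖) (hW : WI σ J r)
    [Nonempty n] {O : SGr σ J r → SGr σ J r → Prop} (hO : ∀ X Y, O X Y → H43.G.Opp X Y) :
    CapP (fun g : FormGroup σ J => nmM (ta g.1))
      (fun R T A => {g | NWr r R (ta g.1) ∧ AttS T A (ta g.1)}) O := by
  intro A B hB hAB R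
  obtain ⟨T, hT, C, hC, h⟩ := locS hF.fm hσ hB (fun X hX Y hY => hO _ _ (hAB X hX Y hY)) R
  obtain ⟨D, hD, hn⟩ := nearr hF hσ hW
  set C' : ℝ := C + 3 with hC'
  have hCC : C ≤ C' := by linarith
  have h3 : 3 ≤ C' := by linarith
  refine ⟨T, hT, 7 * (3 * (C' * D ^ 2) ^ 6) ^ 12, ?_⟩
  rintro g ⟨w, a⟩ g' ⟨w', a'⟩ h1 h2 y hy hy'
  exact hn C' (by linarith) g g'
    (h1.trans (mul_le_mul_of_nonneg_right h3 (nmM_nonneg _)))
    (h2.trans (mul_le_mul_of_nonneg_right h3 (nmM_nonneg _))) y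
    (fun x hx => (h g w a y hy x hx).trans (mul_le_mul_of_nonneg_right hCC (norm_nonneg _)))
    (fun x hx => (h g' w' a' y hy' x hx).trans (mul_le_mul_of_nonneg_right hCC (norm_nonneg _)))

/-- bounded shells, maximal singular spaces -/
theorem shellr [ProperSpace k] (hF : Fo σ ε J) (hσ : ∀ x, ‖σ x‖ = ‖x‖) (hW : WI σ J r)
    [Nonempty n] {Γ : Type} {q : Γ → FormGroup σ J}
    (hud : ∀ C : ℝ, ∃ N : ℕ, ∀ T : Finset Γ,
      (∀ γ ∈ T, ∀ γ' ∈ T, nmM (ta (q γ' * (q γ)⁻¹).1) ≤ C) → T.card ≤ N) (C : ℝ) :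
    ∃ N : ℕ, ∀ S : Finset Γ,
      (∀ γ ∈ S, ∀ γ' ∈ S, nmM (ta (q γ).1) ≤ C * nmM (ta (q γ').1)) → ∀ ν : SGr σ J r,
      (∀ γ ∈ S, ∀ z ∈ ν.S, nmM (ta (q γ).1) * ‖ta (q γ).1 *ᵥ z‖ ≤ C * ‖z‖) → S.card ≤ N := by
  obtain ⟨D, hD, hn⟩ := nearr hF hσ hW
  set C' : ℝ := max C 1 with hC'
  have hc1 : 1 ≤ C' := le_max_right _ _
  have hcc : C ≤ C' := le_max_left _ _
  obtain ⟨N, hN⟩ := hud (7 * (3 * (C' * D ^ 2) ^ 6) ^ 12)
  refine ⟨N, fun S hS ν hν => hN S fun γ hγ γ' hγ' => ?_⟩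
  exact hn C' hc1 _ _
    ((hS γ hγ γ' hγ').trans (mul_le_mul_of_nonneg_right hcc (nmM_nonneg _)))
    ((hS γ' hγ' γ hγ).trans (mul_le_mul_of_nonneg_right hcc (nmM_nonneg _))) ν
    (fun z hz => (hν γ hγ z hz).trans (mul_le_mul_of_nonneg_right hcc (norm_nonneg _)))
    (fun z hz => (hν γ' hγ' z hz).trans (mul_le_mul_of_nonneg_right hcc (norm_nonneg _)))

/-- bounded shells, points -/
theorem shell1 (hF : Fm σ ε J) (hσ : ∀ x, ‖σ x‖ = ‖x‖) [Nonempty n] {Γ : Type}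
    {q : Γ → FormGroup σ J}
    (hud : ∀ C : ℝ, ∃ N : ℕ, ∀ T : Finset Γ,
      (∀ γ ∈ T, ∀ γ' ∈ T, nmM (ta (q γ' * (q γ)⁻¹).1) ≤ C) → T.card ≤ N) (C : ℝ) :
    ∃ N : ℕ, ∀ S : Finset Γ, (∀ γ ∈ S, NW1 C (ta (q γ).1)) →
      (∀ γ ∈ S, ∀ γ' ∈ S, nmM (ta (q γ).1) ≤ C * nmM (ta (q γ').1)) → ∀ x : n → k, x ≠ 0 →
      (∀ γ ∈ S, nmM (ta (q γ).1) * ‖ta (q γ).1 *ᵥ x‖ ≤ C * ‖x‖) → S.card ≤ N := by
  obtain ⟨β, hβ, hn⟩ := near1 hF hσ (J := J)
  set C' : ℝ := max C 1 with hC'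
  have hc1 : 1 ≤ C' := le_max_right _ _
  have hcc : C ≤ C' := le_max_left _ _
  obtain ⟨N, hN⟩ := hud (6 * β ^ 8 * C' ^ 4)
  refine ⟨N, fun S hw hS x hx hν => hN S fun γ hγ γ' hγ' => ?_⟩
  have hw' : ∀ γ ∈ S, NW1 C' (ta (q γ).1) := fun γ hγ i i' j j' =>
    (hw γ hγ i i' j j').trans (mul_le_mul_of_nonneg_right hcc (nmM_nonneg _))
  exact hn C' hc1 _ _ (hw' γ hγ) (hw' γ' hγ')
    ((hS γ hγ γ' hγ').trans (mul_le_mul_of_nonneg_right hcc (nmM_nonneg _)))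
    ((hS γ' hγ' γ hγ).trans (mul_le_mul_of_nonneg_right hcc (nmM_nonneg _))) x hx
    ((hν γ hγ).trans (mul_le_mul_of_nonneg_right hcc (norm_nonneg _)))
    ((hν γ' hγ').trans (mul_le_mul_of_nonneg_right hcc (norm_nonneg _)))

end caps

section sub

/-- subgroups -/
theorem sub {G Y : Type} [Group G] [MulAction G Y] [TopologicalSpace Y] {nm : G → ℝ}
    {NA : ℝ → ℝ → Set Y → Set G} {O : Y → Y → Prop} (h : CapP nm NA O) (S : Subgroup G) :
    CapP (fun g : S => nm g) (fun R T A => {g : S | (g : G) ∈ NA R T A}) O := by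
  intro A B hB hAB R
  obtain ⟨T, hT, C, hC⟩ := h A B hB hAB R
  exact ⟨T, hT, C, fun g hg g' hg' h1 h2 y hy hy' => hC g hg g' hg' h1 h2 y hy hy'⟩

end sub

end Vale.Agent.P092.H315P.GO
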