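import Vale.Agent.P092.H315P.G6
import Vale.Agent.P092.CL.LtO

/-!
P092, stage CL-O (helper315): the capacities in the letters `CL.ltO` (orthogonal groups).
-/

set_option linter.all false

open Matrix Module Set Topology MeasureTheory

namespace Vale.Agent.P092.H315P.GO

open Vale.Agent.P092.H303 (FormGroup Idx hyp)
open Vale.Agent.P092.H370.Po (Sing Ort SGr Inc Col WI)
open Vale.Agent.P092.H370.Fo (Fo)
open Vale.Agent.P092.H306.G (CapG)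
open Vale.Agent.P092.H315P.G (CapP capG_of)

variable {k : Type} [NontriviallyNormedField k] {ι : Type} [Fintype ι] [DecidableEq ι]
  {J₀ : Matrix ι ι k}

/-- thick singular spaces -/
theorem fo_of (h : CL.OF J₀) (s : ℕ)
    (hW : WI (RingHom.id k) (hyp (s + 2) 1 J₀) (s + 2)) :
    Fo (RingHom.id k) 1 (hyp (s + 2) 1 J₀) := by
  refine Vale.Agent.P092.H370.Fo.Fo.of_dim (h.fm s) hW.2 ?_
  haveI := h.ne
  have := Fintype.card_pos (α := ι)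
  have e : Fintype.card (Idx (s + 2) ι) = (s + 2 + (s + 2)) + Fintype.card ι := by
    change Fintype.card ((Fin (s + 2) ⊕ Fin (s + 2)) ⊕ ι) = _
    rw [Fintype.card_sum, Fintype.card_sum, Fintype.card_fin]
  omega

/-- sizes are bounded below, letters `ltO` -/
theorem nm_lowO [MeasurableSpace k] (h : CL.OF J₀) (s : ℕ) {a : k} (ha : a ≠ 0)
    (μ₁ : Measure k) (μ₂ : Measure (ι → k)) :
    ∃ c : ℝ, 0 < c ∧ ∀ g, c ≤ (CL.ltO h s ha μ₁ μ₂).nm g := by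
  haveI : Nonempty (Idx (s + 2) ι) := ⟨Sum.inl (Sum.inl 0)⟩
  obtain ⟨c, hc, h1⟩ := exists_low (h.fm s) fun _ => rfl
  exact ⟨c, hc, fun g => h1 g.1⟩

variable [ProperSpace k]

/-- the points, pair form -/
theorem capO1 [MeasurableSpace k] (h : CL.OF J₀) (s : ℕ) {a : k} (ha : a ≠ 0)
    (μ₁ : Measure k) (μ₂ : Measure (ι → k))
    (hW : WI (RingHom.id k) (hyp (s + 2) 1 J₀) (s + 2)) :
    CapP (CL.ltO h s ha μ₁ μ₂).nm (CL.ltO h s ha μ₁ μ₂).NA1 (CL.ltO h s ha μ₁ μ₂).opp1 := by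
  haveI : Nonempty (Idx (s + 2) ι) := ⟨Sum.inl (Sum.inl 0)⟩
  exact sub (capP1 (h.fm s) (fun _ => rfl)
    fun X Y hXY => opp_of1 (fo_of h s hW) hW (by omega) hXY) _

/-- the maximal singular spaces, pair form -/
theorem capO2 [MeasurableSpace k] (h : CL.OF J₀) (s : ℕ) {a : k} (ha : a ≠ 0)
    (μ₁ : Measure k) (μ₂ : Measure (ι → k))
    (hW : WI (RingHom.id k) (hyp (s + 2) 1 J₀) (s + 2)) :
    CapP (CL.ltO h s ha μ₁ μ₂).nm (CL.ltO h s ha μ₁ μ₂).NA2 (CL.ltO h s ha μ₁ μ₂).opp2 := by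
  haveI : Nonempty (Idx (s + 2) ι) := ⟨Sum.inl (Sum.inl 0)⟩
  exact sub (capPr (fo_of h s hW) (fun _ => rfl) hW
    fun X Y hXY => opp_of2 (fo_of h s hW) hW hXY) _

/-- **the capacity of opposite points** -/
theorem cap1O [MeasurableSpace k] (h : CL.OF J₀) (s : ℕ) {a : k} (ha : a ≠ 0)
    (μ₁ : Measure k) (μ₂ : Measure (ι → k))
    (hW : WI (RingHom.id k) (hyp (s + 2) 1 J₀) (s + 2)) {Γ : Type}
    {q : Γ → CL.EUF (RingHom.id k) 1 (hyp (s + 2) 1 J₀)}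
    (hud : (CL.ltO h s ha μ₁ μ₂).UD q) :
    CapG (fun γ => (CL.ltO h s ha μ₁ μ₂).nm (q γ)) q ((CL.ltO h s ha μ₁ μ₂).na1 q)
      (CL.ltO h s ha μ₁ μ₂).opp1 := by
  obtain ⟨c, hc, hlow⟩ := nm_lowO h s ha μ₁ μ₂
  exact capG_of (capO1 h s ha μ₁ μ₂ hW) hc hlow hud

/-- **the capacity of opposite maximal singular spaces** -/
theorem cap2O [MeasurableSpace k] (h : CL.OF J₀) (s : ℕ) {a : k} (ha : a ≠ 0)
    (μ₁ : Measure k) (μ₂ : Measure (ι → k))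
    (hW : WI (RingHom.id k) (hyp (s + 2) 1 J₀) (s + 2)) {Γ : Type}
    {q : Γ → CL.EUF (RingHom.id k) 1 (hyp (s + 2) 1 J₀)}
    (hud : (CL.ltO h s ha μ₁ μ₂).UD q) :
    CapG (fun γ => (CL.ltO h s ha μ₁ μ₂).nm (q γ)) q ((CL.ltO h s ha μ₁ μ₂).na2 q)
      (CL.ltO h s ha μ₁ μ₂).opp2 := by
  obtain ⟨c, hc, hlow⟩ := nm_lowO h s ha μ₁ μ₂
  exact capG_of (capO2 h s ha μ₁ μ₂ hW) hc hlow hud

end Vale.Agent.P092.H315P.GO
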