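import Vale.Agent.P092.H337.NGa

/-!
P092, Team P, row [P-KAK] (helper315): the Cartan decomposition of `Sp_4(k)` with bounded
symplectic factors, `k` any normed field.  The form is `J`, pairing `e_0` with `e_3` and `e_1`
with `e_2`.
-/

set_option linter.all false

namespace Vale.Agent.P092.H315P

open Matrix
open Vale.Agent.P092.H337.NG (en m2 mi)

abbrev M4 (k : Type*) := Matrix (Fin 4) (Fin 4) k

section ring

variable {k : Type*} [CommRing k]

/-- The symplectic form. -/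
def J (k : Type*) [CommRing k] : M4 k :=
  !![0, 0, 0, 1; 0, 0, 1, 0; 0, -1, 0, 0; -1, 0, 0, 0]

/-- Symplectic matrices. -/
def Sp (g : M4 k) : Prop := g * J k * gᵀ = J k

/-- The symplectic inverse. -/
def sinv (g : M4 k) : M4 k := -(J k * gᵀ * J k)

theorem J_sq : J k * J k = -1 := by
  ext i j
  fin_cases i <;> fin_cases j <;>
    simp [J, Matrix.mul_apply, Fin.sum_univ_four, Matrix.one_apply]

theorem J_tr : (J k)ᵀ = -J k := by
  ext i j
  fin_cases i <;> fin_cases j <;> simp [J]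

theorem Sp.mul_sinv {g : M4 k} (h : Sp g) : g * sinv g = 1 := by
  have : g * J k * gᵀ * J k = -1 := by rw [show g * J k * gᵀ = J k from h, J_sq]
  rw [sinv, Matrix.mul_neg, ← Matrix.mul_assoc, ← Matrix.mul_assoc, this, neg_neg]

theorem Sp.sinv_mul {g : M4 k} (h : Sp g) : sinv g * g = 1 :=
  mul_eq_one_comm.mp h.mul_sinv

theorem Sp.left {g : M4 k} (h : Sp g) : gᵀ * J k * g = J k := by
  have h1 := h.sinv_mul
  have h2 : J k * (sinv g * g) = J k := by rw [h1, Matrix.mul_one]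
  rw [sinv, Matrix.neg_mul, Matrix.mul_neg] at h2
  have h3 : J k * (J k * gᵀ * J k * g) = -(gᵀ * J k * g) := by
    rw [← Matrix.mul_assoc, ← Matrix.mul_assoc, ← Matrix.mul_assoc, J_sq, Matrix.neg_mul,
      Matrix.neg_mul, Matrix.neg_mul, Matrix.one_mul]
  rw [h3, neg_neg] at h2
  exact h2

theorem Sp.of_left {g : M4 k} (h : gᵀ * J k * g = J k) : Sp g := by
  have e : (J k * gᵀ * J k) * g = -1 := by
    rw [Matrix.mul_assoc, Matrix.mul_assoc, ← Matrix.mul_assoc gᵀ, h, J_sq]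
  have e2 : (-(J k * gᵀ * J k)) * g = 1 := by rw [Matrix.neg_mul, e, neg_neg]
  have e3 : g * (-(J k * gᵀ * J k)) = 1 := mul_eq_one_comm.mp e2
  have e4 : g * (J k * gᵀ * J k) * J k = -(J k) := by
    rw [Matrix.mul_neg] at e3
    have := congrArg (fun A => -A * J k) e3
    simpa [Matrix.neg_mul] using this
  have e5 : g * (J k * gᵀ * J k) * J k = -(g * J k * gᵀ) := by
    have : J k * gᵀ * J k * J k = -(J k * gᵀ) := by
      rw [Matrix.mul_assoc, J_sq, Matrix.mul_neg, Matrix.mul_one]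
    rw [Matrix.mul_assoc, this, Matrix.mul_neg, Matrix.mul_assoc]
  rw [e5] at e4
  exact neg_injective e4

theorem Sp.tr {g : M4 k} (h : Sp g) : Sp gᵀ := by
  have := h.left
  unfold Sp
  rw [transpose_transpose]
  exact this

theorem Sp.mul {g h : M4 k} (hg : Sp g) (hh : Sp h) : Sp (g * h) := by
  unfold Sp at *
  rw [transpose_mul]
  calc g * h * J k * (hᵀ * gᵀ) = g * (h * J k * hᵀ) * gᵀ := by simp only [Matrix.mul_assoc]
    _ = J k := by rw [hh, hg]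

theorem Sp.one : Sp (1 : M4 k) := by
  unfold Sp
  rw [transpose_one, Matrix.one_mul, Matrix.mul_one]

theorem Sp.inv {g : M4 k} (h : Sp g) : Sp (sinv g) := by
  have h1 := h.mul_sinv
  have h2 := h.left
  unfold Sp
  have h3 : (sinv g)ᵀ * gᵀ = 1 := by rw [← transpose_mul, h1, transpose_one]
  have h4 : gᵀ * (sinv g)ᵀ = 1 := mul_eq_one_comm.mp h3
  calc sinv g * J k * (sinv g)ᵀ
      = sinv g * (g * J k * gᵀ) * (sinv g)ᵀ := by rw [show g * J k * gᵀ = J k from h]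
    _ = (sinv g * g) * J k * (gᵀ * (sinv g)ᵀ) := by simp only [Matrix.mul_assoc]
    _ = J k := by rw [h.sinv_mul, h4, Matrix.one_mul, Matrix.mul_one]

theorem sinv_apply (g : M4 k) : sinv g =
    !![g 3 3, g 2 3, -g 1 3, -g 0 3; g 3 2, g 2 2, -g 1 2, -g 0 2;
       -g 3 1, -g 2 1, g 1 1, g 0 1; -g 3 0, -g 2 0, g 1 0, g 0 0] := by
  ext i j
  fin_cases i <;> fin_cases j <;>
    simp [sinv, J, Matrix.mul_apply, Matrix.vecMul, dotProduct, Fin.sum_univ_four]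

/-- The lower Heisenberg elements. -/
def lo (x y z : k) : M4 k := !![1, 0, 0, 0; x, 1, 0, 0; y, 0, 1, 0; z, y, -x, 1]

/-- The middle `SL_2`. -/
def mid (S : Matrix (Fin 2) (Fin 2) k) : M4 k :=
  !![1, 0, 0, 0; 0, S 0 0, S 0 1, 0; 0, S 1 0, S 1 1, 0; 0, 0, 0, 1]

/-- The diagonal elements. -/
def dg (a b c d : k) : M4 k := !![a, 0, 0, 0; 0, b, 0, 0; 0, 0, c, 0; 0, 0, 0, d]

def w1 (k : Type*) [CommRing k] : M4 k := !![0, 1, 0, 0; 1, 0, 0, 0; 0, 0, 0, 1; 0, 0, 1, 0]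

def w3 (k : Type*) [CommRing k] : M4 k := !![0, 0, 0, 1; 0, 1, 0, 0; 0, 0, 1, 0; -1, 0, 0, 0]

def w2 (k : Type*) [CommRing k] : M4 k := !![0, 0, 1, 0; 1, 0, 0, 0; 0, 0, 0, 1; 0, -1, 0, 0]

theorem sp_lo (x y z : k) : Sp (lo x y z) := by
  unfold Sp
  ext i j
  fin_cases i <;> fin_cases j <;>
    simp [lo, J, Matrix.mul_apply, Matrix.vecMul, dotProduct, Fin.sum_univ_four]
  ring

theorem sp_mid {S : Matrix (Fin 2) (Fin 2) k} (h : S.det = 1) : Sp (mid S) := by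
  rw [Matrix.det_fin_two] at h
  have h' : S 0 1 * S 1 0 = S 0 0 * S 1 1 - 1 := by linear_combination -h
  unfold Sp
  ext i j
  fin_cases i <;> fin_cases j <;>
    simp [mid, J, Matrix.mul_apply, Matrix.vecMul, dotProduct, Fin.sum_univ_four]
  · ring
  · linear_combination h
  · linear_combination -h
  · ring

theorem sp_w1 : Sp (w1 k) := by
  unfold Sp
  ext i j
  fin_cases i <;> fin_cases j <;>
    simp [w1, J, Matrix.mul_apply, Matrix.vecMul, dotProduct, Fin.sum_univ_four]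

theorem sp_w2 : Sp (w2 k) := by
  unfold Sp
  ext i j
  fin_cases i <;> fin_cases j <;>
    simp [w2, J, Matrix.mul_apply, Matrix.vecMul, dotProduct, Fin.sum_univ_four]

theorem sp_w3 : Sp (w3 k) := by
  unfold Sp
  ext i j
  fin_cases i <;> fin_cases j <;>
    simp [w3, J, Matrix.mul_apply, Matrix.vecMul, dotProduct, Fin.sum_univ_four]

theorem mid_mul (S T : Matrix (Fin 2) (Fin 2) k) : mid (S * T) = mid S * mid T := by
  ext i j
  fin_cases i <;> fin_cases j <;>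
    simp [mid, Matrix.mul_apply, Matrix.vecMul, dotProduct, Fin.sum_univ_four,
      Fin.sum_univ_two]

theorem lo_mul (x y z : k) (g : M4 k) : lo x y z * g =
    !![g 0 0, g 0 1, g 0 2, g 0 3;
       x * g 0 0 + g 1 0, x * g 0 1 + g 1 1, x * g 0 2 + g 1 2, x * g 0 3 + g 1 3;
       y * g 0 0 + g 2 0, y * g 0 1 + g 2 1, y * g 0 2 + g 2 2, y * g 0 3 + g 2 3;
       z * g 0 0 + y * g 1 0 - x * g 2 0 + g 3 0, z * g 0 1 + y * g 1 1 - x * g 2 1 + g 3 1,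
       z * g 0 2 + y * g 1 2 - x * g 2 2 + g 3 2,
       z * g 0 3 + y * g 1 3 - x * g 2 3 + g 3 3] := by
  ext i j
  fin_cases i <;> fin_cases j <;>
    simp [lo, Matrix.mul_apply, Matrix.vecMul, dotProduct, Fin.sum_univ_four] <;> ring

end ring

section field

variable {k : Type*} [Field k]

/-- A symplectic matrix with trivial first row and column. -/
theorem Sp.block {h : M4 k} (hh : Sp h) (h0 : h 0 0 ≠ 0) (c1 : h 1 0 = 0) (c2 : h 2 0 = 0)
    (c3 : h 3 0 = 0) (r1 : h 0 1 = 0) (r2 : h 0 2 = 0) (r3 : h 0 3 = 0) :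
    h = dg (h 0 0) 1 1 (h 0 0)⁻¹ * mid !![h 1 1, h 1 2; h 2 1, h 2 2] ∧
      (!![h 1 1, h 1 2; h 2 1, h 2 2] : Matrix (Fin 2) (Fin 2) k).det = 1 := by
  have hl := hh.left
  have e : ∀ i j, (hᵀ * J k * h) i j = J k i j := fun i j => by rw [hl]
  have f : ∀ i j, (h * J k * hᵀ) i j = J k i j := fun i j => by rw [show h * J k * hᵀ = _ from hh]
  have e1 := e 0 1
  have e2 := e 0 2
  have e3 := e 0 3
  have f1 := f 0 1
  have f2 := f 0 2
  have e12 := e 1 2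
  simp [J, Matrix.mul_apply, Matrix.vecMul, dotProduct, Fin.sum_univ_four, c1, c2, c3, r1, r2,
    r3, h0] at e1 e2 e3 f1 f2 e12
  have e3' : h 3 3 = (h 0 0)⁻¹ := by
    refine eq_inv_of_mul_eq_one_left ?_
    linear_combination e3
  refine ⟨?_, ?_⟩
  · ext i j
    fin_cases i <;> fin_cases j <;>
      simp [dg, mid, Matrix.mul_apply, Matrix.vecMul, dotProduct, Fin.sum_univ_four, c1, c2, c3,
        r1, r2, r3, e1, e2, e3', f1, f2]
  · rw [Matrix.det_fin_two]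
    simp
    linear_combination e12

theorem dg_mul (a b c d a' b' c' d' : k) :
    dg a b c d * dg a' b' c' d' = dg (a * a') (b * b') (c * c') (d * d') := by
  ext i j
  fin_cases i <;> fin_cases j <;>
    simp [dg, Matrix.mul_apply, Matrix.vecMul, dotProduct, Fin.sum_univ_four]

theorem dg_mid (a d : k) (S : Matrix (Fin 2) (Fin 2) k) :
    dg a 1 1 d * mid S = mid S * dg a 1 1 d := by
  ext i j
  fin_cases i <;> fin_cases j <;>
    simp [dg, mid, Matrix.mul_apply, Matrix.vecMul, dotProduct, Fin.sum_univ_four]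

theorem dg_eq (a b c d : k) : dg a b c d = diagonal ![a, b, c, d] := by
  ext i j
  fin_cases i <;> fin_cases j <;> simp [dg]

end field

section normed

variable {k : Type*} [NormedField k]

theorem bd4 {A B : M4 k} {a b : ℝ} (ha : ∀ i j, ‖A i j‖ ≤ a) (hb : ∀ i j, ‖B i j‖ ≤ b)
    (i j : Fin 4) : ‖(A * B) i j‖ ≤ 4 * (a * b) := by
  have h0 : 0 ≤ a := (norm_nonneg _).trans (ha i j)
  rw [Matrix.mul_apply]
  calc _ ≤ ∑ _l : Fin 4, a * b := by
        refine norm_sum_le_of_le _ fun l _ => ?_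
        rw [norm_mul]
        exact mul_le_mul (ha _ _) (hb _ _) (norm_nonneg _) h0
    _ = _ := by simp

theorem sinv_bd {g : M4 k} {a : ℝ} (h : ∀ i j, ‖g i j‖ ≤ a) (i j : Fin 4) :
    ‖sinv g i j‖ ≤ a := by
  rw [sinv_apply]
  fin_cases i <;> fin_cases j <;> simp [h]

/-- The pivot permutations. -/
theorem exists_piv (i : Fin 4) : ∃ W : M4 k, Sp W ∧ (∀ a b, ‖W a b‖ ≤ 1) ∧
    (∀ c : Fin 4 → k, (W *ᵥ c) 0 = c i) ∧ ∀ (c : Fin 4 → k) a, ∃ b, ‖(W *ᵥ c) a‖ = ‖c b‖ := by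
  fin_cases i
  · refine ⟨1, Sp.one, fun a b => ?_, fun c => ?_, fun c a => ⟨a, ?_⟩⟩
    · rw [Matrix.one_apply]
      split_ifs <;> simp
    · rw [Matrix.one_mulVec]
      rfl
    · rw [Matrix.one_mulVec]
  · refine ⟨w1 k, sp_w1, fun a b => ?_, fun c => ?_, fun c a => ?_⟩
    · fin_cases a <;> fin_cases b <;> simp [w1]
    · simp [w1, Matrix.mulVec, dotProduct, Fin.sum_univ_four]
    · fin_cases a
      · exact ⟨1, by simp [w1, Matrix.mulVec, dotProduct, Fin.sum_univ_four]⟩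
      · exact ⟨0, by simp [w1, Matrix.mulVec, dotProduct, Fin.sum_univ_four]⟩
      · exact ⟨3, by simp [w1, Matrix.mulVec, dotProduct, Fin.sum_univ_four]⟩
      · exact ⟨2, by simp [w1, Matrix.mulVec, dotProduct, Fin.sum_univ_four]⟩
  · refine ⟨w2 k, sp_w2, fun a b => ?_, fun c => ?_, fun c a => ?_⟩
    · fin_cases a <;> fin_cases b <;> simp [w2]
    · simp [w2, Matrix.mulVec, dotProduct, Fin.sum_univ_four]
    · fin_cases a
      · exact ⟨2, by simp [w2, Matrix.mulVec, dotProduct, Fin.sum_univ_four]⟩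
      · exact ⟨0, by simp [w2, Matrix.mulVec, dotProduct, Fin.sum_univ_four]⟩
      · exact ⟨3, by simp [w2, Matrix.mulVec, dotProduct, Fin.sum_univ_four]⟩
      · exact ⟨1, by simp [w2, Matrix.mulVec, dotProduct, Fin.sum_univ_four]⟩
  · refine ⟨w3 k, sp_w3, fun a b => ?_, fun c => ?_, fun c a => ?_⟩
    · fin_cases a <;> fin_cases b <;> simp [w3]
    · simp [w3, Matrix.mulVec, dotProduct, Fin.sum_univ_four]
    · fin_cases a
      · exact ⟨3, by simp [w3, Matrix.mulVec, dotProduct, Fin.sum_univ_four]⟩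
      · exact ⟨1, by simp [w3, Matrix.mulVec, dotProduct, Fin.sum_univ_four]⟩
      · exact ⟨2, by simp [w3, Matrix.mulVec, dotProduct, Fin.sum_univ_four]⟩
      · exact ⟨0, by simp [w3, Matrix.mulVec, dotProduct, Fin.sum_univ_four]⟩

/-- The middle block, pivot at the first entry. -/
theorem exists_sl2_aux (p q r t : k) (h : p * t - q * r = 1) (hp : p ≠ 0) (hq : ‖q‖ ≤ ‖p‖)
    (hr : ‖r‖ ≤ ‖p‖) :
    ∃ S T : Matrix (Fin 2) (Fin 2) k, S.det = 1 ∧ T.det = 1 ∧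
      (∀ i j, ‖S i j‖ ≤ 1) ∧ (∀ i j, ‖T i j‖ ≤ 1) ∧
      !![p, q; r, t] = S * !![p, 0; 0, p⁻¹] * T := by
  have hp' : 0 < ‖p‖ := norm_pos_iff.mpr hp
  refine ⟨!![1, 0; r / p, 1], !![1, q / p; 0, 1], by simp [Matrix.det_fin_two],
    by simp [Matrix.det_fin_two], ?_, ?_, ?_⟩
  · intro i j
    fin_cases i <;> fin_cases j <;> simp
    exact div_le_one_of_le₀ hr hp'.le
  · intro i j
    fin_cases i <;> fin_cases j <;> simp
    exact div_le_one_of_le₀ hq hp'.le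
  · ext i j
    fin_cases i <;> fin_cases j <;> simp [Matrix.mul_apply, Fin.sum_univ_two]
    · field_simp
    · field_simp
    · field_simp
      linear_combination h

theorem rot_bd {S : Matrix (Fin 2) (Fin 2) k} (h : ∀ i j, ‖S i j‖ ≤ 1) :
    (∀ i j, ‖((!![0, -1; 1, 0] : Matrix (Fin 2) (Fin 2) k) * S) i j‖ ≤ 1) ∧
      (∀ i j, ‖(S * (!![0, 1; -1, 0] : Matrix (Fin 2) (Fin 2) k)) i j‖ ≤ 1) := by
  constructor <;> intro i j <;> fin_cases i <;> fin_cases j <;>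
    simp [Matrix.mul_apply, Fin.sum_univ_two, h]

/-- The middle block. -/
theorem exists_sl2 (p q r t : k) (h : p * t - q * r = 1) :
    ∃ (S T : Matrix (Fin 2) (Fin 2) k) (b : k), S.det = 1 ∧ T.det = 1 ∧
      (∀ i j, ‖S i j‖ ≤ 1) ∧ (∀ i j, ‖T i j‖ ≤ 1) ∧ b ≠ 0 ∧
      !![p, q; r, t] = S * !![b, 0; 0, b⁻¹] * T ∧
      (‖p‖ ≤ ‖b‖ ∧ ‖q‖ ≤ ‖b‖ ∧ ‖r‖ ≤ ‖b‖ ∧ ‖t‖ ≤ ‖b‖) ∧ (b = p ∨ b = q ∨ b = r ∨ b = t) := by
  have hd1 : (!![0, -1; 1, 0] : Matrix (Fin 2) (Fin 2) k).det = 1 := by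
    simp [Matrix.det_fin_two]
  have hd2 : (!![0, 1; -1, 0] : Matrix (Fin 2) (Fin 2) k).det = 1 := by
    simp [Matrix.det_fin_two]
  have nz : ∀ x : k, ‖p‖ ≤ ‖x‖ → ‖q‖ ≤ ‖x‖ → ‖r‖ ≤ ‖x‖ → ‖t‖ ≤ ‖x‖ → x ≠ 0 := by
    rintro x h1 h2 h3 h4 rfl
    rw [norm_zero, norm_le_zero_iff] at h1 h2 h3 h4
    rw [h1, h2, h3, h4] at h
    simp at h
  rcases le_total ‖q‖ ‖p‖ with h1 | h1 <;> rcases le_total ‖t‖ ‖r‖ with h2 | h2
  · rcases le_total ‖r‖ ‖p‖ with h3 | h3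
    · have hb := nz p le_rfl h1 h3 (h2.trans h3)
      obtain ⟨S, T, s1, s2, s3, s4, s5⟩ := exists_sl2_aux p q r t h hb h1 h3
      exact ⟨S, T, p, s1, s2, s3, s4, hb, s5, ⟨le_rfl, h1, h3, h2.trans h3⟩, Or.inl rfl⟩
    · have hb := nz r h3 (h1.trans h3) le_rfl h2
      obtain ⟨S, T, s1, s2, s3, s4, s5⟩ := exists_sl2_aux r t (-p) (-q)
        (by linear_combination h) hb h2 (by rwa [norm_neg])
      refine ⟨!![0, -1; 1, 0] * S, T, r, by rw [Matrix.det_mul, hd1, s1, one_mul], s2,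
        (rot_bd s3).1, s4, hb, ?_, ⟨h3, h1.trans h3, le_rfl, h2⟩, by simp⟩
      rw [Matrix.mul_assoc, Matrix.mul_assoc, ← Matrix.mul_assoc S, ← s5]
      ext i j
      fin_cases i <;> fin_cases j <;> simp [Matrix.mul_apply, Fin.sum_univ_two]
  · rcases le_total ‖t‖ ‖p‖ with h3 | h3
    · have hb := nz p le_rfl h1 (h2.trans h3) h3
      obtain ⟨S, T, s1, s2, s3, s4, s5⟩ := exists_sl2_aux p q r t h hb h1 (h2.trans h3)
      exact ⟨S, T, p, s1, s2, s3, s4, hb, s5, ⟨le_rfl, h1, h2.trans h3, h3⟩, Or.inl rfl⟩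
    · have hb := nz t h3 (h1.trans h3) h2 le_rfl
      obtain ⟨S, T, s1, s2, s3, s4, s5⟩ := exists_sl2_aux t (-r) (-q) p
        (by linear_combination h) hb (by rwa [norm_neg]) (by rw [norm_neg]; exact h1.trans h3)
      refine ⟨!![0, -1; 1, 0] * S, T * !![0, 1; -1, 0], t,
        by rw [Matrix.det_mul, hd1, s1, one_mul], by rw [Matrix.det_mul, hd2, s2, one_mul],
        (rot_bd s3).1, (rot_bd s4).2, hb, ?_, ⟨h3, h1.trans h3, h2, le_rfl⟩, by simp⟩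
      rw [← Matrix.mul_assoc, Matrix.mul_assoc, Matrix.mul_assoc, Matrix.mul_assoc,
        ← Matrix.mul_assoc _ T, ← Matrix.mul_assoc S, ← Matrix.mul_assoc S, ← s5]
      ext i j
      fin_cases i <;> fin_cases j <;> simp [Matrix.mul_apply, Fin.sum_univ_two]
  · rcases le_total ‖r‖ ‖q‖ with h3 | h3
    · have hb := nz q h1 le_rfl h3 (h2.trans h3)
      obtain ⟨S, T, s1, s2, s3, s4, s5⟩ := exists_sl2_aux q (-p) t (-r)
        (by linear_combination h) hb (by rwa [norm_neg]) (h2.trans h3)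
      refine ⟨S, T * !![0, 1; -1, 0], q, s1, by rw [Matrix.det_mul, hd2, s2, one_mul],
        s3, (rot_bd s4).2, hb, ?_, ⟨h1, le_rfl, h3, h2.trans h3⟩, by simp⟩
      rw [← Matrix.mul_assoc, ← s5]
      ext i j
      fin_cases i <;> fin_cases j <;> simp [Matrix.mul_apply, Fin.sum_univ_two]
    · have hb := nz r (h1.trans h3) h3 le_rfl h2
      obtain ⟨S, T, s1, s2, s3, s4, s5⟩ := exists_sl2_aux r t (-p) (-q)
        (by linear_combination h) hb h2 (by rw [norm_neg]; exact h1.trans h3)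
      refine ⟨!![0, -1; 1, 0] * S, T, r, by rw [Matrix.det_mul, hd1, s1, one_mul], s2,
        (rot_bd s3).1, s4, hb, ?_, ⟨h1.trans h3, h3, le_rfl, h2⟩, by simp⟩
      rw [Matrix.mul_assoc, Matrix.mul_assoc, ← Matrix.mul_assoc S, ← s5]
      ext i j
      fin_cases i <;> fin_cases j <;> simp [Matrix.mul_apply, Fin.sum_univ_two]
  · rcases le_total ‖t‖ ‖q‖ with h3 | h3
    · have hb := nz q h1 le_rfl (h2.trans h3) h3
      obtain ⟨S, T, s1, s2, s3, s4, s5⟩ := exists_sl2_aux q (-p) t (-r)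
        (by linear_combination h) hb (by rwa [norm_neg]) h3
      refine ⟨S, T * !![0, 1; -1, 0], q, s1, by rw [Matrix.det_mul, hd2, s2, one_mul],
        s3, (rot_bd s4).2, hb, ?_, ⟨h1, le_rfl, h2.trans h3, h3⟩, by simp⟩
      rw [← Matrix.mul_assoc, ← s5]
      ext i j
      fin_cases i <;> fin_cases j <;> simp [Matrix.mul_apply, Fin.sum_univ_two]
    · have hb := nz t (h1.trans h3) h3 h2 le_rfl
      obtain ⟨S, T, s1, s2, s3, s4, s5⟩ := exists_sl2_aux t (-r) (-q) p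
        (by linear_combination h) hb (by rwa [norm_neg]) (by rwa [norm_neg])
      refine ⟨!![0, -1; 1, 0] * S, T * !![0, 1; -1, 0], t,
        by rw [Matrix.det_mul, hd1, s1, one_mul], by rw [Matrix.det_mul, hd2, s2, one_mul],
        (rot_bd s3).1, (rot_bd s4).2, hb, ?_, ⟨h1.trans h3, h3, h2, le_rfl⟩, by simp⟩
      rw [← Matrix.mul_assoc, Matrix.mul_assoc, Matrix.mul_assoc, Matrix.mul_assoc,
        ← Matrix.mul_assoc _ T, ← Matrix.mul_assoc S, ← Matrix.mul_assoc S, ← s5]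
      ext i j
      fin_cases i <;> fin_cases j <;> simp [Matrix.mul_apply, Fin.sum_univ_two]

theorem mid_bd {S : Matrix (Fin 2) (Fin 2) k} (h : ∀ i j, ‖S i j‖ ≤ 1) (i j : Fin 4) :
    ‖mid S i j‖ ≤ 1 := by
  fin_cases i <;> fin_cases j <;> simp [mid, h]

theorem lo_bd {x y z : k} (hx : ‖x‖ ≤ 1) (hy : ‖y‖ ≤ 1) (hz : ‖z‖ ≤ 1) (i j : Fin 4) :
    ‖lo x y z i j‖ ≤ 1 := by
  fin_cases i <;> fin_cases j <;> simp [lo, hx, hy, hz]

/-- Elimination of the first column. -/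
theorem exists_lo (g : M4 k) (h0 : g 0 0 ≠ 0) (hb : ∀ i, ‖g i 0‖ ≤ ‖g 0 0‖) :
    ∃ L : M4 k, Sp L ∧ (∀ i j, ‖L i j‖ ≤ 1) ∧ (L * g) 1 0 = 0 ∧ (L * g) 2 0 = 0 ∧
      (L * g) 3 0 = 0 ∧ ∀ j, (L * g) 0 j = g 0 j := by
  have hp : 0 < ‖g 0 0‖ := norm_pos_iff.mpr h0
  have hq : ∀ i, ‖-(g i 0 / g 0 0)‖ ≤ 1 := fun i => by
    rw [norm_neg, norm_div]
    exact div_le_one_of_le₀ (hb i) hp.le
  refine ⟨lo (-(g 1 0 / g 0 0)) (-(g 2 0 / g 0 0)) (-(g 3 0 / g 0 0)), sp_lo _ _ _,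
    lo_bd (hq 1) (hq 2) (hq 3), ?_, ?_, ?_, ?_⟩
  · rw [lo_mul]
    simp
    field_simp
    ring
  · rw [lo_mul]
    simp
    field_simp
    ring
  · rw [lo_mul]
    simp
    field_simp
    ring
  · intro j
    rw [lo_mul]
    fin_cases j <;> simp

/-- **The Cartan decomposition of `Sp_4(k)` with bounded symplectic factors.** -/
theorem cartan {g : M4 k} (hg : Sp g) :
    ∃ (U V : M4 k) (a b : k), Sp U ∧ Sp V ∧ (∀ i j, ‖U i j‖ ≤ 16) ∧ (∀ i j, ‖V i j‖ ≤ 16) ∧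
      a ≠ 0 ∧ b ≠ 0 ∧ ‖a‖ = en g ∧ 1 ≤ 2 * ‖b‖ ^ 2 ∧ ‖b‖ ≤ 16 * ‖a‖ ∧
      g = U * dg a b b⁻¹ a⁻¹ * V := by
  -- the pivot
  obtain ⟨⟨i, j⟩, -, hij⟩ := Finset.exists_max_image (Finset.univ : Finset (Fin 4 × Fin 4))
    (fun ij => ‖g ij.1 ij.2‖) ⟨(0, 0), Finset.mem_univ _⟩
  have hmax : ∀ a b, ‖g a b‖ ≤ ‖g i j‖ := fun a b => hij (a, b) (Finset.mem_univ _)
  have hen : en g = ‖g i j‖ :=
    le_antisymm (Vale.Agent.P092.H337.NG.en_le_of (norm_nonneg _) hmax)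
      (Vale.Agent.P092.H337.NG.entry_le _ _ _)
  obtain ⟨W, hW, hWb, hW0, hWp⟩ := exists_piv (k := k) i
  obtain ⟨X, hX, hXb, hX0, hXp⟩ := exists_piv (k := k) j
  set g1 : M4 k := W * g * Xᵀ with hg1
  have hSg1 : Sp g1 := (hW.mul hg).mul hX.tr
  have e1 : ∀ a b, (W * g) a b = (W *ᵥ fun l => g l b) a := fun a b => by
    simp [Matrix.mul_apply, Matrix.mulVec, dotProduct]
  have e2 : ∀ a b, g1 a b = (X *ᵥ fun l => (W * g) a l) b := fun a b => by
    rw [hg1, Matrix.mul_apply]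
    simp only [Matrix.mulVec, dotProduct, transpose_apply]
    exact Finset.sum_congr rfl fun l _ => mul_comm _ _
  have e00 : g1 0 0 = g i j := by rw [e2, hX0, e1, hW0]
  have ebd : ∀ a b, ‖g1 a b‖ ≤ ‖g i j‖ := by
    intro a b
    obtain ⟨b', hb'⟩ := hXp (fun l => (W * g) a l) b
    rw [e2, hb']
    obtain ⟨a', ha'⟩ := hWp (fun l => g l b') a
    rw [e1, ha']
    exact hmax _ _
  have ha0 : g1 0 0 ≠ 0 := by
    intro h0
    rw [e00] at h0
    rw [h0, norm_zero] at hmax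
    have hz : g = 0 := by
      ext a b
      exact norm_le_zero_iff.mp (hmax a b)
    have := hg.mul_sinv
    rw [hz, Matrix.zero_mul] at this
    have := congrFun (congrFun this 0) 0
    simp at this
  -- elimination
  obtain ⟨L, hL, hLb, l1, l2, l3, l4⟩ := exists_lo g1 ha0 (fun a => by rw [e00]; exact ebd a 0)
  have t0 : (L * g1)ᵀ 0 0 = g1 0 0 := by rw [transpose_apply, l4]
  obtain ⟨R, hR, hRb, r1, r2, r3, r4⟩ := exists_lo (L * g1)ᵀ (by rw [t0]; exact ha0)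
    (fun a => by rw [t0, transpose_apply, l4, e00]; exact ebd 0 a)
  set h2 : M4 k := R * (L * g1)ᵀ with hh2
  have hS2 : Sp h2 := hR.mul (hL.mul hSg1).tr
  have c0 : h2 0 0 = g1 0 0 := by rw [r4, t0]
  have c1 : h2 0 1 = 0 := by rw [r4, transpose_apply, l1]
  have c2 : h2 0 2 = 0 := by rw [r4, transpose_apply, l2]
  have c3 : h2 0 3 = 0 := by rw [r4, transpose_apply, l3]
  obtain ⟨hb, hdet⟩ := hS2.block (by rw [c0]; exact ha0) r1 r2 r3 c1 c2 c3
  have h2b : ∀ a b, ‖h2 a b‖ ≤ 16 * ‖g i j‖ := by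
    intro a b
    have q1 := bd4 hLb ebd
    have q2 : ∀ a b, ‖(L * g1)ᵀ a b‖ ≤ 4 * (1 * ‖g i j‖) := fun a b => q1 b a
    have q3 := bd4 hRb q2 a b
    calc _ ≤ _ := q3
      _ = _ := by ring
  obtain ⟨S, T, b, s1, s2, s3, s4, hb0, s5, s6, s7⟩ := exists_sl2 (h2 1 1) (h2 1 2) (h2 2 1)
    (h2 2 2) (by rw [Matrix.det_fin_two] at hdet; simpa using hdet)
  have hmid : mid !![b, 0; 0, b⁻¹] = dg 1 b b⁻¹ 1 := by
    ext a c
    fin_cases a <;> fin_cases c <;> simp [mid, dg]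
  have hdg : h2 = mid S * dg (g1 0 0) b b⁻¹ (g1 0 0)⁻¹ * mid T := by
    have q : dg (g1 0 0) b b⁻¹ (g1 0 0)⁻¹ = dg (g1 0 0) 1 1 (g1 0 0)⁻¹ * dg 1 b b⁻¹ 1 := by
      rw [dg_mul]
      simp
    rw [q]
    conv_lhs => rw [hb, s5, mid_mul, mid_mul, hmid, c0]
    rw [← Matrix.mul_assoc, ← Matrix.mul_assoc, dg_mid, Matrix.mul_assoc (mid S)]
  have dgt : (dg (g1 0 0) b b⁻¹ (g1 0 0)⁻¹)ᵀ = dg (g1 0 0) b b⁻¹ (g1 0 0)⁻¹ := by
    rw [dg_eq, diagonal_transpose]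
  refine ⟨sinv W * sinv L * (mid T)ᵀ, (mid S)ᵀ * (sinv R)ᵀ * sinv Xᵀ, g1 0 0, b,
    (hW.inv.mul hL.inv).mul (sp_mid s2).tr, ((sp_mid s1).tr.mul hR.inv.tr).mul hX.tr.inv,
    fun a c => ?_, fun a c => ?_, ha0, hb0, by rw [e00, hen], ?_, ?_, ?_⟩
  · have q := bd4 (bd4 (sinv_bd hWb) (sinv_bd hLb)) (B := (mid T)ᵀ) (b := 1)
      (fun a c => mid_bd s4 c a) a c
    calc _ ≤ _ := q
      _ = _ := by norm_num
  · have q := bd4 (bd4 (A := (mid S)ᵀ) (B := (sinv R)ᵀ) (a := 1) (b := 1)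
      (fun a c => mid_bd s3 c a) (fun a c => sinv_bd hRb c a)) (B := sinv Xᵀ) (b := 1)
      (sinv_bd fun a c => hXb c a) a c
    calc _ ≤ _ := q
      _ = _ := by norm_num
  · obtain ⟨u1, u2, u3, u4⟩ := s6
    have hd : h2 1 1 * h2 2 2 - h2 1 2 * h2 2 1 = 1 := by
      rw [Matrix.det_fin_two] at hdet
      simpa using hdet
    have hn : ‖(1 : k)‖ ≤ ‖h2 1 1‖ * ‖h2 2 2‖ + ‖h2 1 2‖ * ‖h2 2 1‖ := by
      rw [← norm_mul, ← norm_mul, ← hd]
      exact norm_sub_le _ _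
    rw [norm_one] at hn
    have v1 := mul_le_mul u1 u4 (norm_nonneg _) (norm_nonneg _)
    have v2 := mul_le_mul u2 u3 (norm_nonneg _) (norm_nonneg _)
    nlinarith
  · rw [e00]
    rcases s7 with h | h | h | h <;> rw [h] <;> exact h2b _ _
  · have q1 : L * g1 = h2ᵀ * (sinv R)ᵀ := by
      rw [hh2, transpose_mul, transpose_transpose, Matrix.mul_assoc, ← transpose_mul,
        hR.sinv_mul, transpose_one, Matrix.mul_one]
    have q2 : g1 = sinv L * (h2ᵀ * (sinv R)ᵀ) := by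
      rw [← q1, ← Matrix.mul_assoc, hL.sinv_mul, Matrix.one_mul]
    have q3 : W * g = g1 * sinv Xᵀ := by
      rw [hg1, Matrix.mul_assoc, hX.tr.mul_sinv, Matrix.mul_one]
    have q4 : g = sinv W * (g1 * sinv Xᵀ) := by
      rw [← q3, ← Matrix.mul_assoc, hW.sinv_mul, Matrix.one_mul]
    have q5 : h2ᵀ = (mid T)ᵀ * dg (g1 0 0) b b⁻¹ (g1 0 0)⁻¹ * (mid S)ᵀ := by
      conv_lhs => rw [hdg]
      rw [transpose_mul, transpose_mul, dgt, Matrix.mul_assoc]
    conv_lhs => rw [q4, q2, q5]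
    simp only [Matrix.mul_assoc]

end normed

end Vale.Agent.P092.H315P
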