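import Vale.Agent.P092.H315P.G3
import Vale.Agent.P092.H306.G.Ropp

/-!
P092, tracks 2 and 3 (helper315), capacities for all forms, part 4: the raw statements (matrices
acting on columns, any form, any Witt index, any local field).

* `loc_gr`: near-wall isometries whose attracting `j`-space is in `A` contract the `j`-spaces
  moved into a set opposite to `A` at the full rate;
* `near_gr`: two isometries of comparable size which contract the same maximal singular subspace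
  differ by a bounded element; `near_pt`: the same for points and near-1-wall isometries;
* `capG_of`: from pairs to the count `H306.G.CapG`, for every size function.
-/

set_option linter.all false

open Matrix Module Set Topology

namespace Vale.Agent.P092.H315P.G

open Vale.Agent.P092.H789.S2
open Vale.Agent.P092.H100.Gr (Gr Fr sp sp_cont ch ch_mn ch_compact exists_ch li_of_mn eq_of_le)
open Vale.Agent.P092.H714.Cl (hf Frm)
open Vale.Agent.P092.H370.Po (Sing Ort SGr)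
open Vale.Agent.P092.H43.G (gm opg_span Opg Opp)
open Vale.Agent.P092.H306.G (CapG)

section raw

variable {k : Type} [NontriviallyNormedField k] {n : Type} [Fintype n] [DecidableEq n]
  {σ : k →+* k} {ε : k} {J : Matrix n n k} {r j : ℕ} {D : ℝ}

theorem iso_of {g : Matrix n n k} (h : ∀ x y, bf σ J (g *ᵥ x) (g *ᵥ y) = bf σ J x y) :
    Iso σ J g := by
  have key : ∀ x y : n → k, x ⬝ᵥ ((gᵀ * J * g.map σ) *ᵥ fun i => σ (y i)) =
      x ⬝ᵥ (J *ᵥ fun i => σ (y i)) := by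
    intro x y
    have h1 := h x y
    unfold bf at h1
    rw [map_mulVec] at h1
    rw [← h1]
    calc x ⬝ᵥ ((gᵀ * J * g.map σ) *ᵥ fun i => σ (y i))
        = x ⬝ᵥ (gᵀ *ᵥ (J *ᵥ (g.map σ *ᵥ fun i => σ (y i)))) := by
          simp only [Matrix.mulVec_mulVec, Matrix.mul_assoc]
      _ = (x ᵥ* gᵀ) ⬝ᵥ (J *ᵥ (g.map σ *ᵥ fun i => σ (y i))) := Matrix.dotProduct_mulVec _ _ _
      _ = (g *ᵥ x) ⬝ᵥ (J *ᵥ (g.map σ *ᵥ fun i => σ (y i))) := by rw [Matrix.vecMul_transpose]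
  ext a b
  have h2 := key (Pi.single a 1) (Pi.single b 1)
  have e : (fun i => σ ((Pi.single b 1 : n → k) i)) = Pi.single b 1 := by
    ext l
    by_cases hl : l = b
    · subst hl; simp
    · simp [hl]
  rw [e, Matrix.mulVec_single_one, Matrix.mulVec_single_one, single_dotProduct,
    single_dotProduct, one_mul, one_mul] at h2
  exact h2

/-- isometries are not small -/
theorem Fb.low (h : Fb σ ε J r D) [Nonempty n] {z : Matrix n n k} {N : ℝ} (hN : 0 ≤ N)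
    (iz : ∀ x y, bf σ J (z *ᵥ x) (z *ᵥ y) = bf σ J x y) (uz : ∀ i j, ‖z i j‖ ≤ N) :
    1 ≤ D ^ 2 * N := by
  have hD := h.pos
  have hD1 := h.one_le
  obtain ⟨i⟩ := (inferInstance : Nonempty n)
  obtain ⟨y, hy1, hy2⟩ := h.dual i
  have e1 : bf σ J (ee i) y = 1 := by
    rw [hy2]
    simp [ee]
  have e2 : (1 : ℝ) ≤ D * N * (D * N * D) := by
    calc (1 : ℝ) = ‖bf σ J (ee i) y‖ := by rw [e1, norm_one]
      _ = ‖bf σ J (z *ᵥ ee i) (z *ᵥ y)‖ := by rw [iz]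
      _ ≤ D * ‖z *ᵥ ee i‖ * ‖z *ᵥ y‖ := h.up _ _
      _ ≤ D * N * (D * N * D) := by
          have h1 : ‖z *ᵥ (ee i : n → k)‖ ≤ N := norm_mulVec_ee hN uz i
          have h2 : ‖z *ᵥ y‖ ≤ D * N * D :=
            (mulVec_le' hN h.card_le uz y).trans
              (mul_le_mul_of_nonneg_left hy1 (by positivity))
          exact mul_le_mul (mul_le_mul_of_nonneg_left h1 hD.le) h2 (norm_nonneg _)
            (by positivity)
  by_contra hc
  push Not at hc
  have h3 : (D ^ 2 * N) * (D ^ 2 * N) < 1 := by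
    have : 0 ≤ D ^ 2 * N := by positivity
    nlinarith
  have h4 : D * N * (D * N * D) ≤ (D ^ 2 * N) * (D ^ 2 * N) := by
    have : D ^ 3 ≤ D ^ 4 := pow_le_pow_right₀ hD1 (by norm_num)
    calc D * N * (D * N * D) = D ^ 3 * N ^ 2 := by ring
      _ ≤ D ^ 4 * N ^ 2 := by gcongr
      _ = _ := by ring
  linarith

/-- the attracting space of `z` is in `A`, up to `1 / T` -/
def AtR (T N : ℝ) (A : Set (Gr k n j)) (z : Matrix n n k) : Prop :=
  ∃ X ∈ A, ∃ M : Matrix n n k, (∀ v, M *ᵥ v ∈ X.1) ∧ ∀ a b, ‖z a b - M a b‖ ≤ N / T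

/-- **contraction of opposite spaces at the full rate** -/
theorem loc_gr [ProperSpace k] (h : Fb σ ε J r D) {KA KB : Set (Gr k n j)} (hA : IsClosed KA)
    (hB : IsClosed KB) (hAB : ∀ X ∈ KA, ∀ Y ∈ KB, Opg σ J X.1 Y.1) (R : ℝ) :
    ∃ T > 0, ∃ C : ℝ, 1 ≤ C ∧ ∀ (z : Matrix n n k) (N : ℝ), 0 < N →
      (∀ x y, bf σ J (z *ᵥ x) (z *ᵥ y) = bf σ J x y) →
      (∃ V : Submodule k (n → k), finrank k V = j ∧ ∀ u ∈ V, N * ‖u‖ ≤ R * ‖z *ᵥ u‖) →
      AtR T N KA z → ∀ Y ∈ KB, ∀ y, z *ᵥ y ∈ Y.1 → N * ‖z *ᵥ y‖ ≤ C * ‖y‖ := by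
  have hD := h.pos
  obtain ⟨δ, hδ, hu⟩ := unif (J := J) h.isom hA hB hAB
  set R' : ℝ := |R| + 1 with hR'
  have hR0 : 0 < R' := by
    have := abs_nonneg R
    linarith
  have hRR : R ≤ R' := by
    have := le_abs_self R
    linarith
  set T : ℝ := 2 * D * R' + 4 * D ^ 2 * R' / δ with hT
  have hq : 0 < 4 * D ^ 2 * R' / δ := by positivity
  have hT1 : 0 < 2 * D * R' := by positivity
  have hT0 : 0 < T := by linarith
  have hTR : 2 * D * R' ≤ T := by linarith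
  have hTc : 2 * D ^ 2 * (2 * R') ≤ δ * T := by
    have e : δ * T = δ * (2 * D * R') + 4 * D ^ 2 * R' := by
      rw [hT]
      field_simp
    rw [e]
    have : 0 ≤ δ * (2 * D * R') := by positivity
    linarith
  have hq' : 0 < 2 * D * (2 * R') / δ := by positivity
  refine ⟨T, hT0, 1 + 2 * D * (2 * R') / δ, by linarith, ?_⟩
  rintro z N hN iz ⟨V, hV, hVz⟩ ⟨X, hX, Mx, hMX, hM⟩ Y hY y hy
  obtain ⟨v, hv, hv1, hvz⟩ := hu X hX Y hY _ hy
  have hspan := span_of h.card_le hN hT0 hR0 hTR hM (hV.trans X.2.symm)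
    (fun u hu => (hVz u hu).trans (mul_le_mul_of_nonneg_right hRR (norm_nonneg _))) hMX hv
  have h4 := contract h iz hN hT0 (by positivity) hδ hM hspan hv1 hvz hTc
  refine h4.trans (mul_le_mul_of_nonneg_right ?_ (norm_nonneg _))
  linarith

/-- **two isometries of comparable size which contract the same maximal singular space** -/
theorem near_gr (h : Fb σ ε J r D) (ha : An σ J r D) [Nonempty n] {C : ℝ} (hC : 1 ≤ C)
    {z z' : Matrix n n k} {N N' : ℝ} (hN : 0 < N) (hN' : 0 < N')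
    (iz : ∀ x y, bf σ J (z *ᵥ x) (z *ᵥ y) = bf σ J x y)
    (iz' : ∀ x y, bf σ J (z' *ᵥ x) (z' *ᵥ y) = bf σ J x y) (uz : ∀ i j, ‖z i j‖ ≤ N)
    (uz' : ∀ i j, ‖z' i j‖ ≤ N') (h1 : N ≤ C * N') (h2 : N' ≤ C * N) {X : Gr k n r}
    (hX : Sing σ J X.1) (k1 : ∀ x ∈ X.1, N * ‖z *ᵥ x‖ ≤ C * ‖x‖)
    (k2 : ∀ x ∈ X.1, N' * ‖z' *ᵥ x‖ ≤ C * ‖x‖) (y : n → k) :
    ‖z' *ᵥ y‖ ≤ 7 * (3 * (C * D ^ 2) ^ 6) ^ 12 * ‖z *ᵥ y‖ := by
  have hD := h.pos
  have hD1 := h.one_le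
  have hC0 : 0 < C := lt_of_lt_of_le one_pos hC
  have hD2 : D ≤ D ^ 2 := by nlinarith
  have hDD : D ≤ C * D ^ 2 := hD2.trans (by nlinarith [sq_nonneg D])
  have hCD : C ≤ C * D ^ 2 := by
    have : 1 ≤ D ^ 2 := one_le_pow₀ hD1
    nlinarith
  obtain ⟨I, v, hv, hvX⟩ := exists_ch X
  have hvm : ∀ a, v.1 a ∈ X.1 := by
    intro a
    rw [← hvX]
    exact Submodule.subset_span ⟨a, rfl⟩
  have hvn : ∀ a, ‖v.1 a‖ ≤ 1 := fun a => (pi_norm_le_iff_of_nonneg zero_le_one).2 (hv.2 a)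
  refine near_frame (D := C * D ^ 2) (h.mono hDD) (ha.mono hDD) (x := v.1) (I := I)
    (fun a b => by rw [hv.1 a b, Matrix.one_apply]) hvn (fun a b => hX _ (hvm a) _ (hvm b))
    hN hN' ?_ ?_ (h1.trans (mul_le_mul_of_nonneg_right hCD hN'.le))
    (h2.trans (mul_le_mul_of_nonneg_right hCD hN.le)) iz uz iz' uz'
    (fun a => ((k1 _ (hvm a)).trans ?_)) (fun a => ((k2 _ (hvm a)).trans ?_)) y
  · refine (h.low hN.le iz uz).trans ?_
    have : D ^ 2 * N ≤ C * (D ^ 2 * N) := by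
      have : 0 ≤ D ^ 2 * N := by positivity
      nlinarith
    linarith
  · refine (h.low hN'.le iz' uz').trans ?_
    have : D ^ 2 * N' ≤ C * (D ^ 2 * N') := by
      have : 0 ≤ D ^ 2 * N' := by positivity
      nlinarith
    linarith
  · have := hvn a
    nlinarith
  · have := hvn a
    nlinarith

/-- entries of a quotient -/
theorem entry_of {C : ℝ} (hC : 0 ≤ C) {z z' zi : Matrix n n k} (hz : z * zi = 1)
    (h : ∀ y, ‖z' *ᵥ y‖ ≤ C * ‖z *ᵥ y‖) (a b : n) : ‖(z' * zi) a b‖ ≤ C := by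
  calc ‖(z' * zi) a b‖ = ‖((z' * zi) *ᵥ ee b) a‖ := by rw [mulVec_ee]
    _ ≤ ‖(z' * zi) *ᵥ ee b‖ := norm_le_pi_norm _ a
    _ = ‖z' *ᵥ (zi *ᵥ ee b)‖ := by rw [Matrix.mulVec_mulVec]
    _ ≤ C * ‖z *ᵥ (zi *ᵥ ee b)‖ := h _
    _ = C * ‖(ee b : n → k)‖ := by rw [Matrix.mulVec_mulVec, hz, Matrix.one_mulVec]
    _ ≤ C * 1 := mul_le_mul_of_nonneg_left (norm_ee b) hC
    _ = C := mul_one C

end raw

section count

/-- pairs: comparable elements near the wall which move a point into an opposite set differ by a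
bounded element -/
def CapP {S Y : Type} [Group S] [MulAction S Y] [TopologicalSpace Y] (nm : S → ℝ)
    (NA : ℝ → ℝ → Set Y → Set S) (O : Y → Y → Prop) : Prop :=
  ∀ A B : Set Y, IsClosed B → (∀ x ∈ closure A, ∀ y ∈ B, O x y) → ∀ R : ℝ, ∃ T > 0, ∃ C : ℝ,
    ∀ g ∈ NA R T A, ∀ g' ∈ NA R T A, nm g ≤ 3 * nm g' → nm g' ≤ 3 * nm g →
      ∀ y : Y, g • y ∈ B → g' • y ∈ B → nm (g' * g⁻¹) ≤ C

/-- **from pairs to the count** -/
theorem capG_of {S Y Γ : Type} [Group S] [MulAction S Y] [TopologicalSpace Y] {nm : S → ℝ}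
    {NA : ℝ → ℝ → Set Y → Set S} {O : Y → Y → Prop} (h : CapP nm NA O) {c₀ : ℝ} (hc : 0 < c₀)
    (hlow : ∀ g, c₀ ≤ nm g) {q : Γ → S}
    (hud : ∀ C : ℝ, ∃ N : ℕ, ∀ T : Finset Γ,
      (∀ γ ∈ T, ∀ γ' ∈ T, nm (q γ' * (q γ)⁻¹) ≤ C) → T.card ≤ N) :
    CapG (fun γ => nm (q γ)) q (fun R T A => {γ | q γ ∈ NA R T A}) O := by
  classical
  intro A B _ hB hAB R
  obtain ⟨T, hT, C₁, hC₁⟩ := h A B hB hAB R
  obtain ⟨M, hM⟩ := hud C₁
  obtain ⟨b, hb⟩ : ∃ b : ℕ, ∀ g, -(b : ℝ) ≤ Real.log (nm g) := by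
    obtain ⟨b, hb⟩ := exists_nat_ge (-Real.log c₀)
    refine ⟨b, fun g => ?_⟩
    have := Real.log_le_log hc (hlow g)
    linarith
  have hpos : ∀ g, 0 < nm g := fun g => lt_of_lt_of_le hc (hlow g)
  refine ⟨T, hT, (b + 1) * M, fun L hL S hS y hy => ?_⟩
  set f : Γ → ℤ := fun γ => ⌊Real.log (nm (q γ))⌋ with hf
  have h1 : S.card ≤ M * (S.image f).card := by
    refine Finset.card_le_mul_card_image S M fun a ha => ?_
    refine hM _ fun γ hγ γ' hγ' => ?_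
    obtain ⟨g1, g2⟩ := Finset.mem_filter.1 hγ
    obtain ⟨g1', g2'⟩ := Finset.mem_filter.1 hγ'
    have e1 := Int.floor_le (Real.log (nm (q γ)))
    have e2 := Int.lt_floor_add_one (Real.log (nm (q γ)))
    have e1' := Int.floor_le (Real.log (nm (q γ')))
    have e2' := Int.lt_floor_add_one (Real.log (nm (q γ')))
    rw [hf] at g2 g2'
    simp only at g2 g2'
    rw [g2] at e1 e2
    rw [g2'] at e1' e2'
    have key : ∀ x y : ℝ, 0 < x → 0 < y → Real.log x ≤ Real.log y + 1 → x ≤ 3 * y := by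
      intro x y hx hy hxy
      have h3 : Real.log x ≤ Real.log (Real.exp 1 * y) := by
        rw [Real.log_mul (Real.exp_ne_zero _) hy.ne', Real.log_exp]
        linarith
      have h4 : x ≤ Real.exp 1 * y := (Real.log_le_log_iff hx (by positivity)).1 h3
      have h5 := Real.exp_one_lt_d9
      nlinarith
    exact hC₁ _ (hS γ g1).1 _ (hS γ' g1').1 (key _ _ (hpos _) (hpos _) (by linarith))
      (key _ _ (hpos _) (hpos _) (by linarith)) y (hy γ g1) (hy γ' g1')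
  have h2 : (S.image f).card ≤ (Finset.Icc (-(b : ℤ)) ⌊L⌋).card := by
    refine Finset.card_le_card fun a ha => ?_
    obtain ⟨γ, hγ, rfl⟩ := Finset.mem_image.1 ha
    refine Finset.mem_Icc.2 ⟨?_, Int.floor_le_floor (hS γ hγ).2⟩
    refine Int.le_floor.2 ?_
    have := hb (q γ)
    push_cast
    linarith
  have hJ0 : 0 ≤ ⌊L⌋ := Int.floor_nonneg.2 hL
  have h3 : ((Finset.Icc (-(b : ℤ)) ⌊L⌋).card : ℝ) ≤ (b + 1) * (1 + L) := by
    rw [Int.card_Icc]
    have e : ((⌊L⌋ + 1 - -(b : ℤ)).toNat : ℤ) = ⌊L⌋ + 1 + b := by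
      rw [Int.toNat_of_nonneg (by omega)]
      ring
    have e' : ((⌊L⌋ + 1 - -(b : ℤ)).toNat : ℝ) = ((⌊L⌋ + 1 + b : ℤ) : ℝ) := by
      rw [← e]
      norm_cast
    rw [e']
    push_cast
    have := Int.floor_le L
    have hb0 : (0 : ℝ) ≤ b := Nat.cast_nonneg b
    nlinarith
  have h4 : (S.card : ℝ) ≤ M * ((Finset.Icc (-(b : ℤ)) ⌊L⌋).card : ℝ) := by
    exact_mod_cast h1.trans (Nat.mul_le_mul_left M h2)
  have hM0 : (0 : ℝ) ≤ M := Nat.cast_nonneg M
  calc (S.card : ℝ) ≤ M * ((b + 1) * (1 + L)) := h4.trans (mul_le_mul_of_nonneg_left h3 hM0)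
    _ = _ := by ring

end count

end Vale.Agent.P092.H315P.G
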