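import Vale.Agent.P092.H315P.OppC
import Vale.Agent.P092.H306.Pu3

/-!
P092, Team P (helper315): the capacities of the target in the form of `H306.Pu.CapStmt`.
-/

set_option linter.all false

open Matrix Module Set Topology TopologicalSpace
open scoped LinearAlgebra.Projectivization

namespace Vale.Agent.P092.H315P.Opp

open Vale.Agent.P092.SP4 (S4)
open Vale.Agent.P092.SP (NA1 NA2 UD opp1 opp2)
open Vale.Agent.P092.H306.Pu (CapStmt)

variable {k : Type} [NontriviallyNormedField k] [ProperSpace k]

/-- the capacity of points -/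
theorem capStmt1 {Γ : Type} {q : Γ → S4 k} (hud : UD q) : CapStmt q (NA1 q) opp1 := by
  intro A B _ hB hAB R
  obtain ⟨T, hT, C, hC⟩ := cap1 hud hB (fun x hx y hy => not_prp (hAB x hx y hy)) R
  refine ⟨T, hT, C, fun J hJ S hS y hy => ?_⟩
  have := hC J hJ S hS y hy
  rwa [pow_one] at this

/-- the capacity of lines -/
theorem capStmt2 {Γ : Type} {q : Γ → S4 k} (hud : UD q) : CapStmt q (NA2 q) opp2 := by
  intro A B _ hB hAB R
  obtain ⟨T, hT, C, hC⟩ := cap2 hud hB hAB R
  refine ⟨T, hT, C, fun J hJ S hS y hy => ?_⟩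
  have := hC J hJ S hS y hy
  rwa [pow_one] at this

end Vale.Agent.P092.H315P.Opp
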