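import Vale.Agent.P092.H789.S2.Cap

/-!
P092, tracks 2 and 3 (helper315), capacities for all forms, part 1 (raw matrices, columns).
Two isometries of comparable size which contract the same maximal singular subspace at the full
rate differ by a bounded element. No near-wall hypothesis: the middle block is anisotropic.
-/

set_option linter.all false

open Matrix

namespace Vale.Agent.P092.H315P.G

open Vale.Agent.P092.H789.S2

variable {k : Type*} [NormedField k] {ι : Type*} [Fintype ι] [DecidableEq ι]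

/-- one constant for everything -/
structure Fb (σ : k →+* k) (ε : k) (K : Matrix ι ι k) (r : ℕ) (D : ℝ) : Prop where
  one_le : 1 ≤ D
  card_le : (Fintype.card ι : ℝ) ≤ D
  r_le : (r : ℝ) ≤ D
  isom : ∀ x, ‖σ x‖ = ‖x‖
  eps : ‖ε‖ = 1
  herm : ∀ x y, bf σ K y x = ε * σ (bf σ K x y)
  up : ∀ x y, ‖bf σ K x y‖ ≤ D * ‖x‖ * ‖y‖
  dual : ∀ i, ∃ y : ι → k, ‖y‖ ≤ D ∧ ∀ z, bf σ K z y = z i

theorem mulVec_le' {g : Matrix ι ι k} {M D : ℝ} (hM : 0 ≤ M) (hD : (Fintype.card ι : ℝ) ≤ D)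
    (up : ∀ i j, ‖g i j‖ ≤ M) (v : ι → k) : ‖g *ᵥ v‖ ≤ D * M * ‖v‖ := by
  have hD0 : 0 ≤ D := (Nat.cast_nonneg _).trans hD
  refine (pi_norm_le_iff_of_nonneg (by positivity)).2 fun i => ?_
  calc ‖(g *ᵥ v) i‖ = ‖∑ j, g i j * v j‖ := rfl
    _ ≤ ∑ _j : ι, M * ‖v‖ := by
        refine norm_sum_le_of_le _ fun j _ => ?_
        rw [norm_mul]
        exact mul_le_mul (up _ _) (norm_le_pi_norm v j) (norm_nonneg _) hM
    _ = Fintype.card ι * (M * ‖v‖) := by simp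
    _ ≤ D * (M * ‖v‖) := mul_le_mul_of_nonneg_right hD (by positivity)
    _ = _ := by ring

theorem norm_sum_fin {r : ℕ} {D c : ℝ} (hr : (r : ℝ) ≤ D) (hc : 0 ≤ c)
    {f : Fin r → ι → k} (h : ∀ a, ‖f a‖ ≤ c) : ‖∑ a, f a‖ ≤ D * c := by
  calc ‖∑ a, f a‖ ≤ ∑ _a : Fin r, c := norm_sum_le_of_le _ fun a _ => h a
    _ = r * c := by simp
    _ ≤ D * c := mul_le_mul_of_nonneg_right hr hc

section

variable {σ : k →+* k} {ε : k} {K : Matrix ι ι k} {r : ℕ} {D : ℝ}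

theorem bf_sum_left {α : Type*} (s : Finset α) (f : α → ι → k) (y : ι → k) :
    bf σ K (∑ a ∈ s, f a) y = ∑ a ∈ s, bf σ K (f a) y := by
  classical
  induction s using Finset.induction_on with
  | empty => simp [bf]
  | insert a s ha ih => rw [Finset.sum_insert ha, Finset.sum_insert ha, bf_add_left, ih]

theorem Fb.symm_norm (h : Fb σ ε K r D) (x y : ι → k) : ‖bf σ K y x‖ = ‖bf σ K x y‖ := by
  rw [h.herm, norm_mul, h.eps, one_mul, h.isom]

theorem Fb.symm_zero (h : Fb σ ε K r D) {x y : ι → k} (h0 : bf σ K x y = 0) :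
    bf σ K y x = 0 := by
  rw [h.herm, h0, map_zero, mul_zero]

theorem Fb.pos (h : Fb σ ε K r D) : 0 < D := lt_of_lt_of_le one_pos h.one_le

theorem Fb.eps_ne (h : Fb σ ε K r D) : ε ≠ 0 := by
  intro h0
  have := h.eps
  rw [h0, norm_zero] at this
  exact zero_ne_one this

/-- the part of `z` orthogonal to the frame -/
theorem split_perp (h : Fb σ ε K r D) {x : Fin r → ι → k} {I : Fin r → ι}
    (hx : ∀ a b, x a (I b) = if a = b then 1 else 0) {x' : Fin r → ι → k}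
    (hx' : ∀ b z, bf σ K z (x' b) = z (I b)) (z : ι → k) :
    ∀ a, bf σ K (z - ∑ b, (ε⁻¹ * bf σ K z (x b)) • x' b) (x a) = 0 := by
  intro a
  rw [bf_sub_left, bf_sum_left]
  have e : ∀ b, bf σ K ((ε⁻¹ * bf σ K z (x b)) • x' b) (x a) =
      if b = a then bf σ K z (x b) else 0 := by
    intro b
    rw [bf_smul_left, h.herm (x a) (x' b), hx' b (x a), hx a b]
    by_cases hab : a = b
    · subst hab
      rw [if_pos rfl, if_pos rfl, map_one, mul_one, mul_comm ε⁻¹, mul_assoc,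
        inv_mul_cancel₀ h.eps_ne, mul_one]
    · rw [if_neg hab, if_neg (Ne.symm hab), map_zero, mul_zero, mul_zero]
  simp_rw [e]
  simp

/-- **three blocks** -/
theorem near_of_perp (h : Fb σ ε K r D) {x : Fin r → ι → k} {I : Fin r → ι}
    (hx : ∀ a b, x a (I b) = if a = b then 1 else 0) (hx1 : ∀ a, ‖x a‖ ≤ 1)
    (hs : ∀ a b, bf σ K (x a) (x b) = 0) {M N : ℝ} (hM : 0 < M) (hN : 0 < N)
    (hMN : M ≤ D * N) (hNM : N ≤ D * M) {g g' : Matrix ι ι k}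
    (ig : ∀ x y, bf σ K (g *ᵥ x) (g *ᵥ y) = bf σ K x y) (ug : ∀ i j, ‖g i j‖ ≤ M)
    (ug' : ∀ i j, ‖g' i j‖ ≤ N) (cg : ∀ a, M * ‖g *ᵥ x a‖ ≤ D) (cg' : ∀ a, N * ‖g' *ᵥ x a‖ ≤ D)
    (pg : ∀ z, (∀ a, bf σ K z (x a) = 0) → ‖g *ᵥ z‖ ≤ D * ‖z‖)
    (pg' : ∀ z, (∀ a, bf σ K z (x a) = 0) → ‖g' *ᵥ z‖ ≤ D * ‖z‖) (z : ι → k) :
    ‖g' *ᵥ z‖ ≤ 7 * D ^ 12 * ‖g *ᵥ z‖ := by
  have hD := h.pos
  have hD1 := h.one_le
  choose y hy1 hy2 using h.dual
  set x' : Fin r → ι → k := fun b => y (I b) with hx'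
  have hx'2 : ∀ b z, bf σ K z (x' b) = z (I b) := fun b z => hy2 _ _
  have hx'1 : ∀ b, ‖x' b‖ ≤ D := fun b => hy1 _
  set n := ‖g *ᵥ z‖ with hn
  have hn0 : 0 ≤ n := norm_nonneg _
  -- coefficients
  set c : Fin r → k := fun b => ε⁻¹ * bf σ K z (x b) with hc
  have hc1 : ∀ b, M * ‖c b‖ ≤ D ^ 2 * n := by
    intro b
    have e : ‖c b‖ = ‖bf σ K z (x b)‖ := by
      simp only [hc]
      rw [norm_mul, norm_inv, h.eps, inv_one, one_mul]
    rw [e, ← ig]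
    calc M * ‖bf σ K (g *ᵥ z) (g *ᵥ x b)‖ ≤ M * (D * n * ‖g *ᵥ x b‖) :=
          mul_le_mul_of_nonneg_left (h.up _ _) hM.le
      _ = D * n * (M * ‖g *ᵥ x b‖) := by ring
      _ ≤ D * n * D := mul_le_mul_of_nonneg_left (cg b) (by positivity)
      _ = _ := by ring
  set z' : ι → k := z - ∑ b, c b • x' b with hz'
  have hz'p : ∀ a, bf σ K z' (x a) = 0 := split_perp h hx hx'2 z
  have hgx' : ∀ b, ‖g *ᵥ x' b‖ ≤ D ^ 2 * M := by
    intro b
    refine (mulVec_le' hM.le h.card_le ug _).trans ?_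
    calc D * M * ‖x' b‖ ≤ D * M * D := mul_le_mul_of_nonneg_left (hx'1 b) (by positivity)
      _ = _ := by ring
  have hg'x' : ∀ b, ‖g' *ᵥ x' b‖ ≤ D ^ 2 * N := by
    intro b
    refine (mulVec_le' hN.le h.card_le ug' _).trans ?_
    calc D * N * ‖x' b‖ ≤ D * N * D := mul_le_mul_of_nonneg_left (hx'1 b) (by positivity)
      _ = _ := by ring
  have hsum : ∀ (f : Matrix ι ι k) {L : ℝ}, 0 ≤ L → (∀ b, ‖f *ᵥ x' b‖ ≤ D ^ 2 * (L * M)) →
      ‖f *ᵥ (∑ b, c b • x' b)‖ ≤ D ^ 5 * L * n := by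
    intro f L hL hf
    have e : f *ᵥ (∑ b, c b • x' b) = ∑ b, c b • (f *ᵥ x' b) := by
      rw [Matrix.mulVec_sum]
      exact Finset.sum_congr rfl fun b _ => Matrix.mulVec_smul _ _ _
    rw [e]
    refine (norm_sum_fin (c := D ^ 4 * L * n) h.r_le (by positivity) fun b => ?_).trans
      (le_of_eq (by ring))
    rw [norm_smul]
    calc ‖c b‖ * ‖f *ᵥ x' b‖ ≤ ‖c b‖ * (D ^ 2 * (L * M)) :=
          mul_le_mul_of_nonneg_left (hf b) (norm_nonneg _)
      _ = D ^ 2 * L * (M * ‖c b‖) := by ring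
      _ ≤ D ^ 2 * L * (D ^ 2 * n) := mul_le_mul_of_nonneg_left (hc1 b) (by positivity)
      _ = _ := by ring
  have h1 : ‖g' *ᵥ (∑ b, c b • x' b)‖ ≤ D ^ 5 * D * n :=
    hsum g' hD.le fun b => (hg'x' b).trans (mul_le_mul_of_nonneg_left hNM (by positivity))
  have h2 : ‖g *ᵥ (∑ b, c b • x' b)‖ ≤ D ^ 5 * 1 * n :=
    hsum g zero_le_one fun b => (hgx' b).trans (by rw [one_mul])
  have hp5 : 1 ≤ D ^ 5 := one_le_pow₀ hD1
  have h3 : ‖g *ᵥ z'‖ ≤ 2 * D ^ 5 * n := by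
    have e : g *ᵥ z' = g *ᵥ z - g *ᵥ (∑ b, c b • x' b) := by rw [hz', Matrix.mulVec_sub]
    rw [e]
    calc _ ≤ n + D ^ 5 * 1 * n := (norm_sub_le _ _).trans (add_le_add le_rfl h2)
      _ ≤ _ := by nlinarith
  set n' := ‖g *ᵥ z'‖ with hn'
  have hn'0 : 0 ≤ n' := norm_nonneg _
  have h4 : ∀ i, ‖z' i‖ ≤ D ^ 3 * M * n' := by
    intro i
    rw [← hy2 i z', ← ig]
    refine (h.up _ _).trans ?_
    have h40 : ‖g *ᵥ y i‖ ≤ D ^ 2 * M := by
      refine (mulVec_le' hM.le h.card_le ug _).trans ?_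
      calc D * M * ‖y i‖ ≤ D * M * D := mul_le_mul_of_nonneg_left (hy1 i) (by positivity)
        _ = _ := by ring
    calc D * n' * ‖g *ᵥ y i‖ ≤ D * n' * (D ^ 2 * M) :=
          mul_le_mul_of_nonneg_left h40 (by positivity)
      _ = _ := by ring
  -- the part in the singular space
  set μ : ι → k := z' - ∑ a, z' (I a) • x a with hμ
  have hμI : ∀ b, μ (I b) = 0 := by
    intro b
    rw [hμ]
    simp only [Pi.sub_apply, Finset.sum_apply, Pi.smul_apply, smul_eq_mul, hx]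
    simp
  have hxp : ∀ a' : Fin r, bf σ K (∑ a, z' (I a) • x a) (x a') = 0 := by
    intro a'
    rw [bf_sum_left]
    refine Finset.sum_eq_zero fun a _ => ?_
    rw [bf_smul_left, hs, mul_zero]
  have hμp : ∀ a, bf σ K μ (x a) = 0 := by
    intro a
    rw [hμ, bf_sub_left, hz'p, hxp, sub_zero]
  have h5 : ∀ i, ‖μ i‖ ≤ 2 * D ^ 6 * n' := by
    intro i
    set d : Fin r → k := fun b => ε⁻¹ * bf σ K (y i) (x b) with hd
    set y' : ι → k := y i - ∑ b, d b • x' b with hy'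
    have hy'p : ∀ a, bf σ K y' (x a) = 0 := split_perp h hx hx'2 (y i)
    have hd1 : ∀ b, ‖d b‖ ≤ D ^ 2 := by
      intro b
      have e : ‖d b‖ = ‖bf σ K (y i) (x b)‖ := by
        simp only [hd]
        rw [norm_mul, norm_inv, h.eps, inv_one, one_mul]
      rw [e]
      calc _ ≤ D * ‖y i‖ * ‖x b‖ := h.up _ _
        _ ≤ D * D * 1 := mul_le_mul (mul_le_mul_of_nonneg_left (hy1 i) hD.le) (hx1 b)
            (norm_nonneg _) (by positivity)
        _ = _ := by ring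
    have hy'n : ‖y'‖ ≤ 2 * D ^ 4 := by
      have e1 : ‖∑ b, d b • x' b‖ ≤ D * D ^ 3 := by
        refine norm_sum_fin h.r_le (by positivity) fun b => ?_
        rw [norm_smul]
        calc ‖d b‖ * ‖x' b‖ ≤ D ^ 2 * D :=
              mul_le_mul (hd1 b) (hx'1 b) (norm_nonneg _) (by positivity)
          _ = _ := by ring
      have e2 : D ^ 1 ≤ D ^ 4 := pow_le_pow_right₀ hD1 (by norm_num)
      rw [pow_one] at e2
      calc ‖y'‖ ≤ ‖y i‖ + ‖∑ b, d b • x' b‖ := norm_sub_le _ _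
        _ ≤ D + D * D ^ 3 := add_le_add (hy1 i) e1
        _ ≤ _ := by nlinarith
    have e3 : μ i = bf σ K (g *ᵥ z') (g *ᵥ y') := by
      have s1 : μ i = bf σ K μ (y i) := (hy2 i μ).symm
      have s2 : bf σ K μ (y i) = bf σ K μ y' := by
        have e4 : y i = y' + ∑ b, d b • x' b := by rw [hy']; abel
        have e5 : bf σ K μ (∑ b, d b • x' b) = 0 := by
          refine h.symm_zero ?_
          rw [bf_sum_left]
          refine Finset.sum_eq_zero fun b _ => ?_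
          rw [bf_smul_left, h.symm_zero (x := μ) (by rw [hx'2]; exact hμI b), mul_zero]
        conv_lhs => rw [e4]
        rw [bf_add_right, e5, add_zero]
      have s3 : bf σ K μ y' = bf σ K z' y' := by
        rw [hμ, bf_sub_left]
        have : bf σ K (∑ a, z' (I a) • x a) y' = 0 := by
          rw [bf_sum_left]
          refine Finset.sum_eq_zero fun a _ => ?_
          rw [bf_smul_left, h.symm_zero (hy'p a), mul_zero]
        rw [this, sub_zero]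
      rw [s1, s2, s3, ig]
    rw [e3]
    calc _ ≤ D * n' * ‖g *ᵥ y'‖ := h.up _ _
      _ ≤ D * n' * (D * (2 * D ^ 4)) := mul_le_mul_of_nonneg_left
          ((pg y' hy'p).trans (mul_le_mul_of_nonneg_left hy'n hD.le)) (by positivity)
      _ = _ := by ring
  have h6 : ‖μ‖ ≤ 2 * D ^ 6 * n' := (pi_norm_le_iff_of_nonneg (by positivity)).2 h5
  have h7 : ‖g' *ᵥ μ‖ ≤ 2 * D ^ 7 * n' :=
    (pg' μ hμp).trans ((mul_le_mul_of_nonneg_left h6 hD.le).trans (le_of_eq (by ring)))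
  have h8 : ‖g' *ᵥ (∑ a, z' (I a) • x a)‖ ≤ D ^ 6 * n' := by
    have e : g' *ᵥ (∑ a, z' (I a) • x a) = ∑ a, z' (I a) • (g' *ᵥ x a) := by
      rw [Matrix.mulVec_sum]
      exact Finset.sum_congr rfl fun b _ => Matrix.mulVec_smul _ _ _
    rw [e]
    refine (norm_sum_fin (c := D ^ 5 * n') h.r_le (by positivity) fun b => ?_).trans
      (le_of_eq (by ring))
    rw [norm_smul]
    have e1 : M * ‖g' *ᵥ x b‖ ≤ D ^ 2 := by
      calc M * ‖g' *ᵥ x b‖ ≤ D * N * ‖g' *ᵥ x b‖ :=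
            mul_le_mul_of_nonneg_right hMN (norm_nonneg _)
        _ = D * (N * ‖g' *ᵥ x b‖) := by ring
        _ ≤ D * D := mul_le_mul_of_nonneg_left (cg' b) hD.le
        _ = _ := by ring
    calc ‖z' (I b)‖ * ‖g' *ᵥ x b‖ ≤ (D ^ 3 * M * n') * ‖g' *ᵥ x b‖ :=
          mul_le_mul_of_nonneg_right (h4 _) (norm_nonneg _)
      _ = D ^ 3 * n' * (M * ‖g' *ᵥ x b‖) := by ring
      _ ≤ D ^ 3 * n' * D ^ 2 := mul_le_mul_of_nonneg_left e1 (by positivity)
      _ = _ := by ring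
  have e : g' *ᵥ z = g' *ᵥ (∑ b, c b • x' b) + g' *ᵥ (∑ a, z' (I a) • x a) + g' *ᵥ μ := by
    rw [← Matrix.mulVec_add, ← Matrix.mulVec_add]
    congr 1
    rw [hμ, hz']
    abel
  have q1 : D ^ 6 ≤ D ^ 12 := pow_le_pow_right₀ hD1 (by norm_num)
  have q2 : D ^ 6 ≤ D ^ 7 := pow_le_pow_right₀ hD1 (by norm_num)
  rw [e]
  calc _ ≤ D ^ 5 * D * n + D ^ 6 * n' + 2 * D ^ 7 * n' :=
        (norm_add_le _ _).trans (add_le_add ((norm_add_le _ _).trans (add_le_add h1 h8)) h7)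
    _ ≤ D ^ 6 * n + 3 * D ^ 7 * n' := by nlinarith
    _ ≤ D ^ 6 * n + 3 * D ^ 7 * (2 * D ^ 5 * n) := by
        have : 3 * D ^ 7 * n' ≤ 3 * D ^ 7 * (2 * D ^ 5 * n) :=
          mul_le_mul_of_nonneg_left h3 (by positivity)
        linarith
    _ = D ^ 6 * n + 6 * D ^ 12 * n := by ring
    _ ≤ _ := by nlinarith

end

end Vale.Agent.P092.H315P.G
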