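import Vale.Agent.P092.H315P.G1
import Vale.Agent.P092.H43.G.Opp

/-!
P092, tracks 2 and 3 (helper315), capacities for all forms, part 2.

* `An`: the middle block is anisotropic, with a constant (by compactness, from the Witt index);
* `aniso`: an isometry which contracts a maximal singular subspace at the full rate is bounded on
  its orthogonal;
* `exists_fb`: one constant for a form.
-/

set_option linter.all false

open Matrix Module Set Topology

namespace Vale.Agent.P092.H315P.G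

open Vale.Agent.P092.H789.S2
open Vale.Agent.P092.H100.Gr (Gr Fr sp ch ch_mn ch_compact exists_ch li_of_mn eq_of_le)
open Vale.Agent.P092.H714.Cl (hf Frm)
open Vale.Agent.P092.H370.Po (Sing Ort SGr)

section

variable {k : Type*} [NontriviallyNormedField k] {ι : Type*} [Fintype ι] [DecidableEq ι]
  {σ : k →+* k} {ε : k} {K : Matrix ι ι k} {r : ℕ} {D : ℝ}

/-- the anisotropic part, with a constant -/
def An (σ : k →+* k) (K : Matrix ι ι k) (r : ℕ) (D : ℝ) : Prop :=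
  ∀ (I : Fin r → ι) (v : Fin r → ι → k), v ∈ ch (k := k) I →
    (∀ a b, bf σ K (v a) (v b) = 0) → ∀ μ : ι → k, (∀ a, bf σ K μ (v a) = 0) →
      (∀ a, μ (I a) = 0) → ‖μ‖ ^ 2 ≤ D * ‖bf σ K μ μ‖

theorem bf_sum_right {α : Type*} (s : Finset α) (x : ι → k) (f : α → ι → k) :
    bf σ K x (∑ a ∈ s, f a) = ∑ a ∈ s, bf σ K x (f a) := by
  classical
  induction s using Finset.induction_on with
  | empty =>
    rw [Finset.sum_empty, Finset.sum_empty]
    have := bf_smul_right (σ := σ) (K := K) (0 : k) x 0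
    rwa [zero_smul, map_zero, zero_mul] at this
  | insert a s ha ih => rw [Finset.sum_insert ha, Finset.sum_insert ha, bf_add_right, ih]

theorem Fb.inj (h : Fb σ ε K r D) {g : Matrix ι ι k}
    (ig : ∀ x y, bf σ K (g *ᵥ x) (g *ᵥ y) = bf σ K x y) {z : ι → k} (hz : g *ᵥ z = 0) :
    z = 0 := by
  funext i
  obtain ⟨y, -, hy⟩ := h.dual i
  rw [← hy z, ← ig, hz]
  simp [bf]

theorem aniso (h : Fb σ ε K r D) (ha : An σ K r D) {x : Fin r → ι → k} {I : Fin r → ι}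
    (hx : ∀ a b, x a (I b) = if a = b then 1 else 0)
    (hs : ∀ a b, bf σ K (x a) (x b) = 0) {N : ℝ} (hN : 0 < N) (hDN : 1 ≤ D * N)
    {g : Matrix ι ι k} (ig : ∀ x y, bf σ K (g *ᵥ x) (g *ᵥ y) = bf σ K x y)
    (ug : ∀ i j, ‖g i j‖ ≤ N) (cg : ∀ a, N * ‖g *ᵥ x a‖ ≤ D) {z : ι → k}
    (hz : ∀ a, bf σ K z (x a) = 0) : ‖g *ᵥ z‖ ≤ 3 * D ^ 6 * ‖z‖ := by
  have hD := h.pos
  have hD1 := h.one_le
  choose y hy1 hy2 using h.dual
  set x' : Fin r → ι → k := fun b => y (I b) with hx'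
  have hx'2 : ∀ b z, bf σ K z (x' b) = z (I b) := fun b z => hy2 _ _
  have hx'1 : ∀ b, ‖x' b‖ ≤ D := fun b => hy1 _
  -- the image of the frame
  have li : LinearIndependent k fun a => g *ᵥ x a := by
    rw [Fintype.linearIndependent_iff]
    intro c hc b
    have e : g *ᵥ (∑ a, c a • x a) = 0 := by
      rw [Matrix.mulVec_sum, ← hc]
      exact Finset.sum_congr rfl fun a _ => Matrix.mulVec_smul _ _ _
    have e1 := congrFun (h.inj ig e) (I b)
    simp only [Finset.sum_apply, Pi.smul_apply, smul_eq_mul, hx, Pi.zero_apply] at e1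
    simpa using e1
  set X' : Gr k ι r := ⟨Submodule.span k (range fun a => g *ᵥ x a),
    (finrank_span_eq_card li).trans (Fintype.card_fin r)⟩ with hX'
  obtain ⟨I', v, hv, hvX⟩ := exists_ch X'
  have hvm : ∀ a, v.1 a ∈ Submodule.span k (range fun a => g *ᵥ x a) := by
    intro a
    have : v.1 a ∈ (sp v).1 := Submodule.subset_span ⟨a, rfl⟩
    rw [hvX] at this
    exact this
  have hperp : ∀ t : ι → k, (∀ a, bf σ K t (g *ᵥ x a) = 0) → ∀ y ∈ Submodule.span k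
      (range fun a => g *ᵥ x a), bf σ K t y = 0 := by
    intro t ht y hy
    obtain ⟨c, rfl⟩ := (Submodule.mem_span_range_iff_exists_fun k).1 hy
    rw [bf_sum_right]
    refine Finset.sum_eq_zero fun a _ => ?_
    rw [bf_smul_right, ht, mul_zero]
  have hgs : ∀ y ∈ Submodule.span k (range fun a => g *ᵥ x a), ∀ a,
      bf σ K y (g *ᵥ x a) = 0 := by
    intro y hy a
    obtain ⟨c, rfl⟩ := (Submodule.mem_span_range_iff_exists_fun k).1 hy
    rw [bf_sum_left]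
    refine Finset.sum_eq_zero fun b _ => ?_
    rw [bf_smul_left, ig, hs, mul_zero]
  have hvs : ∀ a b, bf σ K (v.1 a) (v.1 b) = 0 := fun a b =>
    hperp _ (hgs _ (hvm a)) _ (hvm b)
  set w := g *ᵥ z with hw
  have hwp : ∀ y ∈ Submodule.span k (range fun a => g *ᵥ x a), bf σ K w y = 0 :=
    hperp w fun a => by rw [hw, ig, hz]
  set s : ι → k := ∑ a, w (I' a) • v.1 a with hsdef
  have hsm : s ∈ Submodule.span k (range fun a => g *ᵥ x a) :=
    Submodule.sum_mem _ fun a _ => Submodule.smul_mem _ _ (hvm a)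
  set μ : ι → k := w - s with hμ
  have hμI : ∀ b, μ (I' b) = 0 := by
    intro b
    have e : ∀ a, v.1 a (I' b) = if a = b then 1 else 0 := fun a => by
      rw [hv.1 a b, Matrix.one_apply]
    rw [hμ, hsdef]
    simp only [Pi.sub_apply, Finset.sum_apply, Pi.smul_apply, smul_eq_mul, e]
    simp
  have hμv : ∀ a, bf σ K μ (v.1 a) = 0 := by
    intro a
    rw [hμ, bf_sub_left, hwp _ (hvm a), hperp s (hgs s hsm) _ (hvm a), sub_zero]
  have hμμ : bf σ K μ μ = bf σ K z z := by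
    have e1 : bf σ K μ s = 0 := by
      rw [hsdef, bf_sum_right]
      refine Finset.sum_eq_zero fun a _ => ?_
      rw [bf_smul_right, hμv, mul_zero]
    have e2 : bf σ K s w = 0 := h.symm_zero (hwp s hsm)
    calc bf σ K μ μ = bf σ K μ w - bf σ K μ s := by rw [← bf_sub_right]
      _ = bf σ K w w - bf σ K s w := by rw [e1, sub_zero, ← bf_sub_left]
      _ = bf σ K z z := by rw [e2, sub_zero, hw, ig]
  have hμn : ‖μ‖ ≤ D * ‖z‖ := by
    have e1 := ha I' v.1 hv hvs μ hμv hμI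
    rw [hμμ] at e1
    have e2 : ‖μ‖ ^ 2 ≤ (D * ‖z‖) ^ 2 := by
      refine e1.trans ((mul_le_mul_of_nonneg_left (h.up z z) hD.le).trans (le_of_eq (by ring)))
    exact le_of_sq_le_sq e2 (by positivity)
  -- the coefficients of `s`
  obtain ⟨ξ, hξ⟩ := (Submodule.mem_span_range_iff_exists_fun k).1 hsm
  have hξ1 : ∀ a, ξ a = bf σ K s (g *ᵥ x' a) := by
    intro a
    rw [← hξ, bf_sum_left]
    have e : ∀ b, bf σ K (ξ b • g *ᵥ x b) (g *ᵥ x' a) = if b = a then ξ b else 0 := by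
      intro b
      rw [bf_smul_left, ig, hx'2, hx]
      by_cases hba : b = a
      · rw [if_pos hba, if_pos hba, mul_one]
      · rw [if_neg hba, if_neg hba, mul_zero]
    simp_rw [e]
    simp
  have hgx' : ∀ b, ‖g *ᵥ x' b‖ ≤ D ^ 2 * N := by
    intro b
    refine (mulVec_le' hN.le h.card_le ug _).trans ?_
    calc D * N * ‖x' b‖ ≤ D * N * D := mul_le_mul_of_nonneg_left (hx'1 b) (by positivity)
      _ = _ := by ring
  have hξ2 : ∀ a, ‖ξ a‖ ≤ 2 * D ^ 4 * N * ‖z‖ := by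
    intro a
    have e : ξ a = bf σ K z (x' a) - bf σ K μ (g *ᵥ x' a) := by
      rw [hξ1, ← ig z, ← bf_sub_left, ← hw, hμ, sub_sub_cancel]
    rw [e]
    have e1 : ‖bf σ K z (x' a)‖ ≤ D * ‖z‖ * D :=
      (h.up _ _).trans (mul_le_mul_of_nonneg_left (hx'1 a) (by positivity))
    have e2 : ‖bf σ K μ (g *ᵥ x' a)‖ ≤ D * (D * ‖z‖) * (D ^ 2 * N) :=
      (h.up _ _).trans (mul_le_mul (mul_le_mul_of_nonneg_left hμn hD.le) (hgx' a)
        (norm_nonneg _) (by positivity))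
    have e3 : D * ‖z‖ * D ≤ D ^ 4 * N * ‖z‖ := by
      calc D * ‖z‖ * D = D ^ 2 * ‖z‖ * 1 := by ring
        _ ≤ D ^ 2 * ‖z‖ * (D * N) := mul_le_mul_of_nonneg_left hDN (by positivity)
        _ = D ^ 3 * N * ‖z‖ := by ring
        _ ≤ D ^ 4 * N * ‖z‖ := by
            have : D ^ 3 ≤ D ^ 4 := pow_le_pow_right₀ hD1 (by norm_num)
            gcongr
    calc _ ≤ ‖bf σ K z (x' a)‖ + ‖bf σ K μ (g *ᵥ x' a)‖ := norm_sub_le _ _
      _ ≤ D ^ 4 * N * ‖z‖ + D * (D * ‖z‖) * (D ^ 2 * N) := add_le_add (e1.trans e3) e2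
      _ = _ := by ring
  have hsn : ‖s‖ ≤ D * (2 * D ^ 5 * ‖z‖) := by
    rw [← hξ]
    refine norm_sum_fin h.r_le (by positivity) fun a => ?_
    rw [norm_smul]
    calc ‖ξ a‖ * ‖g *ᵥ x a‖ ≤ (2 * D ^ 4 * N * ‖z‖) * ‖g *ᵥ x a‖ :=
          mul_le_mul_of_nonneg_right (hξ2 a) (norm_nonneg _)
      _ = 2 * D ^ 4 * ‖z‖ * (N * ‖g *ᵥ x a‖) := by ring
      _ ≤ 2 * D ^ 4 * ‖z‖ * D := mul_le_mul_of_nonneg_left (cg a) (by positivity)
      _ = _ := by ring
  have e : w = s + μ := by rw [hμ]; abel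
  have q : D ≤ D ^ 6 := by
    calc D = D ^ 1 := (pow_one D).symm
      _ ≤ D ^ 6 := pow_le_pow_right₀ hD1 (by norm_num)
  calc ‖w‖ ≤ ‖s‖ + ‖μ‖ := by rw [e]; exact norm_add_le _ _
    _ ≤ D * (2 * D ^ 5 * ‖z‖) + D * ‖z‖ := add_le_add hsn hμn
    _ ≤ D * (2 * D ^ 5 * ‖z‖) + D ^ 6 * ‖z‖ :=
        add_le_add le_rfl (mul_le_mul_of_nonneg_right q (norm_nonneg _))
    _ = _ := by ring

/-- the constants may be enlarged -/
theorem Fb.mono (h : Fb σ ε K r D) {D' : ℝ} (hD : D ≤ D') : Fb σ ε K r D' where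
  one_le := h.one_le.trans hD
  card_le := h.card_le.trans hD
  r_le := h.r_le.trans hD
  isom := h.isom
  eps := h.eps
  herm := h.herm
  up := fun x y => (h.up x y).trans (by gcongr)
  dual := fun i => by
    obtain ⟨y, h1, h2⟩ := h.dual i
    exact ⟨y, h1.trans hD, h2⟩

theorem An.mono (h : An σ K r D) {D' : ℝ} (hD : D ≤ D') : An σ K r D' :=
  fun I v hv hs μ h1 h2 => (h I v hv hs μ h1 h2).trans (by gcongr)

/-- **capacity of maximal singular subspaces**: two isometries of comparable size which contract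
the same maximal singular subspace at the full rate differ by a bounded element -/
theorem near_frame (h : Fb σ ε K r D) (ha : An σ K r D) {x : Fin r → ι → k} {I : Fin r → ι}
    (hx : ∀ a b, x a (I b) = if a = b then 1 else 0) (hx1 : ∀ a, ‖x a‖ ≤ 1)
    (hs : ∀ a b, bf σ K (x a) (x b) = 0) {M N : ℝ} (hM : 0 < M) (hN : 0 < N)
    (hDM : 1 ≤ D * M) (hDN : 1 ≤ D * N)
    (hMN : M ≤ D * N) (hNM : N ≤ D * M) {g g' : Matrix ι ι k}
    (ig : ∀ x y, bf σ K (g *ᵥ x) (g *ᵥ y) = bf σ K x y) (ug : ∀ i j, ‖g i j‖ ≤ M)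
    (ig' : ∀ x y, bf σ K (g' *ᵥ x) (g' *ᵥ y) = bf σ K x y)
    (ug' : ∀ i j, ‖g' i j‖ ≤ N) (cg : ∀ a, M * ‖g *ᵥ x a‖ ≤ D) (cg' : ∀ a, N * ‖g' *ᵥ x a‖ ≤ D)
    (z : ι → k) : ‖g' *ᵥ z‖ ≤ 7 * (3 * D ^ 6) ^ 12 * ‖g *ᵥ z‖ := by
  have hD1 := h.one_le
  have hD0 := h.pos
  have hDD : D ≤ 3 * D ^ 6 := by
    have : D ^ 1 ≤ D ^ 6 := pow_le_pow_right₀ hD1 (by norm_num)
    rw [pow_one] at this
    nlinarith
  refine near_of_perp (h.mono hDD) hx hx1 hs hM hN
    (hMN.trans (mul_le_mul_of_nonneg_right hDD hN.le))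
    (hNM.trans (mul_le_mul_of_nonneg_right hDD hM.le)) ig ug ug' (fun a => (cg a).trans hDD)
    (fun a => (cg' a).trans hDD) (fun z hz => ?_) (fun z hz => ?_) z
  · exact aniso h ha hx hs hM hDM ig ug cg hz
  · exact aniso h ha hx hs hN hDN ig' ug' cg' hz

end

end Vale.Agent.P092.H315P.G
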