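import Vale.Agent.P092.H315P.G2

/-!
P092, tracks 2 and 3 (helper315), capacities for all forms, part 3: the constants of a form over a
local field (`exists_fb`, `exists_an`), uniform opposition (`unif`), attracting spaces as images of
short vectors (`span_of`), contraction at the full rate (`contract`).
-/

set_option linter.all false

open Matrix Module Set Topology

namespace Vale.Agent.P092.H315P.G

open Vale.Agent.P092.H789.S2
open Vale.Agent.P092.H100.Gr (Gr Fr sp sp_cont ch ch_mn ch_compact exists_ch li_of_mn eq_of_le)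
open Vale.Agent.P092.H714.Cl (hf Frm)
open Vale.Agent.P092.H370.Po (Sing Ort SGr)
open Vale.Agent.P092.H43.G (gm opg_span Opg Opp)

section consts

variable {k : Type} [NontriviallyNormedField k] {n : Type} [Fintype n] [DecidableEq n]
  {σ : k →+* k} {ε : k} {J : Matrix n n k}

theorem bf_hf (x y : n → k) : bf σ J x y = hf σ J x y := rfl

/-- one constant for a form -/
theorem exists_fb (hF : Frm σ ε J) (hσ : ∀ x, ‖σ x‖ = ‖x‖) {J' : Matrix n n k} (hJ : J * J' = 1)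
    (r : ℕ) : ∃ D, Fb σ ε J r D := by
  obtain ⟨β, hβ⟩ := exists_bd hσ hJ
  set y : n → n → k := fun i l => σ (J' l i) with hy
  have hε : ‖ε‖ = 1 := by
    have h1 : ‖ε‖ * ‖ε‖ = 1 := by rw [← norm_mul, hF.eps, norm_one]
    nlinarith [norm_nonneg ε]
  have hyz : ∀ i z, bf σ J z (y i) = z i := by
    intro i z
    have e1 : (fun l => σ (y i l)) = J' *ᵥ Pi.single i 1 := by
      ext l
      rw [Matrix.mulVec_single_one]
      exact hF.inv _
    unfold bf
    rw [e1, Matrix.mulVec_mulVec, hJ, Matrix.one_mulVec, dotProduct_single, mul_one]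
  refine ⟨1 + Fintype.card n + r + β + ∑ i, ‖y i‖, ?_, ?_, ?_, hσ, hε, fun x y => hF.herm x y,
    fun x y => ?_, fun i => ⟨y i, ?_, hyz i⟩⟩
  all_goals
    have h1 : (0 : ℝ) ≤ Fintype.card n := Nat.cast_nonneg _
    have h2 : (0 : ℝ) ≤ r := Nat.cast_nonneg _
    have h3 := hβ.one_le
    have h4 : 0 ≤ ∑ i, ‖y i‖ := Finset.sum_nonneg fun i _ => norm_nonneg _
  · linarith
  · linarith
  · linarith
  · refine (hβ.up x y).trans ?_
    have : β ≤ 1 + Fintype.card n + r + β + ∑ i, ‖(fun i l => σ (J' l i)) i‖ := by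
      have h5 : 0 ≤ ∑ i, ‖(fun i l => σ (J' l i)) i‖ :=
        Finset.sum_nonneg fun i _ => norm_nonneg _
      linarith
    exact mul_le_mul_of_nonneg_right (mul_le_mul_of_nonneg_right this (norm_nonneg _))
      (norm_nonneg _)
  · have h6 : ‖y i‖ ≤ ∑ i, ‖y i‖ :=
      Finset.single_le_sum (f := fun i => ‖y i‖) (fun _ _ => norm_nonneg _) (Finset.mem_univ i)
    linarith

theorem bf_cont (hσ : Continuous σ) {α : Type*} [TopologicalSpace α] {f g : α → n → k}
    (hf : Continuous f) (hg : Continuous g) : Continuous fun a => bf σ J (f a) (g a) := by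
  unfold bf
  refine Continuous.dotProduct hf ?_
  refine Continuous.matrix_mulVec continuous_const ?_
  exact continuous_pi fun i => hσ.comp ((continuous_apply i).comp hg)

/-- the middle block is anisotropic, with a constant -/
theorem exists_an [ProperSpace k] (hF : Frm σ ε J) (hσ : ∀ x, ‖σ x‖ = ‖x‖) {r : ℕ}
    (hW : ∀ Y : Submodule k (n → k), Sing σ J Y → finrank k Y ≤ r) : ∃ D, 1 ≤ D ∧ An σ J r D := by
  classical
  have hσc : Continuous σ := (AddMonoidHomClass.isometry_of_norm σ hσ).continuous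
  have key : ∀ I : Fin r → n, ∃ D : ℝ, 1 ≤ D ∧ ∀ v : Fin r → n → k, v ∈ ch (k := k) I →
      (∀ a b, bf σ J (v a) (v b) = 0) → ∀ μ : n → k, (∀ a, bf σ J μ (v a) = 0) →
      (∀ a, μ (I a) = 0) → ‖μ‖ ^ 2 ≤ D * ‖bf σ J μ μ‖ := by
    intro I
    set S : Set ((Fin r → n → k) × (n → k)) := (ch (k := k) I ×ˢ Metric.closedBall 0 1) ∩
      {p | (∀ a b, bf σ J (p.1 a) (p.1 b) = 0) ∧ (∀ a, bf σ J p.2 (p.1 a) = 0) ∧
        (∀ a, p.2 (I a) = 0) ∧ ‖p.2‖ = 1} with hS
    have hp1 : ∀ a, Continuous fun p : (Fin r → n → k) × (n → k) => p.1 a := fun a =>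
      (continuous_apply a).comp continuous_fst
    have c1 : IsClosed {p : (Fin r → n → k) × (n → k) | ∀ a b, bf σ J (p.1 a) (p.1 b) = 0} := by
      simp only [setOf_forall]
      exact isClosed_iInter fun a => isClosed_iInter fun b =>
        isClosed_eq (bf_cont hσc (hp1 a) (hp1 b)) continuous_const
    have c2 : IsClosed {p : (Fin r → n → k) × (n → k) | ∀ a, bf σ J p.2 (p.1 a) = 0} := by
      simp only [setOf_forall]
      exact isClosed_iInter fun a =>
        isClosed_eq (bf_cont hσc continuous_snd (hp1 a)) continuous_const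
    have c3 : IsClosed {p : (Fin r → n → k) × (n → k) | ∀ a, p.2 (I a) = 0} := by
      simp only [setOf_forall]
      exact isClosed_iInter fun a =>
        isClosed_eq ((continuous_apply (I a)).comp continuous_snd) continuous_const
    have c4 : IsClosed {p : (Fin r → n → k) × (n → k) | ‖p.2‖ = 1} :=
      isClosed_eq continuous_snd.norm continuous_const
    have hSc : IsCompact S :=
      ((ch_compact I).prod (isCompact_closedBall _ _)).inter_right
        (c1.inter (c2.inter (c3.inter c4)))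
    obtain ⟨δ, hδ, hδ1⟩ := hSc.exists_forall_le' (a := 0)
      (f := fun p : (Fin r → n → k) × (n → k) => ‖bf σ J p.2 p.2‖)
      (bf_cont hσc continuous_snd continuous_snd).norm.continuousOn (by
      rintro ⟨v, μ⟩ ⟨⟨hv, -⟩, h1, h2, h3, h4⟩
      simp only at h1 h2 h3 h4 hv ⊢
      rw [norm_pos_iff]
      intro h0
      have hμ0 : μ ≠ 0 := by
        intro h
        rw [h, norm_zero] at h4
        exact zero_ne_one h4
      have hli : LinearIndependent k v := li_of_mn (I := I) (by rw [ch_mn hv]; exact one_ne_zero)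
      set X := Submodule.span k (range v) with hX
      have hXs : Sing σ J X := by
        intro a ha b hb
        obtain ⟨c, rfl⟩ := (Submodule.mem_span_range_iff_exists_fun k).1 ha
        obtain ⟨d, rfl⟩ := (Submodule.mem_span_range_iff_exists_fun k).1 hb
        rw [← bf_hf, bf_sum_left]
        refine Finset.sum_eq_zero fun i _ => ?_
        rw [bf_smul_left, bf_sum_right]
        have : ∑ j, bf σ J (v i) (d j • v j) = 0 :=
          Finset.sum_eq_zero fun j _ => by rw [bf_smul_right, h1, mul_zero]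
        rw [this, mul_zero]
      have hμX : μ ∉ X := by
        intro hm
        obtain ⟨c, hc⟩ := (Submodule.mem_span_range_iff_exists_fun k).1 hm
        refine hμ0 ?_
        have hc0 : ∀ b, c b = 0 := by
          intro b
          have := h3 b
          rw [← hc] at this
          simp only [Finset.sum_apply, Pi.smul_apply, smul_eq_mul, hv.1, Matrix.one_apply] at this
          simpa using this
        rw [← hc]
        exact Finset.sum_eq_zero fun b _ => by rw [hc0 b, zero_smul]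
      have hbig : Sing σ J (X ⊔ Submodule.span k {μ}) := by
        refine Vale.Agent.P092.H370.Po.sing_sup_span hF hXs h0 ?_
        intro x hx
        obtain ⟨c, rfl⟩ := (Submodule.mem_span_range_iff_exists_fun k).1 hx
        rw [← bf_hf, bf_sum_left]
        refine Finset.sum_eq_zero fun i _ => ?_
        have : bf σ J (v i) μ = 0 := by
          rw [bf_hf, hF.herm μ (v i), ← bf_hf, h2 i, map_zero, mul_zero]
        rw [bf_smul_left, this, mul_zero]
      have h5 := hW _ hbig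
      rw [Vale.Agent.P092.H370.Po.finrank_sup_span hμX, hX, finrank_span_eq_card hli,
        Fintype.card_fin] at h5
      omega)
    refine ⟨1 + δ⁻¹, by have := inv_pos.2 hδ; linarith, fun v hv hs μ h1 h2 => ?_⟩
    by_cases hμ : μ = 0
    · rw [hμ, norm_zero]
      have := inv_pos.2 hδ
      have h0 : 0 ≤ (1 + δ⁻¹) * ‖bf σ J (0 : n → k) 0‖ := by positivity
      simpa using h0
    obtain ⟨i, hi⟩ : ∃ i, ‖μ‖ = ‖μ i‖ := by
      haveI : Nonempty n := by
        by_contra he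
        rw [not_nonempty_iff] at he
        exact hμ (Subsingleton.elim _ _)
      obtain ⟨i, hi⟩ := Finite.exists_max fun i => ‖μ i‖
      exact ⟨i, le_antisymm ((pi_norm_le_iff_of_nonneg (norm_nonneg _)).2 hi)
        (norm_le_pi_norm μ i)⟩
    have hi0 : μ i ≠ 0 := by
      intro h0
      rw [h0, norm_zero, norm_eq_zero] at hi
      exact hμ hi
    have hm : ((v, (μ i)⁻¹ • μ) : (Fin r → n → k) × (n → k)) ∈ S := by
      have hn1 : ‖(μ i)⁻¹ • μ‖ = 1 := by
        rw [norm_smul, norm_inv, ← hi, inv_mul_cancel₀ (norm_ne_zero_iff.2 hμ)]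
      refine ⟨⟨hv, ?_⟩, hs, fun a => ?_, fun a => ?_, hn1⟩
      · rw [mem_closedBall_zero_iff]
        exact hn1.le
      · change bf σ J ((μ i)⁻¹ • μ) (v a) = 0
        rw [bf_smul_left, h1, mul_zero]
      · change (μ i)⁻¹ * μ (I a) = 0
        rw [h2, mul_zero]
    have h6 := hδ1 _ hm
    simp only at h6
    rw [bf_smul_left, bf_smul_right, norm_mul, norm_mul, hσ, norm_inv, ← hi] at h6
    have h7 : 0 < ‖μ‖ := norm_pos_iff.2 hμ
    have h8 : δ * ‖μ‖ ^ 2 ≤ ‖bf σ J μ μ‖ := by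
      have h9 : ‖μ‖⁻¹ * (‖μ‖⁻¹ * ‖bf σ J μ μ‖) * ‖μ‖ ^ 2 = ‖bf σ J μ μ‖ := by
        field_simp
      rw [← h9]
      exact mul_le_mul_of_nonneg_right h6 (by positivity)
    have h10 : ‖μ‖ ^ 2 ≤ δ⁻¹ * ‖bf σ J μ μ‖ := by
      rw [inv_mul_eq_div, le_div_iff₀ hδ]
      linarith
    nlinarith [norm_nonneg (bf σ J μ μ)]
  choose D hD1 hD using key
  refine ⟨1 + ∑ I, D I, ?_, fun I v hv hs μ h1 h2 => (hD I v hv hs μ h1 h2).trans
    (mul_le_mul_of_nonneg_right ?_ (norm_nonneg _))⟩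
  · have : 0 ≤ ∑ I, D I := Finset.sum_nonneg fun I _ => zero_le_one.trans (hD1 I)
    linarith
  · have : D I ≤ ∑ I, D I :=
      Finset.single_le_sum (f := D) (fun I _ => zero_le_one.trans (hD1 I)) (Finset.mem_univ I)
    linarith

end consts

section unif

variable {k : Type} [NontriviallyNormedField k] [ProperSpace k] {n : Type} [Fintype n]
  [DecidableEq n] {σ : k →+* k} {ε : k} {J : Matrix n n k} {j : ℕ}

omit [ProperSpace k] in
theorem gm_cont (hσ : Continuous σ) :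
    Continuous fun p : (Fin j → n → k) × (Fin j → n → k) => gm σ J p.1 p.2 := by
  refine continuous_matrix fun a b => ?_
  exact bf_cont (J := J) hσ ((continuous_apply a).comp continuous_fst)
    ((continuous_apply b).comp continuous_snd)

theorem fr_compact (I : Fin j → n) : IsCompact {v : Fr k n j | v.1 ∈ ch (k := k) I} := by
  have h1 : IsEmbedding (fun v : Fr k n j => v.1) := IsEmbedding.subtypeVal
  rw [h1.isCompact_iff]
  have e : (fun v : Fr k n j => v.1) '' {v : Fr k n j | v.1 ∈ ch (k := k) I} =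
      ch (k := k) I := by
    ext v
    constructor
    · rintro ⟨w, hw, rfl⟩
      exact hw
    · intro hv
      exact ⟨⟨v, li_of_mn (I := I) (by rw [ch_mn hv]; exact one_ne_zero)⟩, hv, rfl⟩
  rw [e]
  exact ch_compact I

/-- the normalised frames of the members of a closed set -/
theorem lift_compact (I : Fin j → n) {KA : Set (Gr k n j)} (hA : IsClosed KA) :
    IsCompact ((fun v : Fr k n j => v.1) ''
      ({v : Fr k n j | v.1 ∈ ch (k := k) I} ∩ sp ⁻¹' KA)) :=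
  ((fr_compact I).inter_right (hA.preimage sp_cont)).image continuous_subtype_val

/-- **uniform opposition** -/
theorem unif (hσ : ∀ x, ‖σ x‖ = ‖x‖) {KA KB : Set (Gr k n j)} (hA : IsClosed KA)
    (hB : IsClosed KB) (h : ∀ X ∈ KA, ∀ Y ∈ KB, Opg σ J X.1 Y.1) :
    ∃ δ : ℝ, 0 < δ ∧ ∀ X ∈ KA, ∀ Y ∈ KB, ∀ x ∈ Y.1, ∃ v ∈ X.1, ‖v‖ ≤ 1 ∧
      δ * ‖x‖ ≤ ‖bf σ J v x‖ := by
  classical
  have hσc : Continuous σ := (AddMonoidHomClass.isometry_of_norm σ hσ).continuous
  rcases Nat.eq_zero_or_pos j with hj0 | hj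
  · subst hj0
    refine ⟨1, one_pos, fun X _ Y _ x hx => ⟨0, X.1.zero_mem, by simp, ?_⟩⟩
    have hY : Y.1 = ⊥ := Submodule.finrank_eq_zero.1 Y.2
    rw [hY, Submodule.mem_bot] at hx
    rw [hx]
    simp
  have key : ∀ p : (Fin j → n) × (Fin j → n), ∃ δ C : ℝ, 0 < δ ∧ 0 ≤ C ∧
      ∀ v w : Fr k n j, v.1 ∈ ch (k := k) p.1 → w.1 ∈ ch (k := k) p.2 → sp v ∈ KA →
        sp w ∈ KB → δ ≤ ‖(gm σ J v.1 w.1).det‖ ∧ ∀ a b, ‖(gm σ J v.1 w.1).adjugate a b‖ ≤ C := by
    intro p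
    set S := ((fun v : Fr k n j => v.1) ''
      ({v : Fr k n j | v.1 ∈ ch (k := k) p.1} ∩ sp ⁻¹' KA)) ×ˢ
      ((fun v : Fr k n j => v.1) ''
      ({v : Fr k n j | v.1 ∈ ch (k := k) p.2} ∩ sp ⁻¹' KB)) with hS
    have hSc : IsCompact S := (lift_compact p.1 hA).prod (lift_compact p.2 hB)
    have hdet : Continuous fun p : (Fin j → n → k) × (Fin j → n → k) =>
        ‖(gm σ J p.1 p.2).det‖ := ((gm_cont hσc).matrix_det).norm
    obtain ⟨δ, hδ, hδ1⟩ := hSc.exists_forall_le' hdet.continuousOn (a := 0) (by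
      rintro ⟨v, w⟩ ⟨⟨v', ⟨hv1, hv2⟩, rfl⟩, ⟨w', ⟨hw1, hw2⟩, rfl⟩⟩
      exact norm_pos_iff.mpr ((opg_span v'.2).1 (h _ hv2 _ hw2)))
    have hadj : Continuous fun p : (Fin j → n → k) × (Fin j → n → k) =>
        (fun a b => (gm σ J p.1 p.2).adjugate a b : Fin j → Fin j → k) := by
      have h1 := (gm_cont (J := J) (j := j) hσc).matrix_adjugate
      exact continuous_pi fun a => continuous_pi fun b => h1.matrix_elem a b
    obtain ⟨C, hC⟩ := hSc.exists_bound_of_continuousOn hadj.continuousOn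
    refine ⟨δ, max C 0, hδ, le_max_right _ _, fun v w hv hw hvA hwB => ?_⟩
    have hm : (v.1, w.1) ∈ S := ⟨⟨v, ⟨hv, hvA⟩, rfl⟩, ⟨w, ⟨hw, hwB⟩, rfl⟩⟩
    refine ⟨hδ1 _ hm, fun a b => ?_⟩
    have h2 := hC _ hm
    refine ((norm_le_pi_norm _ b).trans (norm_le_pi_norm (fun a b =>
      (gm σ J v.1 w.1).adjugate a b : Fin j → Fin j → k) a)).trans (h2.trans (le_max_left _ _))
  choose δ C hδ hC hk using key
  rcases isEmpty_or_nonempty (Fin j → n) with hemp | hne
  · refine ⟨1, one_pos, fun X _ Y _ x hx => ?_⟩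
    obtain ⟨I, -⟩ := exists_ch X
    exact (hemp.false I).elim
  obtain ⟨p0, hp0⟩ := Finite.exists_min δ
  obtain ⟨p1, hp1⟩ := Finite.exists_max C
  have hC1 : 0 ≤ C p1 := hC p1
  have hjr : (0 : ℝ) < j := Nat.cast_pos.mpr hj
  refine ⟨δ p0 / (j * j * C p1 + 1), by have := hδ p0; positivity, fun X hX Y hY x hx => ?_⟩
  obtain ⟨I, v, hv, rfl⟩ := exists_ch X
  obtain ⟨I', w, hw, rfl⟩ := exists_ch Y
  obtain ⟨d1, d2⟩ := hk (I, I') v w hv hw hX hY
  obtain ⟨c, hc⟩ := (Submodule.mem_span_range_iff_exists_fun k).1 hx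
  have hu : ∀ a, bf σ J (v.1 a) x = (gm σ J v.1 w.1 *ᵥ fun b => σ (c b)) a := by
    intro a
    rw [← hc, bf_sum_right]
    simp only [Matrix.mulVec, dotProduct, gm, Matrix.of_apply]
    exact Finset.sum_congr rfl fun b _ => by rw [bf_smul_right, bf_hf, mul_comm]
  haveI : Nonempty (Fin j) := ⟨⟨0, hj⟩⟩
  obtain ⟨a0, ha0⟩ := Finite.exists_max fun a => ‖bf σ J (v.1 a) x‖
  set s := ‖bf σ J (v.1 a0) x‖ with hs
  have hs0 : 0 ≤ s := norm_nonneg _
  have hcb : ∀ b, δ p0 * ‖c b‖ ≤ j * (C p1 * s) := by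
    intro b
    have e1 : (gm σ J v.1 w.1).det * σ (c b) =
        ∑ a, (gm σ J v.1 w.1).adjugate b a * bf σ J (v.1 a) x := by
      have : (gm σ J v.1 w.1).adjugate *ᵥ (gm σ J v.1 w.1 *ᵥ fun b => σ (c b)) =
          (gm σ J v.1 w.1).det • fun b => σ (c b) := by
        rw [Matrix.mulVec_mulVec, Matrix.adjugate_mul, Matrix.smul_mulVec, Matrix.one_mulVec]
      have h2 := congrFun this b
      rw [Pi.smul_apply, smul_eq_mul] at h2
      rw [← h2]
      simp only [Matrix.mulVec, dotProduct] at hu ⊢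
      exact Finset.sum_congr rfl fun a _ => by rw [hu]
    calc δ p0 * ‖c b‖ ≤ ‖(gm σ J v.1 w.1).det‖ * ‖c b‖ :=
          mul_le_mul_of_nonneg_right ((hp0 _).trans d1) (norm_nonneg _)
      _ = ‖(gm σ J v.1 w.1).det * σ (c b)‖ := by rw [norm_mul, hσ]
      _ = ‖∑ a, (gm σ J v.1 w.1).adjugate b a * bf σ J (v.1 a) x‖ := by rw [e1]
      _ ≤ ∑ _a : Fin j, C p1 * s := by
          refine norm_sum_le_of_le _ fun a _ => ?_
          rw [norm_mul]
          exact mul_le_mul ((d2 b a).trans (hp1 _)) (ha0 a) (norm_nonneg _) hC1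
      _ = _ := by simp
  have hxn : δ p0 * ‖x‖ ≤ j * (j * (C p1 * s)) := by
    have e2 : ‖x‖ ≤ ∑ b, ‖c b‖ := by
      rw [← hc]
      refine norm_sum_le_of_le _ fun b _ => ?_
      rw [norm_smul]
      have : ‖w.1 b‖ ≤ 1 := (pi_norm_le_iff_of_nonneg zero_le_one).2 (hw.2 b)
      nlinarith [norm_nonneg (c b)]
    calc δ p0 * ‖x‖ ≤ δ p0 * ∑ b, ‖c b‖ := mul_le_mul_of_nonneg_left e2 (hδ p0).le
      _ = ∑ b, δ p0 * ‖c b‖ := Finset.mul_sum _ _ _
      _ ≤ ∑ _b : Fin j, j * (C p1 * s) := Finset.sum_le_sum fun b _ => hcb b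
      _ = _ := by simp
  refine ⟨v.1 a0, Submodule.subset_span ⟨a0, rfl⟩,
    (pi_norm_le_iff_of_nonneg zero_le_one).2 (hv.2 a0), ?_⟩
  rw [div_mul_eq_mul_div, div_le_iff₀ (by positivity)]
  nlinarith

omit [ProperSpace k] in
/-- the singular spaces are a closed subset of the Grassmannian -/
theorem val_closed (hσ : Continuous σ) {K : Set (SGr σ J j)} (hK : IsClosed K) :
    IsClosed ((fun l : SGr σ J j => (l.1 : Gr k n j)) '' K) :=
  ((Vale.Agent.P092.H370.Po.singG_closed hσ (j := j)).isClosedEmbedding_subtypeVal).isClosedMap K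
    hK

/-- uniform opposition of singular spaces -/
theorem unifS (hσ : ∀ x, ‖σ x‖ = ‖x‖) {A B : Set (SGr σ J j)} (hB : IsClosed B)
    (hAB : ∀ X ∈ closure A, ∀ Y ∈ B, Opp X Y) : ∃ δ : ℝ, 0 < δ ∧
      ∀ X ∈ A, ∀ Y ∈ B, ∀ x ∈ Y.S, ∃ v ∈ X.S, ‖v‖ ≤ 1 ∧ δ * ‖x‖ ≤ ‖bf σ J v x‖ := by
  have hσc : Continuous σ := (AddMonoidHomClass.isometry_of_norm σ hσ).continuous
  obtain ⟨δ, hδ, h⟩ := unif (J := J) hσ (val_closed hσc isClosed_closure) (val_closed hσc hB) (by
    rintro - ⟨X, hX, rfl⟩ - ⟨Y, hY, rfl⟩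
    exact hAB X hX Y hY)
  exact ⟨δ, hδ, fun X hX Y hY x hx => h _ ⟨X, subset_closure hX, rfl⟩ _ ⟨Y, hY, rfl⟩ x hx⟩

end unif

section contract

variable {k : Type} [NontriviallyNormedField k] {n : Type} [Fintype n]
  [DecidableEq n] {σ : k →+* k} {ε : k} {J : Matrix n n k} {r : ℕ} {D : ℝ}

/-- **contraction at the full rate** -/
theorem contract (h : Fb σ ε J r D) {g Mx : Matrix n n k} {N c T δ : ℝ}
    (ig : ∀ x y, bf σ J (g *ᵥ x) (g *ᵥ y) = bf σ J x y)
    (hN : 0 < N) (hT : 0 < T) (hc : 0 ≤ c) (hδ : 0 < δ) (hM : ∀ i j, ‖g i j - Mx i j‖ ≤ N / T)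
    {v z : n → k} (hv : ∃ u, Mx *ᵥ u = v ∧ N * ‖u‖ ≤ c * ‖v‖) (hv1 : ‖v‖ ≤ 1)
    (hz : δ * ‖g *ᵥ z‖ ≤ ‖bf σ J v (g *ᵥ z)‖) (hTc : 2 * D ^ 2 * c ≤ δ * T) :
    N * ‖g *ᵥ z‖ ≤ 2 * D * c / δ * ‖z‖ := by
  have hD := h.pos
  obtain ⟨u, hu, hu1⟩ := hv
  have hu2 : N * ‖u‖ ≤ c := hu1.trans (by nlinarith [norm_nonneg v])
  set m := ‖g *ᵥ z‖ with hm
  have hm0 : 0 ≤ m := norm_nonneg _
  have hNT : 0 ≤ N / T := (div_pos hN hT).le
  have e1 : bf σ J v (g *ᵥ z) = bf σ J u z - bf σ J ((g - Mx) *ᵥ u) (g *ᵥ z) := by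
    have : g *ᵥ u = v + (g - Mx) *ᵥ u := by rw [← hu, ← Matrix.add_mulVec, add_sub_cancel]
    rw [← ig u z, this, bf_add_left]
    ring
  have e2 : ‖bf σ J u z‖ ≤ D * ‖u‖ * ‖z‖ := h.up _ _
  have e3 : ‖(g - Mx) *ᵥ u‖ ≤ D * (N / T) * ‖u‖ :=
    mulVec_le' hNT h.card_le (fun i j => hM i j) u
  have e4 : ‖bf σ J ((g - Mx) *ᵥ u) (g *ᵥ z)‖ ≤ D * ‖(g - Mx) *ᵥ u‖ * m := h.up _ _
  have e5 : D * ‖(g - Mx) *ᵥ u‖ * m ≤ D ^ 2 * (c / T) * m := by
    have e50 : (N / T) * ‖u‖ ≤ c / T := by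
      rw [div_mul_eq_mul_div]
      exact div_le_div_of_nonneg_right hu2 hT.le
    calc D * ‖(g - Mx) *ᵥ u‖ * m ≤ D * (D * (N / T) * ‖u‖) * m := by gcongr
      _ = D ^ 2 * ((N / T) * ‖u‖) * m := by ring
      _ ≤ _ := by gcongr
  have e6 : ‖bf σ J v (g *ᵥ z)‖ ≤ ‖bf σ J u z‖ + ‖bf σ J ((g - Mx) *ᵥ u) (g *ᵥ z)‖ := by
    rw [e1]
    exact norm_sub_le _ _
  have e7 : D ^ 2 * (c / T) ≤ δ / 2 := by
    rw [← mul_div_assoc, div_le_iff₀ hT]
    linarith
  have e8 : δ / 2 * m ≤ D * ‖u‖ * ‖z‖ := by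
    have : D ^ 2 * (c / T) * m ≤ δ / 2 * m := mul_le_mul_of_nonneg_right e7 hm0
    linarith
  have e9 : N * (δ / 2 * m) ≤ D * c * ‖z‖ := by
    calc N * (δ / 2 * m) ≤ N * (D * ‖u‖ * ‖z‖) := mul_le_mul_of_nonneg_left e8 hN.le
      _ = D * (N * ‖u‖) * ‖z‖ := by ring
      _ ≤ D * c * ‖z‖ := by gcongr
  rw [div_mul_eq_mul_div, le_div_iff₀ hδ]
  linarith

/-- the attracting space is the image of short vectors -/
theorem span_of (hD : (Fintype.card n : ℝ) ≤ D) {g Mx : Matrix n n k} {N T R : ℝ} (hN : 0 < N)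
    (hT : 0 < T) (hR : 0 < R) (hTR : 2 * D * R ≤ T) (hM : ∀ i j, ‖g i j - Mx i j‖ ≤ N / T)
    {V X : Submodule k (n → k)} (hVX : finrank k V = finrank k X)
    (hV : ∀ u ∈ V, N * ‖u‖ ≤ R * ‖g *ᵥ u‖) (hMX : ∀ v, Mx *ᵥ v ∈ X)
    {v : n → k} (hv : v ∈ X) : ∃ u, Mx *ᵥ u = v ∧ N * ‖u‖ ≤ 2 * R * ‖v‖ := by
  have hD0 : 0 ≤ D := (Nat.cast_nonneg _).trans hD
  have hNT : 0 ≤ N / T := (div_pos hN hT).le
  have key : ∀ u ∈ V, N * ‖u‖ ≤ 2 * R * ‖Mx *ᵥ u‖ := by
    intro u hu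
    have e3 : ‖(g - Mx) *ᵥ u‖ ≤ D * (N / T) * ‖u‖ := mulVec_le' hNT hD (fun i j => hM i j) u
    have e4 : ‖g *ᵥ u‖ ≤ ‖Mx *ᵥ u‖ + ‖(g - Mx) *ᵥ u‖ := by
      have : g *ᵥ u = Mx *ᵥ u + (g - Mx) *ᵥ u := by rw [← Matrix.add_mulVec, add_sub_cancel]
      rw [this]
      exact norm_add_le _ _
    have e5 : R * (D * (N / T) * ‖u‖) ≤ N / 2 * ‖u‖ := by
      have : R * (D * (N / T) * ‖u‖) = (D * R / T) * (N * ‖u‖) := by ring
      rw [this]
      have h6 : D * R / T ≤ 1 / 2 := by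
        rw [div_le_iff₀ hT]
        linarith
      have : 0 ≤ N * ‖u‖ := by positivity
      nlinarith
    have e7 : R * ‖g *ᵥ u‖ ≤ R * (‖Mx *ᵥ u‖ + D * (N / T) * ‖u‖) :=
      mul_le_mul_of_nonneg_left (e4.trans (add_le_add le_rfl e3)) hR.le
    have := hV u hu
    nlinarith
  let f : V →ₗ[k] X :=
    { toFun := fun u => ⟨Mx *ᵥ u.1, hMX _⟩
      map_add' := fun u u' => Subtype.ext (Matrix.mulVec_add _ _ _)
      map_smul' := fun c u => Subtype.ext (Matrix.mulVec_smul _ _ _) }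
  have hinj : Function.Injective f := by
    rw [← LinearMap.ker_eq_bot, LinearMap.ker_eq_bot']
    intro u hu
    have h0 : Mx *ᵥ u.1 = 0 := congrArg Subtype.val hu
    have h1 := key u.1 u.2
    rw [h0, norm_zero, mul_zero] at h1
    have h2 : ‖u.1‖ ≤ 0 := by
      by_contra hc
      push Not at hc
      have := mul_pos hN hc
      linarith
    exact Subtype.ext (norm_le_zero_iff.1 h2)
  have hsurj := (LinearMap.injective_iff_surjective_of_finrank_eq_finrank hVX).1 hinj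
  obtain ⟨u, hu⟩ := hsurj ⟨v, hv⟩
  have h1 : Mx *ᵥ u.1 = v := congrArg Subtype.val hu
  refine ⟨u.1, h1, ?_⟩
  rw [← h1]
  exact key u.1 u.2

end contract

end Vale.Agent.P092.H315P.G
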