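import Vale.Agent.P092.H315P.Kak

/-!
P092, Team P, row [P-KAK] (helper315), part 2: the sizes of the decomposition
`g = U * dg a b b⁻¹ a⁻¹ * V`, the lower bound of the second gap, and the forms near the walls.
-/

set_option linter.all false

namespace Vale.Agent.P092.H315P

open Matrix
open Vale.Agent.P092.H337.NG (en m2 mi en_le_of entry_le mi_le m2_le_of m2_le m2_mul en_mul
  en_nonneg m2_nonneg)

variable {k : Type*} [NormedField k]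

theorem dg_one : dg (1 : k) 1 1 1 = 1 := by
  rw [dg_eq]
  ext i j
  fin_cases i <;> fin_cases j <;> simp

theorem sp_dg {a b : k} (ha : a ≠ 0) (hb : b ≠ 0) : Sp (dg a b b⁻¹ a⁻¹) := by
  unfold Sp
  ext i j
  fin_cases i <;> fin_cases j <;>
    simp [dg, J, Matrix.mul_apply, Matrix.vecMul, dotProduct, Fin.sum_univ_four, ha, hb]

theorem dg_bd {a b c d : k} {R : ℝ} (h0 : 0 ≤ R) (ha : ‖a‖ ≤ R) (hb : ‖b‖ ≤ R) (hc : ‖c‖ ≤ R)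
    (hd : ‖d‖ ≤ R) (i j : Fin 4) : ‖dg a b c d i j‖ ≤ R := by
  fin_cases i <;> fin_cases j <;> simp [dg, ha, hb, hc, hd, h0]

/-- The minors of a diagonal matrix. -/
theorem m2_dg_le {a b c d : k} {R : ℝ} (h0 : 0 ≤ R) (h1 : ‖a‖ * ‖b‖ ≤ R) (h2 : ‖a‖ * ‖c‖ ≤ R)
    (h3 : ‖a‖ * ‖d‖ ≤ R) (h4 : ‖b‖ * ‖c‖ ≤ R) (h5 : ‖b‖ * ‖d‖ ≤ R) (h6 : ‖c‖ * ‖d‖ ≤ R) :
    m2 (dg a b c d) ≤ R := by
  have e1 : ‖b‖ * ‖a‖ ≤ R := by rwa [mul_comm]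
  have e2 : ‖c‖ * ‖a‖ ≤ R := by rwa [mul_comm]
  have e3 : ‖d‖ * ‖a‖ ≤ R := by rwa [mul_comm]
  have e4 : ‖c‖ * ‖b‖ ≤ R := by rwa [mul_comm]
  have e5 : ‖d‖ * ‖b‖ ≤ R := by rwa [mul_comm]
  have e6 : ‖d‖ * ‖c‖ ≤ R := by rwa [mul_comm]
  refine m2_le_of h0 fun i i' j j' => ?_
  unfold mi
  fin_cases i <;> fin_cases i' <;> fin_cases j <;> fin_cases j' <;>
    simp [dg, h0, *]

theorem le_m2_dg (a b c d : k) : ‖a‖ * ‖b‖ ≤ m2 (dg a b c d) := by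
  have := mi_le (dg a b c d) 0 1 0 1
  simpa [mi, dg] using this

/-- The data of a bounded Cartan decomposition. -/
structure Kak (g : M4 k) (U V : M4 k) (a b : k) : Prop where
  sU : Sp U
  sV : Sp V
  bU : ∀ i j, ‖U i j‖ ≤ 16
  bV : ∀ i j, ‖V i j‖ ≤ 16
  a0 : a ≠ 0
  b0 : b ≠ 0
  na : ‖a‖ = en g
  nb : 1 ≤ 2 * ‖b‖ ^ 2
  ba : ‖b‖ ≤ 16 * ‖a‖
  eq : g = U * dg a b b⁻¹ a⁻¹ * V

theorem exists_kak {g : M4 k} (hg : Sp g) : ∃ U V a b, Kak g U V a b := by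
  obtain ⟨U, V, a, b, h1, h2, h3, h4, h5, h6, h7, h8, h9, h10⟩ := cartan hg
  exact ⟨U, V, a, b, ⟨h1, h2, h3, h4, h5, h6, h7, h8, h9, h10⟩⟩

namespace Kak

variable {g U V : M4 k} {a b : k}

theorem pa (h : Kak g U V a b) : 0 < ‖a‖ := norm_pos_iff.mpr h.a0

theorem pb (h : Kak g U V a b) : 0 < ‖b‖ := norm_pos_iff.mpr h.b0

theorem sp (h : Kak g U V a b) : Sp g := by
  rw [h.eq]
  exact (h.sU.mul (sp_dg h.a0 h.b0)).mul h.sV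

theorem ib (h : Kak g U V a b) : ‖b⁻¹‖ ≤ 2 * ‖b‖ := by
  have hb := h.pb
  rw [norm_inv, inv_le_iff_one_le_mul₀ hb]
  nlinarith [h.nb]

theorem ia (h : Kak g U V a b) : ‖a⁻¹‖ ≤ 32 * ‖b‖ := by
  have ha := h.pa
  have hb := h.pb
  rw [norm_inv, inv_le_iff_one_le_mul₀ ha]
  nlinarith [h.nb, h.ba]

theorem one_le_ab (h : Kak g U V a b) : 1 ≤ 32 * (‖a‖ * ‖b‖) := by
  have ha := h.pa
  have hb := h.pb
  nlinarith [h.nb, h.ba]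

theorem one_le_a (h : Kak g U V a b) : 1 ≤ 512 * ‖a‖ ^ 2 := by
  have ha := h.pa
  have hb := h.pb
  nlinarith [h.nb, h.ba, mul_pos ha hb]

theorem m2_le (h : Kak g U V a b) : m2 g ≤ 2 ^ 36 * (‖a‖ * ‖b‖) := by
  have ha := h.pa
  have hb := h.pb
  have hab : 0 < ‖a‖ * ‖b‖ := mul_pos ha hb
  have e1 := h.one_le_ab
  have ia : ‖a⁻¹‖ * ‖a‖ = 1 := by rw [← norm_mul, inv_mul_cancel₀ h.a0, norm_one]
  have ib : ‖b⁻¹‖ * ‖b‖ = 1 := by rw [← norm_mul, inv_mul_cancel₀ h.b0, norm_one]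
  have q1 : ‖b⁻¹‖ ≤ 2 * ‖b‖ := h.ib
  have q2 : ‖a⁻¹‖ ≤ 32 * ‖b‖ := h.ia
  have q3 : ‖b‖ ≤ 16 * ‖a‖ := h.ba
  have n1 : 0 ≤ ‖a⁻¹‖ := norm_nonneg _
  have n2 : 0 ≤ ‖b⁻¹‖ := norm_nonneg _
  have q4 : ‖b‖ * ‖a⁻¹‖ ≤ 16 := by
    calc ‖b‖ * ‖a⁻¹‖ ≤ (16 * ‖a‖) * ‖a⁻¹‖ := mul_le_mul_of_nonneg_right q3 n1
      _ = 16 * (‖a⁻¹‖ * ‖a‖) := by ring
      _ = 16 := by rw [ia, mul_one]
  have hD : m2 (dg a b b⁻¹ a⁻¹) ≤ 1024 * (‖a‖ * ‖b‖) := by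
    refine m2_dg_le (by positivity) (by nlinarith) ?_ ?_ ?_ ?_ ?_
    · calc ‖a‖ * ‖b⁻¹‖ ≤ ‖a‖ * (2 * ‖b‖) := mul_le_mul_of_nonneg_left q1 ha.le
        _ ≤ _ := by nlinarith
    · rw [mul_comm ‖a‖ ‖a⁻¹‖, ia]
      linarith
    · rw [mul_comm ‖b‖ ‖b⁻¹‖, ib]
      linarith
    · linarith
    · calc ‖b⁻¹‖ * ‖a⁻¹‖ ≤ (2 * ‖b‖) * ‖a⁻¹‖ := mul_le_mul_of_nonneg_right q1 n1
        _ = 2 * (‖b‖ * ‖a⁻¹‖) := by ring
        _ ≤ 1024 * (‖a‖ * ‖b‖) := by linarith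
  have hU : m2 U ≤ 512 := by
    have := Vale.Agent.P092.H337.NG.m2_le U
    have h1 : en U ≤ 16 := en_le_of (by norm_num) h.bU
    have h2 := en_nonneg U
    nlinarith
  have hV : m2 V ≤ 512 := by
    have := Vale.Agent.P092.H337.NG.m2_le V
    have h1 : en V ≤ 16 := en_le_of (by norm_num) h.bV
    have h2 := en_nonneg V
    nlinarith
  have e2 := m2_mul (U * dg a b b⁻¹ a⁻¹) V
  have e3 := m2_mul U (dg a b b⁻¹ a⁻¹)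
  rw [← h.eq] at e2
  push_cast at e2 e3
  have m1 := m2_nonneg U
  have m3 := m2_nonneg V
  have m4 := m2_nonneg (dg a b b⁻¹ a⁻¹)
  have m5 := m2_nonneg (U * dg a b b⁻¹ a⁻¹)
  have e4 : m2 U * m2 (dg a b b⁻¹ a⁻¹) ≤ 512 * (1024 * (‖a‖ * ‖b‖)) :=
    mul_le_mul hU hD m4 (by norm_num)
  have e5 : m2 (U * dg a b b⁻¹ a⁻¹) * m2 V ≤ (4 ^ 2 * (512 * (1024 * (‖a‖ * ‖b‖)))) * 512 :=
    mul_le_mul (e3.trans (mul_le_mul_of_nonneg_left e4 (by norm_num))) hV m3 (by positivity)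
  linarith

theorem le_m2 (h : Kak g U V a b) : ‖a‖ * ‖b‖ ≤ 2 ^ 26 * m2 g := by
  have e0 : dg a b b⁻¹ a⁻¹ = sinv U * g * sinv V := by
    rw [h.eq, ← Matrix.mul_assoc, ← Matrix.mul_assoc, h.sU.sinv_mul, Matrix.one_mul,
      Matrix.mul_assoc, h.sV.mul_sinv, Matrix.mul_one]
  have hU : m2 (sinv U) ≤ 512 := by
    have := Vale.Agent.P092.H337.NG.m2_le (sinv U)
    have h1 : en (sinv U) ≤ 16 := en_le_of (by norm_num) (sinv_bd h.bU)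
    have h2 := en_nonneg (sinv U)
    nlinarith
  have hV : m2 (sinv V) ≤ 512 := by
    have := Vale.Agent.P092.H337.NG.m2_le (sinv V)
    have h1 : en (sinv V) ≤ 16 := en_le_of (by norm_num) (sinv_bd h.bV)
    have h2 := en_nonneg (sinv V)
    nlinarith
  have e2 := m2_mul (sinv U * g) (sinv V)
  have e3 := m2_mul (sinv U) g
  rw [← e0] at e2
  push_cast at e2 e3
  have m1 := m2_nonneg (sinv U)
  have m3 := m2_nonneg (sinv V)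
  have m4 := m2_nonneg g
  have m5 := m2_nonneg (sinv U * g)
  have e4 : m2 (sinv U) * m2 g ≤ 512 * m2 g := mul_le_mul_of_nonneg_right hU m4
  have e7 : m2 (sinv U * g) ≤ 4 ^ 2 * (512 * m2 g) := by linarith
  have e8 : (0 : ℝ) ≤ 4 ^ 2 * (512 * m2 g) := by linarith
  have e5 : m2 (sinv U * g) * m2 (sinv V) ≤ (4 ^ 2 * (512 * m2 g)) * 512 :=
    mul_le_mul e7 hV m3 e8
  have e6 := le_m2_dg a b b⁻¹ a⁻¹
  linarith

/-- The second gap is bounded below. -/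
theorem en_le_m2 (h : Kak g U V a b) : en g ≤ 2 ^ 27 * m2 g := by
  have h1 := h.le_m2
  have ha := h.pa
  have hb : 1 ≤ 2 * ‖b‖ := by
    have := h.pb
    by_contra hc
    push Not at hc
    nlinarith [h.nb]
  rw [← h.na]
  nlinarith

end Kak

/-- The first gap is bounded below: `m2 g ≤ 2 * en g ^ 2` is `H337.NG.m2_le`.  The second gap is
bounded below. -/
theorem en_le_m2 {g : M4 k} (hg : Sp g) : en g ≤ 2 ^ 27 * m2 g := by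
  obtain ⟨U, V, a, b, h⟩ := exists_kak hg
  exact h.en_le_m2

theorem one_le_en {g : M4 k} (hg : Sp g) : 1 ≤ 512 * en g ^ 2 := by
  obtain ⟨U, V, a, b, h⟩ := exists_kak hg
  rw [← h.na]
  exact h.one_le_a

theorem one_le_m2 {g : M4 k} (hg : Sp g) : 1 ≤ 2 ^ 31 * m2 g := by
  obtain ⟨U, V, a, b, h⟩ := exists_kak hg
  have h1 := h.le_m2
  have h2 := h.one_le_ab
  linarith

/-- Near the first wall. -/
theorem nw1_form (R : ℝ) : ∃ C : ℝ, 0 < C ∧ ∀ g : M4 k, Sp g → m2 g ≤ R * en g →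
    ∃ (U V : M4 k) (a : k), Sp U ∧ Sp V ∧ (∀ i j, ‖U i j‖ ≤ C) ∧ (∀ i j, ‖V i j‖ ≤ C) ∧
      a ≠ 0 ∧ ‖a‖ = en g ∧ g = U * dg a 1 1 a⁻¹ * V := by
  refine ⟨4 * (16 * (1 + 2 * (2 ^ 26 * |R|))) + 16, by positivity, fun g hg hR => ?_⟩
  obtain ⟨U, V, a, b, h⟩ := exists_kak hg
  have ha := h.pa
  have hb : ‖b‖ ≤ 2 ^ 26 * |R| := by
    have h1 := h.le_m2
    rw [← h.na] at hR
    have h2 : R * ‖a‖ ≤ |R| * ‖a‖ := mul_le_mul_of_nonneg_right (le_abs_self R) ha.le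
    have h3 : ‖a‖ * ‖b‖ ≤ ‖a‖ * (2 ^ 26 * |R|) := by nlinarith
    exact le_of_mul_le_mul_left h3 ha
  have hR0 : 0 ≤ 2 ^ 26 * |R| := by positivity
  have e : dg a b b⁻¹ a⁻¹ = dg 1 b b⁻¹ 1 * dg a 1 1 a⁻¹ := by
    rw [dg_mul]
    simp
  have hs : Sp (dg 1 b b⁻¹ 1) := by
    have := sp_dg (one_ne_zero (α := k)) h.b0
    rwa [inv_one] at this
  refine ⟨U * dg 1 b b⁻¹ 1, V, a, h.sU.mul hs, h.sV, fun i j => ?_, fun i j => ?_, h.a0, h.na,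
    ?_⟩
  · have h1 := bd4 h.bU (dg_bd (a := (1 : k)) (b := b) (c := b⁻¹) (d := 1)
      (R := 1 + 2 * (2 ^ 26 * |R|)) (by positivity) (by rw [norm_one]; linarith) (by linarith)
      (by linarith [h.ib]) (by rw [norm_one]; linarith)) i j
    linarith
  · have h1 := h.bV i j
    nlinarith
  · rw [Matrix.mul_assoc U, ← e]
    exact h.eq

/-- Near the second wall. -/
theorem nw2_form (R : ℝ) : ∃ C : ℝ, 0 < C ∧ ∀ g : M4 k, Sp g → en g ^ 2 ≤ R * m2 g →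
    ∃ (U V : M4 k) (a : k), Sp U ∧ Sp V ∧ (∀ i j, ‖U i j‖ ≤ C) ∧ (∀ i j, ‖V i j‖ ≤ C) ∧
      a ≠ 0 ∧ ‖a‖ = en g ∧ g = U * dg a a a⁻¹ a⁻¹ * V := by
  refine ⟨4 * (16 * (17 + 2 ^ 36 * |R|)) + 16, by positivity, fun g hg hR => ?_⟩
  obtain ⟨U, V, a, b, h⟩ := exists_kak hg
  have ha := h.pa
  have hb := h.pb
  have hab : ‖a‖ ≤ (2 ^ 36 * |R|) * ‖b‖ := by
    have h1 := h.m2_le
    rw [← h.na] at hR
    have h2 : R * m2 g ≤ |R| * m2 g := mul_le_mul_of_nonneg_right (le_abs_self R) (m2_nonneg g)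
    have h3 : |R| * m2 g ≤ |R| * (2 ^ 36 * (‖a‖ * ‖b‖)) :=
      mul_le_mul_of_nonneg_left h1 (abs_nonneg R)
    have h4 : ‖a‖ * ‖a‖ ≤ ‖a‖ * ((2 ^ 36 * |R|) * ‖b‖) := by nlinarith
    exact le_of_mul_le_mul_left h4 ha
  have e : dg a b b⁻¹ a⁻¹ = dg 1 (b * a⁻¹) (b * a⁻¹)⁻¹ 1 * dg a a a⁻¹ a⁻¹ := by
    rw [dg_mul, mul_inv, inv_inv]
    congr 1
    · simp
    · rw [mul_assoc, inv_mul_cancel₀ h.a0, mul_one]
    · rw [mul_assoc, mul_inv_cancel₀ h.a0, mul_one]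
    · simp
  have hs : Sp (dg 1 (b * a⁻¹) (b * a⁻¹)⁻¹ 1) := by
    have := sp_dg (one_ne_zero (α := k)) (mul_ne_zero h.b0 (inv_ne_zero h.a0))
    rwa [inv_one] at this
  have n1 : ‖b * a⁻¹‖ ≤ 16 := by
    rw [norm_mul, norm_inv, ← div_eq_mul_inv, div_le_iff₀ ha]
    exact h.ba
  have n2 : ‖(b * a⁻¹)⁻¹‖ ≤ 2 ^ 36 * |R| := by
    rw [mul_inv, inv_inv, norm_mul, norm_inv, mul_comm, ← div_eq_mul_inv, div_le_iff₀ hb]
    exact hab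
  have hR0 : 0 ≤ 2 ^ 36 * |R| := by positivity
  refine ⟨U * dg 1 (b * a⁻¹) (b * a⁻¹)⁻¹ 1, V, a, h.sU.mul hs, h.sV, fun i j => ?_,
    fun i j => ?_, h.a0, h.na, ?_⟩
  · have h1 := bd4 h.bU (dg_bd (a := (1 : k)) (b := b * a⁻¹) (c := (b * a⁻¹)⁻¹) (d := 1)
      (R := 17 + 2 ^ 36 * |R|) (by positivity) (by rw [norm_one]; linarith) (by linarith)
      (by linarith) (by rw [norm_one]; linarith)) i j
    linarith
  · have h1 := h.bV i j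
    nlinarith
  · rw [Matrix.mul_assoc U, ← e]
    exact h.eq

end Vale.Agent.P092.H315P
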