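import Vale.Agent.P092.H100.Gr1
import Vale.Agent.P092.H789.Sp.CapL

/-!
P092, Team P (helper315): opposite sets of points or lines of `Sp_4(k)`, raw matrices.

* `unif`: two compact sets of subspaces which pair nondegenerately under the symplectic form do
  so uniformly;
* `contract`: if the image of a vector is uniformly opposite to the attracting object of `g`, it
  is contracted at the full rate;
* `span_one`, `span_two`: the attracting point and the attracting line are the images of short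
  vectors.
-/

set_option linter.all false

namespace Vale.Agent.P092.H315P.Opp

open Matrix Module Set Topology
open Vale.Agent.P092.H100.Gr (Gr Fr sp sp_cont ch ch_mn ch_compact exists_ch li_of_mn eq_of_le)
open Vale.Agent.P092.H789.Sp.CapP (om om_le om_mul ee norm_ee mulVec_ee mulVec_le JJ
  om_add_left om_add_right om_smul_left om_smul_right om_sub_right)

section unif

variable {k : Type*} [NontriviallyNormedField k] [ProperSpace k] {j : ℕ}

/-- the pairing matrix of two frames -/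
def pm (v w : Fin j → Fin 4 → k) : Matrix (Fin j) (Fin j) k :=
  Matrix.of fun a b => om (v a) (w b)

omit [ProperSpace k] in
theorem pm_cont : Continuous fun p : (Fin j → Fin 4 → k) × (Fin j → Fin 4 → k) =>
    pm p.1 p.2 := by
  refine continuous_matrix fun a b => ?_
  change Continuous fun p : (Fin j → Fin 4 → k) × (Fin j → Fin 4 → k) => om (p.1 a) (p.2 b)
  unfold om
  fun_prop

omit [ProperSpace k] in
theorem om_sum_right (v : Fin 4 → k) (c : Fin j → k) (w : Fin j → Fin 4 → k) :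
    om v (∑ b, c b • w b) = ∑ b, c b * om v (w b) := by
  have : ∀ s : Finset (Fin j), om v (∑ b ∈ s, c b • w b) = ∑ b ∈ s, c b * om v (w b) := by
    intro s
    classical
    induction s using Finset.induction_on with
    | empty => simp [om]
    | insert a s ha ih => rw [Finset.sum_insert ha, Finset.sum_insert ha, om_add_right,
        om_smul_right, ih]
  exact this _

theorem fr_compact (I : Fin j → Fin 4) :
    IsCompact {v : Fr k (Fin 4) j | v.1 ∈ ch (k := k) I} := by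
  have h1 : IsEmbedding (fun v : Fr k (Fin 4) j => v.1) := IsEmbedding.subtypeVal
  rw [h1.isCompact_iff]
  have e : (fun v : Fr k (Fin 4) j => v.1) '' {v : Fr k (Fin 4) j | v.1 ∈ ch (k := k) I} =
      ch (k := k) I := by
    ext v
    constructor
    · rintro ⟨w, hw, rfl⟩
      exact hw
    · intro hv
      exact ⟨⟨v, li_of_mn (I := I) (by rw [ch_mn hv]; exact one_ne_zero)⟩, hv, rfl⟩
  rw [e]
  exact ch_compact I

/-- the normalised frames of the members of a closed set -/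
theorem lift_compact (I : Fin j → Fin 4) {KA : Set (Gr k (Fin 4) j)} (hA : IsClosed KA) :
    IsCompact ((fun v : Fr k (Fin 4) j => v.1) ''
      ({v : Fr k (Fin 4) j | v.1 ∈ ch (k := k) I} ∩ sp ⁻¹' KA)) :=
  ((fr_compact I).inter_right (hA.preimage sp_cont)).image continuous_subtype_val

/-- **uniform opposition** -/
theorem unif (hj : 0 < j) {KA KB : Set (Gr k (Fin 4) j)} (hA : IsClosed KA) (hB : IsClosed KB)
    (h : ∀ (I I' : Fin j → Fin 4) (v w : Fr k (Fin 4) j), v.1 ∈ ch (k := k) I →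
      w.1 ∈ ch (k := k) I' → sp v ∈ KA → sp w ∈ KB → (pm v.1 w.1).det ≠ 0) :
    ∃ δ : ℝ, 0 < δ ∧ ∀ X ∈ KA, ∀ Y ∈ KB, ∀ x ∈ Y.1, ∃ v ∈ X.1, ‖v‖ ≤ 1 ∧
      δ * ‖x‖ ≤ ‖om v x‖ := by
  classical
  have key : ∀ p : (Fin j → Fin 4) × (Fin j → Fin 4), ∃ δ C : ℝ, 0 < δ ∧ 0 ≤ C ∧
      ∀ v w : Fr k (Fin 4) j, v.1 ∈ ch (k := k) p.1 → w.1 ∈ ch (k := k) p.2 → sp v ∈ KA →
        sp w ∈ KB → δ ≤ ‖(pm v.1 w.1).det‖ ∧ ∀ a b, ‖(pm v.1 w.1).adjugate a b‖ ≤ C := by
    intro p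
    set S := ((fun v : Fr k (Fin 4) j => v.1) ''
      ({v : Fr k (Fin 4) j | v.1 ∈ ch (k := k) p.1} ∩ sp ⁻¹' KA)) ×ˢ
      ((fun v : Fr k (Fin 4) j => v.1) ''
      ({v : Fr k (Fin 4) j | v.1 ∈ ch (k := k) p.2} ∩ sp ⁻¹' KB)) with hS
    have hSc : IsCompact S := (lift_compact p.1 hA).prod (lift_compact p.2 hB)
    have hdet : Continuous fun p : (Fin j → Fin 4 → k) × (Fin j → Fin 4 → k) =>
        ‖(pm p.1 p.2).det‖ := (pm_cont.matrix_det).norm
    obtain ⟨δ, hδ, hδ1⟩ := hSc.exists_forall_le' hdet.continuousOn (a := 0) (by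
      rintro ⟨v, w⟩ ⟨⟨v', ⟨hv1, hv2⟩, rfl⟩, ⟨w', ⟨hw1, hw2⟩, rfl⟩⟩
      exact norm_pos_iff.mpr (h _ _ v' w' hv1 hw1 hv2 hw2))
    have hadj : Continuous fun p : (Fin j → Fin 4 → k) × (Fin j → Fin 4 → k) =>
        (fun a b => (pm p.1 p.2).adjugate a b : Fin j → Fin j → k) := by
      have h1 := pm_cont (k := k) (j := j) |>.matrix_adjugate
      exact continuous_pi fun a => continuous_pi fun b => h1.matrix_elem a b
    obtain ⟨C, hC⟩ := hSc.exists_bound_of_continuousOn hadj.continuousOn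
    refine ⟨δ, max C 0, hδ, le_max_right _ _, fun v w hv hw hvA hwB => ?_⟩
    have hm : (v.1, w.1) ∈ S := ⟨⟨v, ⟨hv, hvA⟩, rfl⟩, ⟨w, ⟨hw, hwB⟩, rfl⟩⟩
    refine ⟨hδ1 _ hm, fun a b => ?_⟩
    have h2 := hC _ hm
    refine ((norm_le_pi_norm _ b).trans (norm_le_pi_norm (fun a b =>
      (pm v.1 w.1).adjugate a b : Fin j → Fin j → k) a)).trans (h2.trans (le_max_left _ _))
  choose δ C hδ hC hk using key
  haveI : Nonempty (Fin j → Fin 4) := ⟨fun _ => 0⟩
  obtain ⟨p0, hp0⟩ := Finite.exists_min δ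
  obtain ⟨p1, hp1⟩ := Finite.exists_max C
  have hC1 : 0 ≤ C p1 := hC p1
  have hjr : (0 : ℝ) < j := Nat.cast_pos.mpr hj
  refine ⟨δ p0 / (j * j * C p1 + 1), by have := hδ p0; positivity, fun X hX Y hY x hx => ?_⟩
  obtain ⟨I, v, hv, rfl⟩ := exists_ch X
  obtain ⟨I', w, hw, rfl⟩ := exists_ch Y
  obtain ⟨d1, d2⟩ := hk (I, I') v w hv hw hX hY
  obtain ⟨c, hc⟩ := (Submodule.mem_span_range_iff_exists_fun k).1 hx
  have hu : ∀ a, om (v.1 a) x = (pm v.1 w.1 *ᵥ c) a := by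
    intro a
    rw [← hc, om_sum_right]
    simp only [Matrix.mulVec, dotProduct, pm, Matrix.of_apply]
    exact Finset.sum_congr rfl fun b _ => mul_comm _ _
  haveI : Nonempty (Fin j) := ⟨⟨0, hj⟩⟩
  obtain ⟨a0, ha0⟩ := Finite.exists_max fun a => ‖om (v.1 a) x‖
  set s := ‖om (v.1 a0) x‖ with hs
  have hs0 : 0 ≤ s := norm_nonneg _
  have hcb : ∀ b, δ p0 * ‖c b‖ ≤ j * (C p1 * s) := by
    intro b
    have e1 : (pm v.1 w.1).det * c b = ∑ a, (pm v.1 w.1).adjugate b a * om (v.1 a) x := by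
      have : (pm v.1 w.1).adjugate *ᵥ (pm v.1 w.1 *ᵥ c) = (pm v.1 w.1).det • c := by
        rw [Matrix.mulVec_mulVec, Matrix.adjugate_mul, Matrix.smul_mulVec, Matrix.one_mulVec]
      have h2 := congrFun this b
      rw [Pi.smul_apply, smul_eq_mul] at h2
      rw [← h2]
      simp only [Matrix.mulVec, dotProduct] at hu ⊢
      exact Finset.sum_congr rfl fun a _ => by rw [hu]
    calc δ p0 * ‖c b‖ ≤ ‖(pm v.1 w.1).det‖ * ‖c b‖ :=
          mul_le_mul_of_nonneg_right ((hp0 _).trans d1) (norm_nonneg _)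
      _ = ‖∑ a, (pm v.1 w.1).adjugate b a * om (v.1 a) x‖ := by rw [← norm_mul, e1]
      _ ≤ ∑ _a : Fin j, C p1 * s := by
          refine norm_sum_le_of_le _ fun a _ => ?_
          rw [norm_mul]
          exact mul_le_mul ((d2 b a).trans (hp1 _)) (ha0 a) (norm_nonneg _) hC1
      _ = _ := by simp
  have hxn : δ p0 * ‖x‖ ≤ j * (j * (C p1 * s)) := by
    have e2 : ‖x‖ ≤ ∑ b, ‖c b‖ := by
      rw [← hc]
      refine norm_sum_le_of_le _ fun b _ => ?_
      rw [norm_smul]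
      have : ‖w.1 b‖ ≤ 1 := (pi_norm_le_iff_of_nonneg zero_le_one).2 (hw.2 b)
      nlinarith [norm_nonneg (c b)]
    calc δ p0 * ‖x‖ ≤ δ p0 * ∑ b, ‖c b‖ := mul_le_mul_of_nonneg_left e2 (hδ p0).le
      _ = ∑ b, δ p0 * ‖c b‖ := Finset.mul_sum _ _ _
      _ ≤ ∑ _b : Fin j, j * (C p1 * s) := Finset.sum_le_sum fun b _ => hcb b
      _ = _ := by simp
  refine ⟨v.1 a0, Submodule.subset_span ⟨a0, rfl⟩,
    (pi_norm_le_iff_of_nonneg zero_le_one).2 (hv.2 a0), ?_⟩
  rw [div_mul_eq_mul_div, div_le_iff₀ (by positivity)]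
  nlinarith

end unif

section contract

variable {k : Type*} [NormedField k]

/-- **contraction at the full rate** -/
theorem contract {g Mx : Matrix (Fin 4) (Fin 4) k} {N c T δ : ℝ} (hg : gᵀ * JJ * g = JJ)
    (hN : 0 < N) (hT : 0 < T) (hc : 0 ≤ c) (hδ : 0 < δ) (hM : ∀ i j, ‖g i j - Mx i j‖ ≤ N / T)
    {v z : Fin 4 → k} (hv : ∃ u, Mx *ᵥ u = v ∧ N * ‖u‖ ≤ c * ‖v‖) (hv1 : ‖v‖ ≤ 1)
    (hz : δ * ‖g *ᵥ z‖ ≤ ‖om v (g *ᵥ z)‖) (hTc : 32 * c ≤ δ * T) :
    N * ‖g *ᵥ z‖ ≤ 8 * c / δ * ‖z‖ := by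
  obtain ⟨u, hu, hu1⟩ := hv
  have hu2 : N * ‖u‖ ≤ c := hu1.trans (by nlinarith [norm_nonneg v])
  set n := ‖g *ᵥ z‖ with hn
  have hn0 : 0 ≤ n := norm_nonneg _
  have hNT : 0 ≤ N / T := (div_pos hN hT).le
  have e1 : om v (g *ᵥ z) = om u z - om ((g - Mx) *ᵥ u) (g *ᵥ z) := by
    have : g *ᵥ u = v + (g - Mx) *ᵥ u := by rw [← hu, ← Matrix.add_mulVec, add_sub_cancel]
    rw [← om_mul hg u z, this, om_add_left]
    ring
  have e2 : ‖om u z‖ ≤ 4 * ‖u‖ * ‖z‖ := om_le _ _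
  have e3 : ‖(g - Mx) *ᵥ u‖ ≤ 4 * (N / T) * ‖u‖ := mulVec_le hNT (fun i j => hM i j) u
  have e4 : ‖om ((g - Mx) *ᵥ u) (g *ᵥ z)‖ ≤ 4 * ‖(g - Mx) *ᵥ u‖ * n := om_le _ _
  have e5 : 4 * ‖(g - Mx) *ᵥ u‖ * n ≤ 16 * (c / T) * n := by
    have : (N / T) * ‖u‖ ≤ c / T := by
      rw [div_mul_eq_mul_div]
      exact div_le_div_of_nonneg_right hu2 hT.le
    nlinarith
  have e6 : ‖om v (g *ᵥ z)‖ ≤ ‖om u z‖ + ‖om ((g - Mx) *ᵥ u) (g *ᵥ z)‖ := by
    rw [e1]
    exact norm_sub_le _ _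
  have e7 : 16 * (c / T) ≤ δ / 2 := by
    rw [← mul_div_assoc, div_le_iff₀ hT]
    linarith
  have e8 : δ / 2 * n ≤ 4 * ‖u‖ * ‖z‖ := by nlinarith
  have e9 : N * (δ / 2 * n) ≤ 4 * c * ‖z‖ := by
    calc N * (δ / 2 * n) ≤ N * (4 * ‖u‖ * ‖z‖) := mul_le_mul_of_nonneg_left e8 hN.le
      _ = 4 * (N * ‖u‖) * ‖z‖ := by ring
      _ ≤ 4 * c * ‖z‖ := by
          have := norm_nonneg z
          nlinarith
  rw [div_mul_eq_mul_div, le_div_iff₀ hδ]
  nlinarith

/-- the attracting point is the image of a short vector -/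
theorem span_one {g Mx : Matrix (Fin 4) (Fin 4) k} {N T : ℝ} (hN : 0 < N) (hT : 2 ≤ T)
    (hM : ∀ i j, ‖g i j - Mx i j‖ ≤ N / T) {i q : Fin 4} (hiq : N ≤ ‖g i q‖)
    {X : Submodule k (Fin 4 → k)} (hX : finrank k X = 1) (hMX : ∀ v, Mx *ᵥ v ∈ X)
    {v : Fin 4 → k} (hv : v ∈ X) : ∃ u, Mx *ᵥ u = v ∧ N * ‖u‖ ≤ 2 * ‖v‖ := by
  have hT0 : 0 < T := by linarith
  have h1 : N / T ≤ N / 2 := div_le_div_of_nonneg_left hN.le (by norm_num) hT
  have h2 : N / 2 ≤ ‖Mx i q‖ := by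
    have h3 : ‖g i q‖ ≤ ‖g i q - Mx i q‖ + ‖Mx i q‖ := by
      simpa using norm_add_le (g i q - Mx i q) (Mx i q)
    have := hM i q
    linarith
  have h4 : ‖Mx i q‖ ≤ ‖Mx *ᵥ ee q‖ := by
    have h40 : (Mx *ᵥ ee q) i = Mx i q := mulVec_ee _ _ _
    rw [← h40]
    exact norm_le_pi_norm (Mx *ᵥ ee q) i
  have h5 : N / 2 ≤ ‖Mx *ᵥ ee q‖ := h2.trans h4
  have h6 : (⟨Mx *ᵥ ee q, hMX _⟩ : X) ≠ 0 := by
    intro h
    have h7 : Mx *ᵥ ee q = 0 := congrArg Subtype.val h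
    rw [h7, norm_zero] at h5
    linarith
  obtain ⟨a, ha⟩ := (finrank_eq_one_iff_of_nonzero' _ h6).1 hX ⟨v, hv⟩
  have ha' : a • (Mx *ᵥ ee q) = v := congrArg Subtype.val ha
  refine ⟨a • ee q, by rw [Matrix.mulVec_smul, ha'], ?_⟩
  have h8 : ‖a • (ee q : Fin 4 → k)‖ ≤ ‖a‖ := by
    rw [norm_smul]
    have := norm_ee (k := k) q
    nlinarith [norm_nonneg a]
  have h9 : ‖v‖ = ‖a‖ * ‖Mx *ᵥ ee q‖ := by rw [← ha', norm_smul]
  rw [h9]
  nlinarith [norm_nonneg a, norm_nonneg (a • (ee q : Fin 4 → k))]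

/-- the attracting line is the image of short vectors -/
theorem span_two {g Mx : Matrix (Fin 4) (Fin 4) k} {N T R : ℝ} (hN : 0 < N) (hT : 1 ≤ T)
    (hR : 0 < R) (hTR : 12 * R ≤ T) (hup : ∀ i j, ‖g i j‖ ≤ N)
    (hM : ∀ i j, ‖g i j - Mx i j‖ ≤ N / T) {i i' p q : Fin 4}
    (hm : N ^ 2 ≤ R * ‖g i p * g i' q - g i q * g i' p‖)
    {X : Submodule k (Fin 4 → k)} (hX : finrank k X = 2) (hMX : ∀ v, Mx *ᵥ v ∈ X)
    {v : Fin 4 → k} (hv : v ∈ X) : ∃ u, Mx *ᵥ u = v ∧ N * ‖u‖ ≤ 16 * R * ‖v‖ := by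
  have hT0 : 0 < T := by linarith
  have hNT : N / T ≤ N := div_le_self hN.le hT
  have hNT0 : 0 < N / T := div_pos hN hT0
  have hMb : ∀ i j, ‖Mx i j‖ ≤ 2 * N := by
    intro i j
    have h3 : ‖Mx i j‖ ≤ ‖g i j‖ + ‖g i j - Mx i j‖ := by
      have := norm_sub_le (g i j) (g i j - Mx i j)
      simpa using this
    have := hM i j
    have := hup i j
    linarith
  -- the minor of `Mx`
  have hpr : ∀ a b c d : Fin 4, ‖g a b * g c d - Mx a b * Mx c d‖ ≤ 3 * N * (N / T) := by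
    intro a b c d
    have e : g a b * g c d - Mx a b * Mx c d =
        g a b * (g c d - Mx c d) + (g a b - Mx a b) * Mx c d := by ring
    rw [e]
    have h1 : ‖g a b * (g c d - Mx c d)‖ ≤ N * (N / T) := by
      rw [norm_mul]
      exact mul_le_mul (hup _ _) (hM _ _) (norm_nonneg _) hN.le
    have h2 : ‖(g a b - Mx a b) * Mx c d‖ ≤ (N / T) * (2 * N) := by
      rw [norm_mul]
      exact mul_le_mul (hM _ _) (hMb _ _) (norm_nonneg _) hNT0.le
    calc _ ≤ _ := norm_add_le _ _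
      _ ≤ _ := by linarith
  set D : k := Mx i p * Mx i' q - Mx i q * Mx i' p with hD
  have hDn : N ^ 2 ≤ 2 * R * ‖D‖ := by
    have e : g i p * g i' q - g i q * g i' p = D + ((g i p * g i' q - Mx i p * Mx i' q) -
        (g i q * g i' p - Mx i q * Mx i' p)) := by rw [hD]; ring
    have h1 : ‖g i p * g i' q - g i q * g i' p‖ ≤ ‖D‖ + (3 * N * (N / T) + 3 * N * (N / T)) := by
      rw [e]
      exact (norm_add_le _ _).trans (add_le_add le_rfl ((norm_sub_le _ _).trans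
        (add_le_add (hpr _ _ _ _) (hpr _ _ _ _))))
    have h2 : R * (6 * N * (N / T)) ≤ N ^ 2 / 2 := by
      have : R * (6 * N * (N / T)) = (6 * R / T) * N ^ 2 := by
        field_simp
      rw [this]
      have h3 : 6 * R / T ≤ 1 / 2 := by
        rw [div_le_iff₀ hT0]
        linarith
      nlinarith [sq_nonneg N]
    nlinarith
  have hD0 : D ≠ 0 := by
    intro h
    rw [h, norm_zero, mul_zero] at hDn
    nlinarith [sq_pos_of_pos hN]
  have hDp : 0 < ‖D‖ := norm_pos_iff.mpr hD0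
  -- the two columns span `X`
  set x := Mx *ᵥ ee p with hx
  set y := Mx *ᵥ ee q with hy
  have xi : ∀ l, x l = Mx l p := fun l => mulVec_ee _ _ _
  have yi : ∀ l, y l = Mx l q := fun l => mulVec_ee _ _ _
  have li : LinearIndependent k ![x, y] := by
    rw [LinearIndependent.pair_iff]
    intro s t hst
    have h1 : s * Mx i p + t * Mx i q = 0 := by
      have := congrFun hst i
      simpa [xi, yi] using this
    have h2 : s * Mx i' p + t * Mx i' q = 0 := by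
      have := congrFun hst i'
      simpa [xi, yi] using this
    constructor
    · have : s * D = 0 := by rw [hD]; linear_combination Mx i' q * h1 - Mx i q * h2
      exact (mul_eq_zero.1 this).resolve_right hD0
    · have : t * D = 0 := by rw [hD]; linear_combination Mx i p * h2 - Mx i' p * h1
      exact (mul_eq_zero.1 this).resolve_right hD0
  have hspan : Submodule.span k (range ![x, y]) = X := by
    refine Submodule.eq_of_le_of_finrank_eq ?_ ?_
    · rw [Submodule.span_le]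
      rintro _ ⟨l, rfl⟩
      fin_cases l
      · exact hMX _
      · exact hMX _
    · rw [finrank_span_eq_card li, hX, Fintype.card_fin]
  rw [← hspan, Submodule.mem_span_range_iff_exists_fun] at hv
  obtain ⟨c, hc⟩ := hv
  rw [Fin.sum_univ_two] at hc
  simp only [Matrix.cons_val_zero, Matrix.cons_val_one] at hc
  have v1 : v i = c 0 * Mx i p + c 1 * Mx i q := by
    rw [← hc]
    simp [xi, yi]
  have v2 : v i' = c 0 * Mx i' p + c 1 * Mx i' q := by
    rw [← hc]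
    simp [xi, yi]
  have c0 : c 0 * D = v i * Mx i' q - v i' * Mx i q := by
    rw [v1, v2, hD]
    ring
  have c1 : c 1 * D = v i' * Mx i p - v i * Mx i' p := by
    rw [v1, v2, hD]
    ring
  have bd : ∀ (a b : k) (l l' m m' : Fin 4), a * D = v l * Mx m m' - v l' * b → ‖b‖ ≤ 2 * N →
      N * ‖a‖ ≤ 8 * R * ‖v‖ := by
    intro a b l l' m m' hab hb
    have h1 : ‖a‖ * ‖D‖ ≤ 4 * N * ‖v‖ := by
      rw [← norm_mul, hab]
      have h2 : ‖v l * Mx m m'‖ ≤ ‖v‖ * (2 * N) := by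
        rw [norm_mul]
        exact mul_le_mul (norm_le_pi_norm v l) (hMb _ _) (norm_nonneg _) (norm_nonneg _)
      have h3 : ‖v l' * b‖ ≤ ‖v‖ * (2 * N) := by
        rw [norm_mul]
        exact mul_le_mul (norm_le_pi_norm v l') hb (norm_nonneg _) (norm_nonneg _)
      calc _ ≤ _ := norm_sub_le _ _
        _ ≤ _ := by linarith
    have h4 : ‖a‖ * N ^ 2 ≤ 2 * R * (4 * N * ‖v‖) := by
      calc ‖a‖ * N ^ 2 ≤ ‖a‖ * (2 * R * ‖D‖) := mul_le_mul_of_nonneg_left hDn (norm_nonneg _)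
        _ = 2 * R * (‖a‖ * ‖D‖) := by ring
        _ ≤ _ := mul_le_mul_of_nonneg_left h1 (by positivity)
    have h5 : N * (N * ‖a‖) ≤ N * (8 * R * ‖v‖) := by nlinarith
    exact le_of_mul_le_mul_left h5 hN
  have b0 := bd (c 0) (Mx i q) i i' i' q c0 (hMb _ _)
  have b1 := bd (c 1) (Mx i' p) i' i i p c1 (hMb _ _)
  refine ⟨c 0 • ee p + c 1 • ee q, ?_, ?_⟩
  · rw [Matrix.mulVec_add, Matrix.mulVec_smul, Matrix.mulVec_smul]
    exact hc
  · have h1 : ‖c 0 • (ee p : Fin 4 → k) + c 1 • ee q‖ ≤ ‖c 0‖ + ‖c 1‖ := by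
      refine (norm_add_le _ _).trans ?_
      rw [norm_smul, norm_smul]
      have := norm_ee (k := k) p
      have := norm_ee (k := k) q
      nlinarith [norm_nonneg (c 0), norm_nonneg (c 1)]
    nlinarith

end contract

end Vale.Agent.P092.H315P.Opp
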