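import Vale.Agent.P092.SP.Defs
import Vale.Agent.P092.H315P.OppA
import Vale.Agent.P092.H315P.Kak2

/-!
P092, Team P (helper315): the counts of `(R)` for opposite sets, both target types, in the
letters of `SP.Defs`.

* `count`: elements of `Γ` of logarithmic size at most `J` such that two of comparable size
  differ by a bounded element: at most `C (1 + J)`;
* `cap1`, `cap2`: the hypothesis `hcap` of `H306.Pu.ropp` for points and for lines;
* `shell`: a neighbourhood of the support whose closure is still opposite.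
-/

set_option linter.all false

open Matrix Module Set Topology TopologicalSpace
open scoped LinearAlgebra.Projectivization

namespace Vale.Agent.P092.H315P.Opp

open Vale.Agent.P092.H100.Gr (Gr Fr sp ch eq_of_le)
open Vale.Agent.P092.H644.Gr3 (p1 p1_mk)
open Vale.Agent.P092.H789.Sp.CapP (om_self JJ ee norm_ee mulVec_ee mulVec_le NW cap_pt)
open Vale.Agent.P092.H789.Sp.CapL (cap_ln mem_of_perp)
open Vale.Agent.P092.H337.NG (en mi en_le_of m2_le_of entry_le mi_le)
open Vale.Agent.P092.RC (YY)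
open Vale.Agent.P092.SP4 (S4 LL J4 on prp prp_mk on_mk on_iff mem_S4 mem_S4')
open Vale.Agent.P092.SP (NW1 NW2 Att1 Att2 NA1 NA2 UD opp1 opp2)

section small

variable {k : Type} [NontriviallyNormedField k]

theorem nm_eq (h : S4 k) : SP.nm h = en h.1.1 := rfl

theorem m2_eq (h : S4 k) : SP.m2 h = H337.NG.m2 h.1.1 := rfl

theorem sp_of (h : S4 k) : Sp h.1.1 := mem_S4.1 h.2

theorem jj_of (h : S4 k) : (h.1.1)ᵀ * JJ * h.1.1 = JJ := mem_S4'.1 h.2

theorem om_eq' (x y : Fin 4 → k) : SP4.om x y = H789.Sp.CapP.om x y := SP4.om_eq x y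

theorem exists_entry {n : ℕ} (A : Matrix (Fin (n + 1)) (Fin (n + 1)) k) :
    ∃ i j, en A ≤ ‖A i j‖ := by
  obtain ⟨⟨i, j⟩, hij⟩ := Finite.exists_max
    fun p : Fin (n + 1) × Fin (n + 1) => ‖A p.1 p.2‖
  exact ⟨i, j, en_le_of (norm_nonneg _) fun a b => hij (a, b)⟩

theorem exists_minor {n : ℕ} (A : Matrix (Fin (n + 1)) (Fin (n + 1)) k) :
    ∃ i i' j j', H337.NG.m2 A ≤ ‖mi A i i' j j'‖ := by
  obtain ⟨⟨⟨i, i'⟩, ⟨j, j'⟩⟩, hij⟩ := Finite.exists_max
    fun p : (Fin (n + 1) × Fin (n + 1)) × (Fin (n + 1) × Fin (n + 1)) =>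
      ‖mi A p.1.1 p.1.2 p.2.1 p.2.2‖
  exact ⟨i, i', j, j', m2_le_of (norm_nonneg _) fun a b c d => hij ((a, b), (c, d))⟩

theorem nm_ge (h : S4 k) : 1 / 32 ≤ SP.nm h := by
  have h1 : 1 ≤ 512 * en h.1.1 ^ 2 := one_le_en (sp_of h)
  have h2 : 0 ≤ en h.1.1 := H337.NG.en_nonneg _
  rw [nm_eq]
  by_contra hc
  push Not at hc
  nlinarith

theorem nm_pos (h : S4 k) : 0 < SP.nm h := lt_of_lt_of_le (by norm_num) (nm_ge h)

theorem log_ge (h : S4 k) : -4 ≤ Real.log (SP.nm h) := by
  have h1 : Real.log (1 / 32) ≤ Real.log (SP.nm h) := Real.log_le_log (by norm_num) (nm_ge h)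
  have h2 : Real.log (1 / 32) = -(5 * Real.log 2) := by
    rw [one_div, Real.log_inv, show (32 : ℝ) = 2 ^ 5 by norm_num, Real.log_pow]
    norm_num
  have h3 := Real.log_two_lt_d9
  linarith

/-- **the count** -/
theorem count {Γ : Type} {q : Γ → S4 k} (hud : UD q) (C₁ : ℝ) : ∃ C : ℝ, ∀ J : ℝ, 0 ≤ J →
    ∀ S : Finset Γ, (∀ γ ∈ S, Real.log (SP.nm (q γ)) ≤ J) →
      (∀ γ ∈ S, ∀ γ' ∈ S, SP.nm (q γ) ≤ 3 * SP.nm (q γ') → SP.nm (q γ') ≤ 3 * SP.nm (q γ) →
        SP.nm (q γ' * (q γ)⁻¹) ≤ C₁) → (S.card : ℝ) ≤ C * (1 + J) ^ 1 := by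
  classical
  obtain ⟨M, hM⟩ := hud C₁
  refine ⟨5 * M, fun J hJ S hS hS' => ?_⟩
  set f : Γ → ℤ := fun γ => ⌊Real.log (SP.nm (q γ))⌋ with hf
  have h1 : S.card ≤ M * (S.image f).card := by
    refine Finset.card_le_mul_card_image S M fun a ha => ?_
    refine hM _ (fun _ _ => mem_univ _) fun γ hγ γ' hγ' => ?_
    obtain ⟨g1, g2⟩ := Finset.mem_filter.1 hγ
    obtain ⟨g1', g2'⟩ := Finset.mem_filter.1 hγ'
    have e1 := Int.floor_le (Real.log (SP.nm (q γ)))
    have e2 := Int.lt_floor_add_one (Real.log (SP.nm (q γ)))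
    have e1' := Int.floor_le (Real.log (SP.nm (q γ')))
    have e2' := Int.lt_floor_add_one (Real.log (SP.nm (q γ')))
    rw [hf] at g2 g2'
    simp only at g2 g2'
    rw [g2] at e1 e2
    rw [g2'] at e1' e2'
    have key : ∀ x y : ℝ, 0 < x → 0 < y → Real.log x ≤ Real.log y + 1 → x ≤ 3 * y := by
      intro x y hx hy hxy
      have h3 : Real.log x ≤ Real.log (Real.exp 1 * y) := by
        rw [Real.log_mul (Real.exp_ne_zero _) hy.ne', Real.log_exp]
        linarith
      have h4 : x ≤ Real.exp 1 * y := (Real.log_le_log_iff hx (by positivity)).1 h3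
      have h5 := Real.exp_one_lt_d9
      nlinarith
    exact hS' γ g1 γ' g1' (key _ _ (nm_pos _) (nm_pos _) (by linarith))
      (key _ _ (nm_pos _) (nm_pos _) (by linarith))
  have h2 : (S.image f).card ≤ (Finset.Icc (-4) ⌊J⌋).card := by
    refine Finset.card_le_card fun a ha => ?_
    obtain ⟨γ, hγ, rfl⟩ := Finset.mem_image.1 ha
    refine Finset.mem_Icc.2 ⟨?_, Int.floor_le_floor (hS γ hγ)⟩
    refine Int.le_floor.2 ?_
    have := log_ge (q γ)
    push_cast
    linarith
  have hJ0 : 0 ≤ ⌊J⌋ := Int.floor_nonneg.2 hJ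
  have h3 : ((Finset.Icc (-4) ⌊J⌋).card : ℝ) ≤ 5 * (1 + J) := by
    rw [Int.card_Icc]
    have e : ((⌊J⌋ + 1 - -4).toNat : ℤ) = ⌊J⌋ + 5 := by
      rw [Int.toNat_of_nonneg (by omega)]
      ring
    have e' : ((⌊J⌋ + 1 - -4).toNat : ℝ) = ((⌊J⌋ + 5 : ℤ) : ℝ) := by
      rw [← e]
      norm_cast
    rw [e']
    push_cast
    have := Int.floor_le J
    linarith
  have h4 : (S.card : ℝ) ≤ M * ((Finset.Icc (-4) ⌊J⌋).card : ℝ) := by
    exact_mod_cast h1.trans (Nat.mul_le_mul_left M h2)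
  rw [pow_one]
  have hM0 : (0 : ℝ) ≤ M := Nat.cast_nonneg M
  calc (S.card : ℝ) ≤ M * (5 * (1 + J)) := h4.trans (mul_le_mul_of_nonneg_left h3 hM0)
    _ = _ := by ring

end small

section pts

variable {k : Type} [NontriviallyNormedField k] [ProperSpace k]

omit [ProperSpace k] in
/-- a line through two orthogonal points -/
theorem exists_line {x y : YY k 3} (h : prp x y) : ∃ l : LL k, on x l ∧ on y l := by
  induction x using Projectivization.ind with
  | h v hv =>
  induction y using Projectivization.ind with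
  | h w hw =>
  rw [prp_mk] at h
  -- a second vector
  obtain ⟨u, hu, hvu, hwu⟩ : ∃ u : Fin 4 → k, LinearIndependent k ![v, u] ∧ SP4.om v u = 0 ∧
      w ∈ Submodule.span k (range ![v, u]) := by
    by_cases hli : LinearIndependent k ![v, w]
    · exact ⟨w, hli, h, Submodule.subset_span ⟨1, rfl⟩⟩
    · -- `w` is a multiple of `v`
      have hwv : ∃ c : k, w = c • v := by
        rw [LinearIndependent.pair_iff' hv] at hli
        push Not at hli
        obtain ⟨c, hc⟩ := hli
        exact ⟨c, hc.symm⟩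
      obtain ⟨c, rfl⟩ := hwv
      -- the orthogonal of `v` has dimension three
      obtain ⟨i, hi⟩ : ∃ i, v i ≠ 0 := Function.ne_iff.1 hv
      -- choose two basis vectors different from the pivot
      have hcand : ∃ u : Fin 4 → k, u i = 0 ∧ u ≠ 0 ∧ SP4.om v u = 0 := by
        obtain ⟨a, b, hab, hai, hbi⟩ : ∃ a b : Fin 4, a ≠ b ∧ a ≠ i ∧ b ≠ i := by
          fin_cases i
          · exact ⟨1, 2, by decide, by decide, by decide⟩
          · exact ⟨0, 2, by decide, by decide, by decide⟩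
          · exact ⟨0, 1, by decide, by decide, by decide⟩
          · exact ⟨0, 1, by decide, by decide, by decide⟩
        by_cases h0 : SP4.om v (Pi.single a 1) = 0
        · exact ⟨Pi.single a 1, by rw [Pi.single_eq_of_ne hai.symm], by simp, h0⟩
        · refine ⟨SP4.om v (Pi.single b 1) • Pi.single a 1 - SP4.om v (Pi.single a 1) •
            Pi.single b 1, ?_, ?_, ?_⟩
          · simp [Pi.single_eq_of_ne hai.symm, Pi.single_eq_of_ne hbi.symm]
          · intro h1
            have h2 := congrFun h1 b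
            simp [Pi.single_eq_of_ne hab.symm] at h2
            exact h0 h2
          · rw [sub_eq_add_neg, ← neg_smul, SP4.om_add_right, SP4.om_smul_right,
              SP4.om_smul_right]
            ring
      obtain ⟨u, hui, hu0, hvu⟩ := hcand
      refine ⟨u, ?_, hvu, Submodule.smul_mem _ _ (Submodule.subset_span ⟨0, rfl⟩)⟩
      rw [LinearIndependent.pair_iff]
      intro s t hst
      have h1 := congrFun hst i
      simp [hui] at h1
      have hs : s = 0 := h1.resolve_right hi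
      rw [hs, zero_smul, zero_add] at hst
      exact ⟨hs, (smul_eq_zero.1 hst).resolve_right hu0⟩
  have hiso : ∀ x ∈ Submodule.span k (range ![v, u]), ∀ y ∈ Submodule.span k (range ![v, u]),
      SP4.om x y = 0 := by
    intro x hx y hy
    rw [Submodule.mem_span_range_iff_exists_fun] at hx hy
    obtain ⟨c, rfl⟩ := hx
    obtain ⟨d, rfl⟩ := hy
    rw [Fin.sum_univ_two, Fin.sum_univ_two]
    change SP4.om (c 0 • v + c 1 • u) (d 0 • v + d 1 • u) = 0
    rw [SP4.om_add_left, SP4.om_add_right, SP4.om_add_right, SP4.om_smul_left, SP4.om_smul_left,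
      SP4.om_smul_left, SP4.om_smul_left, SP4.om_smul_right, SP4.om_smul_right,
      SP4.om_smul_right, SP4.om_smul_right, SP4.om_self, SP4.om_self, SP4.om_swap v u, hvu]
    ring
  refine ⟨⟨⟨Submodule.span k (range ![v, u]), ?_⟩, hiso⟩, ?_, ?_⟩
  · rw [finrank_span_eq_card hu, Fintype.card_fin]
  · exact (on_mk hv).2 (Submodule.subset_span ⟨0, rfl⟩)
  · exact (on_mk hw).2 hwu

omit [ProperSpace k] in
theorem not_prp {x y : YY k 3} (h : opp1 x y) : ¬ prp x y := fun hp => by
  obtain ⟨l, h1, h2⟩ := exists_line hp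
  exact h l h1 h2

omit [ProperSpace k] in
theorem opp1_of {x y : YY k 3} (h : ¬ prp x y) : opp1 x y := fun l h1 h2 =>
  h (SP4.prp_of_on h1 h2)

/-- uniform opposition of points -/
theorem unif1 {A B : Set (YY k 3)} (hB : IsClosed B)
    (hAB : ∀ x ∈ closure A, ∀ y ∈ B, ¬ prp x y) : ∃ δ : ℝ, 0 < δ ∧
      ∀ (v w : Fin 4 → k) (hv : v ≠ 0) (hw : w ≠ 0), Projectivization.mk k v hv ∈ A →
        Projectivization.mk k w hw ∈ B → ∃ v' ∈ Submodule.span k {v}, ‖v'‖ ≤ 1 ∧
          δ * ‖w‖ ≤ ‖H789.Sp.CapP.om v' w‖ := by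
  have hcl : ∀ {K : Set (YY k 3)}, IsClosed K → IsClosed (p1 '' K) := fun hK =>
    (H644.Gr3.p1H (k := k)).isClosedMap _ hK
  obtain ⟨δ, hδ, h⟩ := unif (k := k) (j := 1) one_pos (hcl isClosed_closure) (hcl hB) (by
    rintro - - v w - - ⟨x, hx, hxv⟩ ⟨y, hy, hyw⟩
    rw [Matrix.det_fin_one]
    change H789.Sp.CapP.om (v.1 0) (w.1 0) ≠ 0
    have hv0 : v.1 0 ≠ 0 := v.2.ne_zero 0
    have hw0 : w.1 0 ≠ 0 := w.2.ne_zero 0
    have hvx : x = Projectivization.mk k (v.1 0) hv0 := by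
      refine H644.Gr3.p1_inj ?_
      rw [hxv]
      refine Subtype.ext ?_
      rw [p1_mk]
      change Submodule.span k (range v.1) = _
      congr 1
      ext z
      constructor
      · rintro ⟨l, rfl⟩
        rw [Subsingleton.elim l 0]
        rfl
      · rintro rfl
        exact ⟨0, rfl⟩
    have hwy : y = Projectivization.mk k (w.1 0) hw0 := by
      refine H644.Gr3.p1_inj ?_
      rw [hyw]
      refine Subtype.ext ?_
      rw [p1_mk]
      change Submodule.span k (range w.1) = _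
      congr 1
      ext z
      constructor
      · rintro ⟨l, rfl⟩
        rw [Subsingleton.elim l 0]
        rfl
      · rintro rfl
        exact ⟨0, rfl⟩
    have := hAB x hx y hy
    rw [hvx, hwy, prp_mk, om_eq'] at this
    exact this)
  refine ⟨δ, hδ, fun v w hv hw hvA hwB => ?_⟩
  obtain ⟨v', h1, h2, h3⟩ := h _ ⟨_, subset_closure hvA, rfl⟩ _ ⟨_, hwB, rfl⟩ w
    (by rw [p1_mk]; exact Submodule.mem_span_singleton_self w)
  rw [p1_mk] at h1
  exact ⟨v', h1, h2, h3⟩

/-- **the capacity of points**, `hcap` of `H306.Pu.ropp` for `NA1`. -/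
theorem cap1 {Γ : Type} {q : Γ → S4 k} (hud : UD q) {A B : Set (YY k 3)} (hB : IsClosed B)
    (hAB : ∀ x ∈ closure A, ∀ y ∈ B, ¬ prp x y) (R : ℝ) : ∃ T > 0, ∃ C : ℝ, ∀ J : ℝ, 0 ≤ J →
      ∀ S : Finset Γ, (∀ γ ∈ S, γ ∈ NA1 q R T A ∧ Real.log (SP.nm (q γ)) ≤ J) →
        ∀ y : YY k 3, (∀ γ ∈ S, q γ • y ∈ B) → (S.card : ℝ) ≤ C * (1 + J) ^ 1 := by
  obtain ⟨δ, hδ, hu⟩ := unif1 hB hAB
  set T : ℝ := 2 + 64 / δ with hT
  have hT2 : 2 ≤ T := by
    have : 0 < 64 / δ := by positivity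
    linarith
  have hT0 : 0 < T := by linarith
  have hTc : 32 * 2 ≤ δ * T := by
    rw [hT, mul_add, mul_div_cancel₀ _ hδ.ne']
    nlinarith
  set C₀ : ℝ := 3 + |R| + 16 / δ with hC₀
  have hC1 : 1 ≤ C₀ := by
    have : 0 < 16 / δ := by positivity
    have := abs_nonneg R
    linarith
  obtain ⟨C, hC⟩ := count hud (2464 * C₀ ^ 9)
  refine ⟨T, hT0, C, fun J hJ S hS y hy => ?_⟩
  refine hC J hJ S (fun γ hγ => (hS γ hγ).2) ?_
  induction y using Projectivization.ind with
  | h x hx =>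
  -- contraction
  have key : ∀ γ ∈ S, NW C₀ (SP.nm (q γ)) (q γ).1.1 ∧
      SP.nm (q γ) * ‖(q γ).1.1 *ᵥ x‖ ≤ C₀ * ‖x‖ := by
    intro γ hγ
    obtain ⟨⟨hnw, v, φ, hv, hvA, hvφ⟩, -⟩ := hS γ hγ
    have hN : 0 < SP.nm (q γ) := nm_pos _
    obtain ⟨i, p, hip⟩ := exists_entry (q γ).1.1
    refine ⟨⟨jj_of _, fun a b => entry_le _ _ _, ⟨i, p, ?_⟩, fun a b c d => ?_⟩, ?_⟩
    · rw [nm_eq]
      have := norm_nonneg ((q γ).1.1 i p)
      nlinarith
    · have h1 := mi_le (q γ).1.1 a b c d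
      have h2 : mi (q γ).1.1 a b c d =
          (q γ).1.1 a c * (q γ).1.1 b d - (q γ).1.1 a d * (q γ).1.1 b c := by
        unfold mi
        ring
      rw [h2] at h1
      refine h1.trans (hnw.trans ?_)
      refine mul_le_mul_of_nonneg_right ?_ hN.le
      have := le_abs_self R
      have : 0 < 16 / δ := by positivity
      linarith
    · have hgx : (q γ).1.1 *ᵥ x ≠ 0 := by
        intro h0
        have h1 : ((q γ)⁻¹).1.1 *ᵥ ((q γ).1.1 *ᵥ x) = x := by
          rw [Matrix.mulVec_mulVec]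
          have : ((q γ)⁻¹).1.1 * (q γ).1.1 = 1 := congrArg (fun g : S4 k => g.1.1)
            (inv_mul_cancel (q γ))
          rw [this, Matrix.one_mulVec]
        rw [h0, Matrix.mulVec_zero] at h1
        exact hx h1.symm
      have hyB := hy γ hγ
      have e : q γ • Projectivization.mk k x hx = Projectivization.mk k ((q γ).1.1 *ᵥ x) hgx := by
        rw [SP4.smul_YY, Projectivization.smul_mk]
        rfl
      rw [e] at hyB
      obtain ⟨v', h1, h2, h3⟩ := hu v _ hv hgx hvA hyB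
      have hM : ∀ a b, ‖(q γ).1.1 a b - Matrix.vecMulVec v φ a b‖ ≤ SP.nm (q γ) / T := by
        intro a b
        rw [Matrix.vecMulVec_apply]
        exact hvφ a b
      have hspan := span_one hN hT2 hM hip (finrank_span_singleton hv)
        (X := Submodule.span k {v}) (fun u => by
          have : Matrix.vecMulVec v φ *ᵥ u = (φ ⬝ᵥ u) • v := by
            ext a
            simp only [Matrix.mulVec, dotProduct, Matrix.vecMulVec_apply, Pi.smul_apply,
              smul_eq_mul, Finset.sum_mul]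
            exact Finset.sum_congr rfl fun b _ => by ring
          rw [this]
          exact Submodule.smul_mem _ _ (Submodule.mem_span_singleton_self v)) h1
      have h4 := contract (jj_of (q γ)) hN hT0 (by norm_num : (0 : ℝ) ≤ 2) hδ hM hspan h2 h3 hTc
      refine h4.trans (mul_le_mul_of_nonneg_right ?_ (norm_nonneg _))
      have := abs_nonneg R
      have : 8 * 2 / δ = 16 / δ := by norm_num
      linarith
  intro γ hγ γ' hγ' h1 h2
  obtain ⟨k1, k2⟩ := key γ hγ
  obtain ⟨k1', k2'⟩ := key γ' hγ'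
  have h3 : 3 ≤ C₀ := by
    have : 0 < 16 / δ := by positivity
    have := abs_nonneg R
    linarith
  rw [nm_eq]
  refine en_le_of (by positivity) fun a b => ?_
  exact cap_pt hC1 (nm_pos (q γ)) (nm_pos (q γ')) k1 k1'
    (h1.trans (mul_le_mul_of_nonneg_right h3 (nm_pos _).le))
    (h2.trans (mul_le_mul_of_nonneg_right h3 (nm_pos _).le)) hx k2 k2'
    (g' := ((q γ)⁻¹).1.1) (congrArg (fun g : S4 k => g.1.1) (mul_inv_cancel (q γ))) a b

end pts

end Vale.Agent.P092.H315P.Opp
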