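import Vale.Agent.P092.H315P.OppB

/-!
P092, Team P (helper315): the counts of `(R)` for opposite sets of lines, in the letters of
`SP.Defs`.
-/

set_option linter.all false

open Matrix Module Set Topology TopologicalSpace
open scoped LinearAlgebra.Projectivization

namespace Vale.Agent.P092.H315P.Opp

open Vale.Agent.P092.H100.Gr (Gr Fr sp ch eq_of_le)
open Vale.Agent.P092.H789.Sp.CapP (om_self JJ ee norm_ee mulVec_ee mulVec_le)
open Vale.Agent.P092.H789.Sp.CapL (cap_ln mem_of_perp)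
open Vale.Agent.P092.H337.NG (en mi en_le_of m2_le_of entry_le mi_le)
open Vale.Agent.P092.RC (YY)
open Vale.Agent.P092.SP4 (S4 LL J4 on prp prp_mk on_mk on_iff mem_S4 mem_S4' LL_closed)
open Vale.Agent.P092.SP (NW1 NW2 Att1 Att2 NA1 NA2 UD opp1 opp2)

section lns

variable {k : Type} [NontriviallyNormedField k] [ProperSpace k]

omit [ProperSpace k] in
/-- the lines are a closed subset of the Grassmannian -/
theorem val_closed {K : Set (LL k)} (hK : IsClosed K) :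
    IsClosed ((fun l : LL k => (l.1 : Gr k (Fin 4) 2)) '' K) :=
  ((LL_closed (k := k)).isClosedEmbedding_subtypeVal).isClosedMap K hK

omit [ProperSpace k] in
/-- opposite lines meet in zero -/
theorem opp2_zero {l l' : LL k} (h : opp2 l l') {x : Fin 4 → k} (h1 : x ∈ l.1.1)
    (h2 : x ∈ l'.1.1) : x = 0 := by
  by_contra hx
  exact h (Projectivization.mk k x hx) ((on_mk hx).2 h1) ((on_mk hx).2 h2)

/-- uniform opposition of lines -/
theorem unif2 {A B : Set (LL k)} (hB : IsClosed B)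
    (hAB : ∀ x ∈ closure A, ∀ y ∈ B, opp2 x y) : ∃ δ : ℝ, 0 < δ ∧
      ∀ X ∈ A, ∀ Y ∈ B, ∀ x ∈ Y.1.1, ∃ v ∈ X.1.1, ‖v‖ ≤ 1 ∧
          δ * ‖x‖ ≤ ‖H789.Sp.CapP.om v x‖ := by
  obtain ⟨δ, hδ, h⟩ := unif (k := k) (j := 2) two_pos (val_closed isClosed_closure)
    (val_closed hB) (by
    rintro I I' v w hv hw ⟨x, hx, hxv⟩ ⟨y, hy, hyw⟩ h0
    simp only at hxv hyw
    obtain ⟨c, hc0, hc⟩ := Matrix.exists_mulVec_eq_zero_iff.2 h0
    set z : Fin 4 → k := ∑ b, c b • w.1 b with hz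
    have hz0 : z ≠ 0 := by
      intro h1
      refine hc0 (funext fun b => ?_)
      exact Fintype.linearIndependent_iff.1 w.2 c h1 b
    have hzy : z ∈ y.1.1 := by
      rw [hyw]
      exact Submodule.sum_mem _ fun b _ => Submodule.smul_mem _ _
        (Submodule.subset_span ⟨b, rfl⟩)
    have ho : ∀ a, H789.Sp.CapP.om (v.1 a) z = 0 := by
      intro a
      rw [hz, om_sum_right]
      have h2 := congrFun hc a
      simp only [Matrix.mulVec, dotProduct, pm, Matrix.of_apply, Pi.zero_apply] at h2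
      rw [← h2]
      exact Finset.sum_congr rfl fun b _ => mul_comm _ _
    have hm : ∀ a, v.1 a ∈ x.1.1 := by
      intro a
      rw [hxv]
      exact Submodule.subset_span ⟨a, rfl⟩
    have e00 : v.1 0 (I 0) = 1 := by rw [hv.1]; simp
    have e01 : v.1 0 (I 1) = 0 := by rw [hv.1]; simp
    have e10 : v.1 1 (I 0) = 0 := by rw [hv.1]; simp
    have e11 : v.1 1 (I 1) = 1 := by rw [hv.1]; simp
    have hI : I 0 ≠ I 1 := by
      intro h1
      rw [h1, e01] at e00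
      exact zero_ne_one e00
    have hxy : H789.Sp.CapP.om (v.1 0) (v.1 1) = 0 := by
      rw [← om_eq']
      exact x.2 _ (hm 0) _ (hm 1)
    have h3 := mem_of_perp hI e00 e01 e10 e11 hxy (ho 0) (ho 1)
    refine hz0 (opp2_zero (hAB x hx y hy) ?_ hzy)
    rw [h3]
    exact Submodule.add_mem _ (Submodule.smul_mem _ _ (hm 0)) (Submodule.smul_mem _ _ (hm 1)))
  exact ⟨δ, hδ, fun X hX Y hY x hx => h _ ⟨X, subset_closure hX, rfl⟩ _ ⟨Y, hY, rfl⟩ x hx⟩

/-- **the capacity of lines**, `hcap` of `H306.Pu.ropp` for `NA2`. -/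
theorem cap2 {Γ : Type} {q : Γ → S4 k} (hud : UD q) {A B : Set (LL k)} (hB : IsClosed B)
    (hAB : ∀ x ∈ closure A, ∀ y ∈ B, opp2 x y) (R : ℝ) : ∃ T > 0, ∃ C : ℝ, ∀ J : ℝ, 0 ≤ J →
      ∀ S : Finset Γ, (∀ γ ∈ S, γ ∈ NA2 q R T A ∧ Real.log (SP.nm (q γ)) ≤ J) →
        ∀ y : LL k, (∀ γ ∈ S, q γ • y ∈ B) → (S.card : ℝ) ≤ C * (1 + J) ^ 1 := by
  obtain ⟨δ, hδ, hu⟩ := unif2 hB hAB
  set R' : ℝ := |R| + 1 with hR'
  have hR0 : 0 < R' := by
    have := abs_nonneg R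
    linarith
  set T : ℝ := 1 + 12 * R' + 512 * R' / δ with hT
  have hq : 0 < 512 * R' / δ := by positivity
  have hT1 : 1 ≤ T := by linarith
  have hT0 : 0 < T := by linarith
  have hTR : 12 * R' ≤ T := by linarith
  have hTc : 32 * (16 * R') ≤ δ * T := by
    have e : δ * T = δ * (1 + 12 * R') + 512 * R' := by
      rw [hT]
      field_simp
    rw [e]
    have : 0 ≤ δ * (1 + 12 * R') := by positivity
    linarith
  set C₀ : ℝ := 3 + 8 * (16 * R') / δ with hC₀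
  have hq' : 0 < 8 * (16 * R') / δ := by positivity
  have hC1 : 1 ≤ C₀ := by linarith
  obtain ⟨C, hC⟩ := count hud (44 * C₀ ^ 3)
  refine ⟨T, hT0, C, fun J hJ S hS y hy => ?_⟩
  refine hC J hJ S (fun γ hγ => (hS γ hγ).2) ?_
  -- contraction
  have key : ∀ γ ∈ S, ∀ z ∈ y.1.1, SP.nm (q γ) * ‖(q γ).1.1 *ᵥ z‖ ≤ C₀ * ‖z‖ := by
    intro γ hγ z hz
    obtain ⟨⟨hnw, X, hX, Mx, hMX, hM⟩, -⟩ := hS γ hγ
    have hN : 0 < SP.nm (q γ) := nm_pos _
    obtain ⟨i, i', j, j', hm⟩ := exists_minor (q γ).1.1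
    have hm0 : 0 ≤ H337.NG.m2 (q γ).1.1 := H337.NG.m2_nonneg _
    have hm' : SP.nm (q γ) ^ 2 ≤ R' * ‖(q γ).1.1 i j * (q γ).1.1 i' j' -
        (q γ).1.1 i j' * (q γ).1.1 i' j‖ := by
      have h2 : mi (q γ).1.1 i i' j j' =
          (q γ).1.1 i j * (q γ).1.1 i' j' - (q γ).1.1 i j' * (q γ).1.1 i' j := by
        unfold mi
        ring
      rw [h2] at hm
      have h3 : R * H337.NG.m2 (q γ).1.1 ≤ R' * H337.NG.m2 (q γ).1.1 := by
        refine mul_le_mul_of_nonneg_right ?_ hm0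
        have := le_abs_self R
        linarith
      exact (hnw.trans h3).trans (mul_le_mul_of_nonneg_left hm hR0.le)
    have hgz : (q γ).1.1 *ᵥ z ∈ (q γ • y).1.1 := by
      rw [SP4.smul_LL, H100.Gr.smul_val]
      exact ⟨z, hz, rfl⟩
    obtain ⟨v, hv, hv1, hvz⟩ := hu X hX _ (hy γ hγ) _ hgz
    have hup : ∀ a b, ‖(q γ).1.1 a b‖ ≤ SP.nm (q γ) := fun a b => entry_le _ _ _
    have hspan := span_two hN hT1 hR0 hTR hup hM hm' X.1.2 hMX hv
    have h4 := contract (jj_of (q γ)) hN hT0 (by positivity) hδ hM hspan hv1 hvz hTc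
    refine h4.trans (mul_le_mul_of_nonneg_right ?_ (norm_nonneg _))
    linarith
  intro γ hγ γ' hγ' h1 h2
  have h3 : 3 ≤ C₀ := by linarith
  have hcl := cap_ln (g := (q γ).1.1) (h := (q γ').1.1) hC1 (nm_pos (q γ)) (nm_pos (q γ'))
    (jj_of (q γ)) (fun a b => entry_le _ _ _) (fun a b => entry_le _ _ _)
    (h1.trans (mul_le_mul_of_nonneg_right h3 (nm_pos _).le))
    (h2.trans (mul_le_mul_of_nonneg_right h3 (nm_pos _).le)) y.1.2
    (fun x hx y' hy' => by rw [← om_eq']; exact y.2 x hx y' hy') (key γ hγ) (key γ' hγ')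
  rw [nm_eq]
  refine en_le_of (by positivity) fun a b => ?_
  have e1 : (q γ' * (q γ)⁻¹).1.1 a b = ((q γ').1.1 *ᵥ (((q γ)⁻¹).1.1 *ᵥ ee b)) a := by
    rw [Matrix.mulVec_mulVec]
    exact (mulVec_ee ((q γ').1.1 * ((q γ)⁻¹).1.1) b a).symm
  have e2 : (q γ).1.1 *ᵥ (((q γ)⁻¹).1.1 *ᵥ ee b) = ee b := by
    have e3 : (q γ).1.1 * ((q γ)⁻¹).1.1 = 1 :=
      congrArg (fun g : S4 k => g.1.1) (mul_inv_cancel (q γ))
    rw [Matrix.mulVec_mulVec, e3, Matrix.one_mulVec]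
  rw [e1]
  refine (norm_le_pi_norm _ a).trans ((hcl _).trans ?_)
  rw [e2]
  have := norm_ee (k := k) b
  have h5 : 0 ≤ 44 * C₀ ^ 3 := by positivity
  nlinarith

end lns

end Vale.Agent.P092.H315P.Opp
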