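import Vale.Agent.P092.H315P.OppC

/-!
P092, Team P (helper315): the contraction lemmas `loc1`, `loc2` and the bounded shells `shell1`,
`shell2` behind `cap1`, `cap2`, as separate statements.
-/

set_option linter.all false

open Matrix Module Set Topology TopologicalSpace
open scoped LinearAlgebra.Projectivization

namespace Vale.Agent.P092.H315P.Opp

open Vale.Agent.P092.H100.Gr (Gr Fr sp ch eq_of_le)
open Vale.Agent.P092.H789.Sp.CapP (om_self JJ ee norm_ee mulVec_ee mulVec_le NW cap_pt)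
open Vale.Agent.P092.H789.Sp.CapL (cap_ln mem_of_perp)
open Vale.Agent.P092.H337.NG (en mi en_le_of m2_le_of entry_le mi_le)
open Vale.Agent.P092.RC (YY)
open Vale.Agent.P092.SP4 (S4 LL J4 on prp prp_mk on_mk on_iff mem_S4 mem_S4' LL_closed)
open Vale.Agent.P092.SP (NW1 NW2 Att1 Att2 NA1 NA2 UD opp1 opp2)

section loc

variable {k : Type} [NontriviallyNormedField k] [ProperSpace k]

/-- near-wall elements whose attracting point is in `A` contract the points moved into a set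
opposite to `A` at the full rate -/
theorem loc1 {A B : Set (YY k 3)} (hB : IsClosed B)
    (hAB : ∀ x ∈ closure A, ∀ y ∈ B, ¬ prp x y) : ∃ T > 0, ∃ C : ℝ, 1 ≤ C ∧ ∀ g : S4 k,
      Att1 T A g → ∀ (x : Fin 4 → k) (hx : x ≠ 0), g • (Projectivization.mk k x hx : YY k 3) ∈ B →
        SP.nm g * ‖g.1.1 *ᵥ x‖ ≤ C * ‖x‖ := by
  obtain ⟨δ, hδ, hu⟩ := unif1 hB hAB
  set T : ℝ := 2 + 64 / δ with hT
  have hT2 : 2 ≤ T := by
    have : 0 < 64 / δ := by positivity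
    linarith
  have hT0 : 0 < T := by linarith
  have hTc : 32 * 2 ≤ δ * T := by
    rw [hT, mul_add, mul_div_cancel₀ _ hδ.ne']
    nlinarith
  have h16 : 0 < 16 / δ := by positivity
  refine ⟨T, hT0, 1 + 16 / δ, by linarith, ?_⟩
  rintro g ⟨v, φ, hv, hvA, hvφ⟩ x hx hyB
  have hN : 0 < SP.nm g := nm_pos _
  obtain ⟨i, p, hip⟩ := exists_entry g.1.1
  have hgx : g.1.1 *ᵥ x ≠ 0 := by
    intro h0
    have h1 : (g⁻¹).1.1 *ᵥ (g.1.1 *ᵥ x) = x := by
      rw [Matrix.mulVec_mulVec]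
      have : (g⁻¹).1.1 * g.1.1 = 1 := congrArg (fun g : S4 k => g.1.1) (inv_mul_cancel g)
      rw [this, Matrix.one_mulVec]
    rw [h0, Matrix.mulVec_zero] at h1
    exact hx h1.symm
  have e : g • (Projectivization.mk k x hx : YY k 3) =
      Projectivization.mk k (g.1.1 *ᵥ x) hgx := by
    rw [SP4.smul_YY, Projectivization.smul_mk]
    rfl
  rw [e] at hyB
  obtain ⟨v', h1, h2, h3⟩ := hu v _ hv hgx hvA hyB
  have hM : ∀ a b, ‖g.1.1 a b - Matrix.vecMulVec v φ a b‖ ≤ SP.nm g / T := by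
    intro a b
    rw [Matrix.vecMulVec_apply]
    exact hvφ a b
  have hspan := span_one hN hT2 hM hip (finrank_span_singleton hv)
    (X := Submodule.span k {v}) (fun u => by
      have : Matrix.vecMulVec v φ *ᵥ u = (φ ⬝ᵥ u) • v := by
        ext a
        simp only [Matrix.mulVec, dotProduct, Matrix.vecMulVec_apply, Pi.smul_apply,
          smul_eq_mul, Finset.sum_mul]
        exact Finset.sum_congr rfl fun b _ => by ring
      rw [this]
      exact Submodule.smul_mem _ _ (Submodule.mem_span_singleton_self v)) h1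
  have h4 := contract (jj_of g) hN hT0 (by norm_num : (0 : ℝ) ≤ 2) hδ hM hspan h2 h3 hTc
  refine h4.trans (mul_le_mul_of_nonneg_right ?_ (norm_nonneg _))
  have : 8 * 2 / δ = 16 / δ := by norm_num
  linarith

/-- near-wall elements whose attracting line is in `A` contract the lines moved into a set
opposite to `A` at the full rate -/
theorem loc2 {A B : Set (LL k)} (hB : IsClosed B)
    (hAB : ∀ x ∈ closure A, ∀ y ∈ B, opp2 x y) (R : ℝ) : ∃ T > 0, ∃ C : ℝ, 1 ≤ C ∧ ∀ g : S4 k,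
      NW2 R g → Att2 T A g → ∀ ν : LL k, g • ν ∈ B → ∀ z ∈ ν.1.1,
        SP.nm g * ‖g.1.1 *ᵥ z‖ ≤ C * ‖z‖ := by
  obtain ⟨δ, hδ, hu⟩ := unif2 hB hAB
  set R' : ℝ := |R| + 1 with hR'
  have hR0 : 0 < R' := by
    have := abs_nonneg R
    linarith
  set T : ℝ := 1 + 12 * R' + 512 * R' / δ with hT
  have hq : 0 < 512 * R' / δ := by positivity
  have hT1 : 1 ≤ T := by linarith
  have hT0 : 0 < T := by linarith
  have hTR : 12 * R' ≤ T := by linarith
  have hTc : 32 * (16 * R') ≤ δ * T := by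
    have e : δ * T = δ * (1 + 12 * R') + 512 * R' := by
      rw [hT]
      field_simp
    rw [e]
    have : 0 ≤ δ * (1 + 12 * R') := by positivity
    linarith
  have hq' : 0 < 8 * (16 * R') / δ := by positivity
  refine ⟨T, hT0, 1 + 8 * (16 * R') / δ, by linarith, ?_⟩
  rintro g hnw ⟨X, hX, Mx, hMX, hM⟩ ν hν z hz
  have hN : 0 < SP.nm g := nm_pos _
  obtain ⟨i, i', j, j', hm⟩ := exists_minor g.1.1
  have hm0 : 0 ≤ H337.NG.m2 g.1.1 := H337.NG.m2_nonneg _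
  have hm' : SP.nm g ^ 2 ≤ R' * ‖g.1.1 i j * g.1.1 i' j' - g.1.1 i j' * g.1.1 i' j‖ := by
    have h2 : mi g.1.1 i i' j j' = g.1.1 i j * g.1.1 i' j' - g.1.1 i j' * g.1.1 i' j := by
      unfold mi
      ring
    rw [h2] at hm
    have h3 : R * H337.NG.m2 g.1.1 ≤ R' * H337.NG.m2 g.1.1 := by
      refine mul_le_mul_of_nonneg_right ?_ hm0
      have := le_abs_self R
      linarith
    exact (hnw.trans h3).trans (mul_le_mul_of_nonneg_left hm hR0.le)
  have hgz : g.1.1 *ᵥ z ∈ (g • ν).1.1 := by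
    rw [SP4.smul_LL, H100.Gr.smul_val]
    exact ⟨z, hz, rfl⟩
  obtain ⟨v, hv, hv1, hvz⟩ := hu X hX _ hν _ hgz
  have hup : ∀ a b, ‖g.1.1 a b‖ ≤ SP.nm g := fun a b => entry_le _ _ _
  have hspan := span_two hN hT1 hR0 hTR hup hM hm' X.1.2 hMX hv
  have h4 := contract (jj_of g) hN hT0 (by positivity) hδ hM hspan hv1 hvz hTc
  refine h4.trans (mul_le_mul_of_nonneg_right ?_ (norm_nonneg _))
  linarith

omit [ProperSpace k] in
/-- elements of comparable size which contract the same line: bounded quotient -/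
theorem near2 {C : ℝ} (hC1 : 1 ≤ C) {g g' : S4 k} (h1 : SP.nm g ≤ C * SP.nm g')
    (h2 : SP.nm g' ≤ C * SP.nm g) {ν : LL k}
    (k1 : ∀ z ∈ ν.1.1, SP.nm g * ‖g.1.1 *ᵥ z‖ ≤ C * ‖z‖)
    (k2 : ∀ z ∈ ν.1.1, SP.nm g' * ‖g'.1.1 *ᵥ z‖ ≤ C * ‖z‖) :
    SP.nm (g' * g⁻¹) ≤ 44 * C ^ 3 := by
  have hcl := cap_ln (g := g.1.1) (h := g'.1.1) hC1 (nm_pos g) (nm_pos g')
    (jj_of g) (fun a b => entry_le _ _ _) (fun a b => entry_le _ _ _) h1 h2 ν.1.2
    (fun x hx y' hy' => by rw [← om_eq']; exact ν.2 x hx y' hy') k1 k2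
  rw [nm_eq]
  refine en_le_of (by positivity) fun a b => ?_
  have e1 : (g' * g⁻¹).1.1 a b = (g'.1.1 *ᵥ ((g⁻¹).1.1 *ᵥ ee b)) a := by
    rw [Matrix.mulVec_mulVec]
    exact (mulVec_ee (g'.1.1 * (g⁻¹).1.1) b a).symm
  have e2 : g.1.1 *ᵥ ((g⁻¹).1.1 *ᵥ ee b) = ee b := by
    have e3 : g.1.1 * (g⁻¹).1.1 = 1 := congrArg (fun g : S4 k => g.1.1) (mul_inv_cancel g)
    rw [Matrix.mulVec_mulVec, e3, Matrix.one_mulVec]
  rw [e1]
  refine (norm_le_pi_norm _ a).trans ((hcl _).trans ?_)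
  rw [e2]
  have := norm_ee (k := k) b
  have h5 : 0 ≤ 44 * C ^ 3 := by positivity
  nlinarith

omit [ProperSpace k] in
/-- elements of comparable size near the wall of points which contract the same point: bounded
quotient -/
theorem near1 {C : ℝ} (hC1 : 1 ≤ C) {g g' : S4 k} (w1 : NW1 C g) (w2 : NW1 C g')
    (h1 : SP.nm g ≤ C * SP.nm g') (h2 : SP.nm g' ≤ C * SP.nm g) {x : Fin 4 → k} (hx : x ≠ 0)
    (k1 : SP.nm g * ‖g.1.1 *ᵥ x‖ ≤ C * ‖x‖) (k2 : SP.nm g' * ‖g'.1.1 *ᵥ x‖ ≤ C * ‖x‖) :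
    SP.nm (g' * g⁻¹) ≤ 2464 * C ^ 9 := by
  have key : ∀ g : S4 k, NW1 C g → NW C (SP.nm g) g.1.1 := by
    intro g hnw
    obtain ⟨i, p, hip⟩ := exists_entry g.1.1
    refine ⟨jj_of _, fun a b => entry_le _ _ _, ⟨i, p, ?_⟩, fun a b c d => ?_⟩
    · rw [nm_eq]
      have := norm_nonneg (g.1.1 i p)
      nlinarith
    · have h1 := mi_le g.1.1 a b c d
      have h2 : mi g.1.1 a b c d = g.1.1 a c * g.1.1 b d - g.1.1 a d * g.1.1 b c := by
        unfold mi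
        ring
      rw [h2] at h1
      exact h1.trans hnw
  rw [nm_eq]
  refine en_le_of (by positivity) fun a b => ?_
  exact cap_pt hC1 (nm_pos g) (nm_pos g') (key g w1) (key g' w2) h1 h2 hx k1 k2
    (g' := (g⁻¹).1.1) (congrArg (fun g : S4 k => g.1.1) (mul_inv_cancel g)) a b

omit [ProperSpace k] in
/-- bounded shells for lines -/
theorem shell2 {Γ : Type} {q : Γ → S4 k} (hud : UD q) (C : ℝ) : ∃ N : ℕ, ∀ S : Finset Γ,
    (∀ γ ∈ S, ∀ γ' ∈ S, SP.nm (q γ) ≤ C * SP.nm (q γ')) → ∀ ν : LL k,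
      (∀ γ ∈ S, ∀ z ∈ ν.1.1, SP.nm (q γ) * ‖(q γ).1.1 *ᵥ z‖ ≤ C * ‖z‖) → S.card ≤ N := by
  set C' : ℝ := max C 1 with hC'
  have hc1 : 1 ≤ C' := le_max_right _ _
  have hcc : C ≤ C' := le_max_left _ _
  obtain ⟨N, hN⟩ := hud (44 * C' ^ 3)
  refine ⟨N, fun S hS ν hν => hN S (fun _ _ => mem_univ _) fun γ hγ γ' hγ' => ?_⟩
  exact near2 hc1 ((hS γ hγ γ' hγ').trans (mul_le_mul_of_nonneg_right hcc (nm_pos _).le))
    ((hS γ' hγ' γ hγ).trans (mul_le_mul_of_nonneg_right hcc (nm_pos _).le))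
    (fun z hz => (hν γ hγ z hz).trans (mul_le_mul_of_nonneg_right hcc (norm_nonneg _)))
    (fun z hz => (hν γ' hγ' z hz).trans (mul_le_mul_of_nonneg_right hcc (norm_nonneg _)))

omit [ProperSpace k] in
/-- bounded shells for points -/
theorem shell1 {Γ : Type} {q : Γ → S4 k} (hud : UD q) (C : ℝ) : ∃ N : ℕ, ∀ S : Finset Γ,
    (∀ γ ∈ S, NW1 C (q γ)) → (∀ γ ∈ S, ∀ γ' ∈ S, SP.nm (q γ) ≤ C * SP.nm (q γ')) →
      ∀ x : Fin 4 → k, x ≠ 0 → (∀ γ ∈ S, SP.nm (q γ) * ‖(q γ).1.1 *ᵥ x‖ ≤ C * ‖x‖) →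
        S.card ≤ N := by
  set C' : ℝ := max C 1 with hC'
  have hc1 : 1 ≤ C' := le_max_right _ _
  have hcc : C ≤ C' := le_max_left _ _
  obtain ⟨N, hN⟩ := hud (2464 * C' ^ 9)
  refine ⟨N, fun S hw hS x hx hν => hN S (fun _ _ => mem_univ _) fun γ hγ γ' hγ' => ?_⟩
  have hw' : ∀ γ ∈ S, NW1 C' (q γ) := fun γ hγ =>
    (hw γ hγ).trans (mul_le_mul_of_nonneg_right hcc (nm_pos _).le)
  exact near1 hc1 (hw' γ hγ) (hw' γ' hγ')
    ((hS γ hγ γ' hγ').trans (mul_le_mul_of_nonneg_right hcc (nm_pos _).le))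
    ((hS γ' hγ' γ hγ).trans (mul_le_mul_of_nonneg_right hcc (nm_pos _).le)) hx
    ((hν γ hγ).trans (mul_le_mul_of_nonneg_right hcc (norm_nonneg _)))
    ((hν γ' hγ').trans (mul_le_mul_of_nonneg_right hcc (norm_nonneg _)))

end loc

end Vale.Agent.P092.H315P.Opp
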